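import Vale.Agent.P134.PX.Bridge
import Vale.Agent.P134.H586.StGw

/-! # P134 / PX : `PX.StFIALA → ASM.StFIALA` -/

open MeasureTheory Set
open scoped ENNReal RealInnerProductSpace Real

namespace Vale.Agent.P134.PX

open PS hiding Lat
open H458

/-- `ofReal ∫ ≤ ∫⁻ ofReal` -/
theorem ofReal_integral_le {α : Type*} [MeasurableSpace α] {μ : Measure α} {f : α → ℝ}
    (h0 : ∀ x, 0 ≤ f x) : ENNReal.ofReal (∫ x, f x ∂μ) ≤ ∫⁻ x, ENNReal.ofReal (f x) ∂μ := by
  by_cases h : Integrable f μ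
  · rw [ofReal_integral_eq_lintegral_ofReal h (Filter.Eventually.of_forall h0)]
  · rw [integral_undef h]; simp

/-- indicator weights -/
noncomputable def Wi (s1 : ℝ) (t c : ℝ) : ℝ := if |c| < s1 + t then 1 else 0

theorem Wt_Wi {s1 : ℝ} (hs : 1 ≤ s1) : Wt (s1 + 2) (Wi s1) where
  meas t := by
    unfold Wi
    exact Measurable.ite (measurableSet_lt (by fun_prop) measurable_const) measurable_const
      measurable_const
  nonneg t c := by unfold Wi; split_ifs <;> norm_num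
  bdd t c ht := by unfold Wi; split_ifs <;> linarith
  supp t c h := by
    unfold Wi at h
    split_ifs at h with h1
    · linarith
    · simp at h
  mono t t' a b h := by
    unfold Wi
    split_ifs with h1 h2 h3
    · exact le_rfl
    · exfalso
      apply h2
      have : |b| ≤ |a| + |a - b| := by
        have := abs_sub_abs_le_abs_sub b a
        rw [abs_sub_comm b a] at this
        linarith
      linarith
    · norm_num
    · exact le_rfl

variable {p : (Fin 3 → ℝ) → ℝ}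

theorem Good_of {B : Set (Fin 3 → ℝ)} {s δ L0 : ℝ} (hp : ContDiff ℝ 2 p)
    (h1 : ∀ x, SM.gs p x ≤ 1)
    (hg : ∀ x, |p x| ≤ s + 10 → LI.Far B L0 x → ∃ n : Fin 3 → ℝ, esq n = 1 ∧
      ∀ y, eno (y - x) ≤ 50 * (s + 10) → eno (fun i => pd i p y - n i) ≤ δ) :
    Good (p ∘ T3) (T3 ⁻¹' B) s δ L0 where
  c2 := hp.comp T3.contDiff
  le_one x := by
    rw [norm_gradient, SM.wn]
    exact Real.sqrt_le_one.2 (h1 _)
  flat x hx hB := by
    obtain ⟨n, hn, h⟩ := hg (T3 x) hx (by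
      intro b hb
      have := hB (T3.symm b) (by simpa using hb)
      rwa [dist_T3, T3_symm_apply] at this)
    refine ⟨T3.symm n, ?_, fun y hy => ?_⟩
    · rw [← eno_T3, T3_symm_apply, eno, hn, Real.sqrt_one]
    · have h2 := h (T3 y) (by rw [← dist_T3]; exact hy)
      rw [← eno_T3]
      convert h2 using 2
      ext i
      rw [T3_apply]
      simp only [PiLp.sub_apply]
      rw [gradient_apply, fderiv_T3]
      congr 1

theorem Gwt_of {lam l : ℝ} (h0 : 0 ≤ lam) (hl : lam ≤ l) :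
    Gwt (fun x => LI.Gw lam (T3 x)) l where
  pos x := H586.Gw_pos lam _
  lip x y := by
    have h := H586.Gw_shift_le h0 (T3 x) (T3 y)
    rw [← dist_T3] at h
    refine h.trans ?_
    have := H586.Gw_pos lam (T3 y)
    gcongr
  cont := (H586.Gw_continuous lam).comp T3.continuous

theorem chd_cases (B : Set (Fin 3 → ℝ)) (S L0 T : ℝ) (hT : 0 ≤ T) (x : E3) :
    (rho3 (p ∘ T3) S (Zon (T3 ⁻¹' B) L0) x < ENNReal.ofReal T ∧
      ASM.chd p B S (2 * L0) 2 T (T3 x) =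
        (rho3 (p ∘ T3) S (Zon (T3 ⁻¹' B) L0) x).toReal) ∨
    (ENNReal.ofReal T ≤ rho3 (p ∘ T3) S (Zon (T3 ⁻¹' B) L0) x ∧
      ASM.chd p B S (2 * L0) 2 T (T3 x) = T) := by
  rw [chd_eq B S L0 T hT x]
  rcases lt_or_ge (rho3 (p ∘ T3) S (Zon (T3 ⁻¹' B) L0) x) (ENNReal.ofReal T) with h | h
  · left; rw [min_eq_right h.le]; exact ⟨h, rfl⟩
  · right; rw [min_eq_left h, ENNReal.toReal_ofReal hT]; exact ⟨h, rfl⟩

theorem measurable_chd (hp : Continuous p) (B : Set (Fin 3 → ℝ)) (S L0 T : ℝ) (hT : 0 ≤ T) :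
    Measurable (ASM.chd p B S (2 * L0) 2 T) := by
  have h : ASM.chd p B S (2 * L0) 2 T = fun y =>
      (min (ENNReal.ofReal T) (rho3 (p ∘ T3) S (Zon (T3 ⁻¹' B) L0) (T3.symm y))).toReal := by
    funext y
    rw [← chd_eq B S L0 T hT, T3_symm_apply]
  rw [h]
  have h1 : Measurable (rho3 (p ∘ T3) S (Zon (T3 ⁻¹' B) L0)) :=
    measurable_rho3 (hp.comp T3.continuous)
  exact (measurable_const.min (h1.comp T3.symm.continuous.measurable)).ennreal_toReal

theorem ASM_Ph_nonneg {h : ℝ → ℝ} {R1 : ℝ} (h0 : ∀ t, 0 ≤ h t) (hz : ∀ t, R1 ≤ t → h t = 0)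
    (t : ℝ) : 0 ≤ ASM.Ph h R1 t := by
  unfold ASM.Ph
  rcases le_or_gt R1 t with hRt | hRt
  · rw [intervalIntegral.integral_symm, intervalIntegral.integral_of_le hRt]
    rw [setIntegral_congr_fun measurableSet_Ioc (g := fun _ => 0)]
    · simp
    · intro r hr
      simp only
      rw [hz r hr.1.le, mul_zero]
  · exact intervalIntegral.integral_nonneg hRt.le fun r hr =>
      mul_nonneg (by linarith [hr.1]) (h0 _)

/-- noise in the slab -/
noncomputable def Mn (p : (Fin 3 → ℝ) → ℝ) (x : Fin 3 → ℝ) : ℝ :=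
  7 / 2 * SM.hs p x + 200 * (SM.lap p x ^ 2 + ∑ i, (∑ j, pd i (pd j p) x * pd j p x) ^ 2)

theorem hs_nonneg (x : Fin 3 → ℝ) : 0 ≤ SM.hs p x :=
  Finset.sum_nonneg fun _ _ => Finset.sum_nonneg fun _ _ => sq_nonneg _

theorem gs_nonneg (x : Fin 3 → ℝ) : 0 ≤ SM.gs p x := Finset.sum_nonneg fun _ _ => sq_nonneg _

theorem Mn_nonneg (x : Fin 3 → ℝ) : 0 ≤ Mn p x := by
  have := hs_nonneg (p := p) x
  unfold Mn
  positivity

theorem Mn_le (hgs : ∀ x, SM.gs p x ≤ 1) (x : Fin 3 → ℝ) : Mn p x ≤ 1000 * SM.hs p x := by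
  have h1 : SM.lap p x ^ 2 ≤ 3 * SM.hs p x := by
    unfold SM.lap SM.hs
    simp only [Fin.sum_univ_three]
    nlinarith [sq_nonneg (pd 0 (pd 0 p) x - pd 1 (pd 1 p) x),
      sq_nonneg (pd 0 (pd 0 p) x - pd 2 (pd 2 p) x), sq_nonneg (pd 1 (pd 1 p) x - pd 2 (pd 2 p) x),
      sq_nonneg (pd 0 (pd 1 p) x), sq_nonneg (pd 0 (pd 2 p) x), sq_nonneg (pd 1 (pd 0 p) x),
      sq_nonneg (pd 1 (pd 2 p) x), sq_nonneg (pd 2 (pd 0 p) x), sq_nonneg (pd 2 (pd 1 p) x)]
  have h2 : ∑ i, (∑ j, pd i (pd j p) x * pd j p x) ^ 2 ≤ SM.hs p x * 1 := by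
    calc ∑ i, (∑ j, pd i (pd j p) x * pd j p x) ^ 2
        ≤ ∑ i, (∑ j, pd i (pd j p) x ^ 2) * (∑ j, pd j p x ^ 2) :=
          Finset.sum_le_sum fun i _ => Finset.sum_mul_sq_le_sq_mul_sq _ _ _
      _ = SM.hs p x * SM.gs p x := by rw [← Finset.sum_mul]; rfl
      _ ≤ SM.hs p x * 1 := by
          have := hgs x
          have := hs_nonneg (p := p) x
          gcongr
  have := hs_nonneg (p := p) x
  unfold Mn
  linarith

/-- pointwise bound of the noise -/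
theorem noise_le (hp : ContDiff ℝ 2 p) (hgs : ∀ x, SM.gs p x ≤ 1) {ε : ℝ} (h0 : 0 ≤ ε)
    (h1 : ε ≤ 1 / 2) (x : E3) :
    (1 + ε) * NN (p ∘ T3) x + ε * ‖fderiv ℝ (fderiv ℝ (p ∘ T3)) x‖ ^ 2 ≤ Mn p (T3 x) := by
  have a1 := NN_le_coord hp x
  have a2 := norm_fderiv2_sq hp x
  have a3 := hs_nonneg (p := p) (T3 x)
  have a4 := gs_nonneg (p := p) (T3 x)
  have a5 := hgs (T3 x)
  set H := SM.hs p (T3 x)
  set g := SM.gs p (T3 x)
  set l := SM.lap p (T3 x) ^ 2 with hl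
  set r := ∑ i, (∑ j, pd i (pd j p) (T3 x) * pd j p (T3 x)) ^ 2 with hr
  have a6 : 0 ≤ l := sq_nonneg _
  have a7 : 0 ≤ r := Finset.sum_nonneg fun _ _ => sq_nonneg _
  have b1 : NN (p ∘ T3) x ≤ 8 / 5 * H + 100 * (l + r) := by
    have c1 : g * H ≤ 1 * H := by gcongr
    have c2 : g * l ≤ 1 * l := by gcongr
    nlinarith
  have b2 : 0 ≤ 8 / 5 * H + 100 * (l + r) := by positivity
  calc (1 + ε) * NN (p ∘ T3) x + ε * ‖fderiv ℝ (fderiv ℝ (p ∘ T3)) x‖ ^ 2
      ≤ (1 + ε) * (8 / 5 * H + 100 * (l + r)) + ε * H := by gcongr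
    _ ≤ (3 / 2) * (8 / 5 * H + 100 * (l + r)) + (1 / 2) * H := by
        have : 1 + ε ≤ 3 / 2 := by linarith
        gcongr
    _ ≤ 7 / 2 * H + 200 * (l + r) := by nlinarith
    _ = Mn p (T3 x) := rfl

theorem NN_nonneg (φ : E3 → ℝ) (x : E3) : 0 ≤ NN φ x := by
  unfold NN
  have : 0 ≤ ∑ τ : Fin 7, ∑ k ∈ Finset.range (mm τ), (fderiv ℝ φ x (pt (evec τ))) ^ 2 *
    (fderiv ℝ (fderiv ℝ φ) x (pt (bb τ k - sb τ (k + 1))) (pt (bb τ (k + 2) - sb τ (k + 1)))) ^ 2 :=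
    Finset.sum_nonneg fun _ _ => Finset.sum_nonneg fun _ _ => by positivity
  positivity

theorem continuous_Mn (hp : ContDiff ℝ 2 p) : Continuous (Mn p) := by
  have h1 : ∀ i, ContDiff ℝ 1 (pd i p) := fun i => by
    unfold pd
    exact (hp.fderiv_right (m := 1) (by norm_num)).clm_apply contDiff_const
  have h2 : ∀ i j, Continuous (pd i (pd j p)) := fun i j => by
    have := (h1 j).continuous_fderiv (by norm_num)
    unfold pd at this ⊢
    fun_prop
  have h3 : ∀ i, Continuous (pd i p) := fun i => (h1 i).continuous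
  unfold Mn SM.hs SM.lap
  fun_prop

/-- `ASM.Ph` through `Ph` -/
theorem ASM_Ph_eq {h : ℝ → ℝ} {R1 t : ℝ} (h0 : ∀ t, 0 ≤ h t) (ha : AntitoneOn h (Set.Ici 0))
    (hz : ∀ t, R1 ≤ t → h t = 0) (ht : 0 ≤ t) :
    ASM.Ph h R1 t = (Ph (fun s => h (max s 0)) t).toReal := by
  rw [Ph_eq h0 ha hz ht, ENNReal.toReal_ofReal (ASM_Ph_nonneg h0 hz t)]

theorem anti_ext {h : ℝ → ℝ} (ha : AntitoneOn h (Set.Ici 0)) :
    Antitone (fun s => h (max s 0)) := by
  intro a b hab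
  exact ha (mem_Ici.2 (le_max_right _ _)) (mem_Ici.2 (le_max_right _ _))
    (max_le_max hab le_rfl)

/-- the left side, pointwise -/
theorem left_le {e ε s1 L0 C : ℝ} {B : Set (Fin 3 → ℝ)} {h : ℝ → ℝ} {R1 lam T : ℝ}
    (he : 0 < e) (hεe : ε ≤ e) (hε : 0 < ε) (hC : 4 ≤ C) (h0 : ∀ t, 0 ≤ h t)
    (ha : AntitoneOn h (Set.Ici 0)) (hR1 : 1 ≤ R1) (hz : ∀ t, R1 ≤ t → h t = 0)
    (hT : 10 * (R1 + C) ≤ T) (x : E3) :
    ENNReal.ofReal ((if |p (T3 x)| < s1 then 1 else 0) *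
      (SM.wn p (T3 x) * h ((1 + e) * ASM.chd p B (s1 + 10) (2 * L0) 2 T (T3 x) + C) *
        LI.Gw lam (T3 x) ^ 2)) ≤
    ENNReal.ofReal (Wi s1 0 ((p ∘ T3) x) * ‖gradient (p ∘ T3) x‖) *
      Psi3 (p ∘ T3) (T3 ⁻¹' B) (s1 + 2) L0 ε (fun s => h (max s 0))
        (fun x => LI.Gw lam (T3 x)) x := by
  have hS : s1 + 2 + 8 = s1 + 10 := by ring
  have hT0 : 0 ≤ T := by linarith
  by_cases hx : |p (T3 x)| < s1
  swap
  · simp [hx]
  rcases chd_cases (p := p) B (s1 + 10) L0 T hT0 x with ⟨h1, h2⟩ | ⟨h1, h2⟩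
  · have hρ : rho3 (p ∘ T3) (s1 + 10) (Zon (T3 ⁻¹' B) L0) x < ⊤ := lt_of_lt_of_le h1 le_top
    have hW : Wi s1 0 ((p ∘ T3) x) = 1 := by simp [Wi, hx]
    rw [h2, norm_gradient, hW, if_pos hx, one_mul, one_mul]
    unfold Psi3
    rw [hS, if_pos hρ]
    set ρ := (rho3 (p ∘ T3) (s1 + 10) (Zon (T3 ⁻¹' B) L0) x).toReal
    have hρ0 : 0 ≤ ρ := ENNReal.toReal_nonneg
    have hw : 0 ≤ SM.wn p (T3 x) := Real.sqrt_nonneg _
    have hcmp : h ((1 + e) * ρ + C) ≤ h (max ((1 + ε) * ρ + 4) 0) := by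
      refine ha (mem_Ici.2 (le_max_right _ _)) (mem_Ici.2 (by positivity)) ?_
      apply max_le
      · nlinarith
      · positivity
    rw [ENNReal.ofReal_mul (by have := h0 ((1 + e) * ρ + C); positivity), ENNReal.ofReal_mul hw,
      mul_assoc]
    gcongr
  · have hz1 : h ((1 + e) * T + C) = 0 := by
      apply hz
      nlinarith
    rw [h2, hz1]
    simp

/-- the right side, pointwise -/
theorem right_le {e ε s1 L0 C : ℝ} {B : Set (Fin 3 → ℝ)} {h : ℝ → ℝ} {R1 lam T : ℝ}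
    (hp : ContDiff ℝ 2 p) (hgs : ∀ x, SM.gs p x ≤ 1) (hs1 : 1 ≤ s1)
    (he : 0 < e) (hε : 0 < ε) (hε2 : ε ≤ 1 / 2) (hC : C1 (s1 + 2) + 4 ≤ C) (h0 : ∀ t, 0 ≤ h t)
    (ha : AntitoneOn h (Set.Ici 0)) (hR1 : 1 ≤ R1) (hz : ∀ t, R1 ≤ t → h t = 0) (hL0 : 0 ≤ L0)
    (hT : 10 * (R1 + C) ≤ T) (x : E3)
    (hx0 : 0 < rho3 (p ∘ T3) (s1 + 10) (Zon (T3 ⁻¹' B) L0) x)
    (hx1 : rho3 (p ∘ T3) (s1 + 10) (Zon (T3 ⁻¹' B) L0) x < ⊤) :
    ENNReal.ofReal (Wi s1 8 ((p ∘ T3) x) *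
      ((1 + ε) * NN (p ∘ T3) x + ε * ‖fderiv ℝ (fderiv ℝ (p ∘ T3)) x‖ ^ 2) *
        LI.Gw lam (T3 x) ^ 2) *
      Ph (fun s => h (max s 0))
        (max ((rho3 (p ∘ T3) (s1 + 10) (Zon (T3 ⁻¹' B) L0) x).toReal - C1 (s1 + 2) - 4) 0) ≤
    ENNReal.ofReal ((open Classical in if |p (T3 x)| < s1 + 8 ∧ LI.Far B L0 (T3 x) then (1:ℝ) else 0) *
      (Mn p (T3 x) * ASM.Ph h R1 (max 0 ((1 - e) *
        ASM.chd p B (s1 + 10) (2 * L0) 2 T (T3 x) - C)) * LI.Gw lam (T3 x) ^ 2)) := by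
  have hC1 : C1 (s1 + 2) = 4 * (s1 + 2) + 30 := rfl
  have hT0 : 0 ≤ T := by linarith
  by_cases hx : |p (T3 x)| < s1 + 8
  swap
  · have hW : Wi s1 8 ((p ∘ T3) x) = 0 := by simp only [Wi, Function.comp, if_neg hx]
    rw [hW]; simp
  have hW : Wi s1 8 ((p ∘ T3) x) = 1 := by simp only [Wi, Function.comp, if_pos hx]
  have hFar : LI.Far B L0 (T3 x) := by
    by_contra hF
    unfold LI.Far at hF
    push Not at hF
    obtain ⟨b, hb, hlt⟩ := hF
    have hz0 : rho3 (p ∘ T3) (s1 + 10) (Zon (T3 ⁻¹' B) L0) x = 0 := by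
      refine rho3_eq_zero ((mem_Zon_iff B L0 x).2 ⟨b, hb, by linarith⟩) (slab_of_rho3 hx1)
    rw [hz0] at hx0
    exact lt_irrefl _ hx0
  rw [hW, if_pos ⟨hx, hFar⟩, one_mul, one_mul]
  set ρ := (rho3 (p ∘ T3) (s1 + 10) (Zon (T3 ⁻¹' B) L0) x).toReal with hρ
  have hρ0 : 0 ≤ ρ := ENNReal.toReal_nonneg
  have hanti := anti_ext ha
  have hN := noise_le hp hgs hε.le hε2 x
  have hN0 : 0 ≤ (1 + ε) * NN (p ∘ T3) x + ε * ‖fderiv ℝ (fderiv ℝ (p ∘ T3)) x‖ ^ 2 := by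
    have := NN_nonneg (p ∘ T3) x
    positivity
  have hM0 := Mn_nonneg (p := p) (T3 x)
  rcases chd_cases (p := p) B (s1 + 10) L0 T hT0 x with ⟨h1, h2⟩ | ⟨h1, h2⟩
  · rw [h2]
    set t2 := max 0 ((1 - e) * ρ - C) with ht2
    have ht20 : 0 ≤ t2 := le_max_left _ _
    have hle : Ph (fun s => h (max s 0)) (max (ρ - C1 (s1 + 2) - 4) 0) ≤
        ENNReal.ofReal (ASM.Ph h R1 t2) := by
      rw [← Ph_eq h0 ha hz ht20]
      apply Ph_anti hanti
      apply max_le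
      · exact le_max_right _ _
      · refine le_trans ?_ (le_max_left _ _)
        nlinarith
    have hP := ASM_Ph_nonneg h0 hz t2
    calc _ ≤ ENNReal.ofReal (Mn p (T3 x) * LI.Gw lam (T3 x) ^ 2) *
          ENNReal.ofReal (ASM.Ph h R1 t2) := by gcongr
      _ = _ := by
        rw [← ENNReal.ofReal_mul (by positivity)]
        congr 1; ring
  · have hTρ : T ≤ ρ := by
      rw [hρ]
      have := ENNReal.toReal_mono hx1.ne h1
      rwa [ENNReal.toReal_ofReal hT0] at this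
    rw [Ph_zero (R0 := R1) (fun t ht => hz _ (le_trans ht (le_max_left _ _)))]
    · simp
    · refine le_trans ?_ (le_max_left _ _)
      linarith

theorem fiala_bridge (hF : PX.StFIALA) : ASM.StFIALA := by
  refine ⟨200, by norm_num, fun e s1 he he1 hs1 => ?_⟩
  set ε : ℝ := min e (1 / 2) with hε
  have hε0 : 0 < ε := lt_min he (by norm_num)
  have hεe : ε ≤ e := min_le_left _ _
  have hε2 : ε ≤ 1 / 2 := min_le_right _ _
  obtain ⟨δ, hδ, H⟩ := hF ε hε0 (by linarith) (s1 + 2) (by linarith)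
  refine ⟨min δ 1, 50 * (s1 + 12), 200 * (s1 + 12), lt_min hδ one_pos, by linarith, by linarith,
    fun L0 hL0 => ?_⟩
  obtain ⟨C', H'⟩ := H L0 (by linarith)
  have hC1 : C1 (s1 + 2) = 4 * (s1 + 2) + 30 := rfl
  set C : ℝ := max C' (C1 (s1 + 2) + 4) with hC
  have hCC : C1 (s1 + 2) + 4 ≤ C := le_max_right _ _
  have hC4 : 4 ≤ C := by linarith
  refine ⟨C, by linarith, ?_⟩
  intro p hp hgs hK B hB hgood h R1 h0 ha hR1 hz lam T hlam hlR hT
  have hT0 : 0 ≤ T := by linarith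
  have hl1 : lam ≤ min δ 1 := by nlinarith
  have hlδ : lam ≤ δ / R1 := by
    rw [le_div_iff₀ (by linarith)]
    exact hlR.trans (min_le_left _ _)
  have hGood : Good (p ∘ T3) (T3 ⁻¹' B) (s1 + 2) δ L0 := by
    refine Good_of hp hgs fun x hx hf => ?_
    obtain ⟨n, hn, hh⟩ := hgood x (by linarith) hf
    refine ⟨n, hn, fun y hy => (hh y (by linarith)).trans (min_le_left _ _)⟩
  have key := H' (p ∘ T3) (T3 ⁻¹' B) hGood (Wi s1) (fun s => h (max s 0)) R1
    (fun x => LI.Gw lam (T3 x)) (Wt_Wi hs1)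
    ⟨hR1, anti_ext ha, fun t ht => hz _ (le_trans ht (le_max_left _ _))⟩
    (Gwt_of hlam.le hlδ)
  have hS : s1 + 2 + 8 = s1 + 10 := by ring
  obtain ⟨gcd, gpos, -, -, gint, gsum, -, -⟩ := H586.stGw lam hlam (hl1.trans (min_le_right _ _))
  -- the left side
  set A : LI.R3 → ℝ := fun y => (if |p y| < s1 then 1 else 0) *
      (SM.wn p y * h ((1 + e) * ASM.chd p B (s1 + 10) (2 * L0) 2 T y + C) * LI.Gw lam y ^ 2) with hA
  have hA0 : ∀ y, 0 ≤ A y := by
    intro y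
    rw [hA]
    have h1 : 0 ≤ SM.wn p y := Real.sqrt_nonneg _
    have h2 := h0 ((1 + e) * ASM.chd p B (s1 + 10) (2 * L0) 2 T y + C)
    simp only
    split_ifs <;> positivity
  have hleft : ENNReal.ofReal (∫ y, A y) ≤ ∫⁻ x : E3,
      ENNReal.ofReal (Wi s1 0 ((p ∘ T3) x) * ‖gradient (p ∘ T3) x‖) *
        Psi3 (p ∘ T3) (T3 ⁻¹' B) (s1 + 2) L0 ε (fun s => h (max s 0))
          (fun x => LI.Gw lam (T3 x)) x := by
    refine (ofReal_integral_le hA0).trans ?_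
    rw [← lintegral_T3]
    exact lintegral_mono fun x => left_le he hεe hε0 hC4 h0 ha hR1 hz hT x
  -- the right side
  classical
  set Bf : LI.R3 → ℝ := fun y => (if |p y| < s1 + 8 ∧ LI.Far B L0 y then (1:ℝ) else 0) *
      (Mn p y * ASM.Ph h R1 (max 0 ((1 - e) * ASM.chd p B (s1 + 10) (2 * L0) 2 T y - C)) *
        LI.Gw lam y ^ 2) with hBf
  have hBf0 : ∀ y, 0 ≤ Bf y := by
    intro y
    rw [hBf]
    have h1 := Mn_nonneg (p := p) y
    have h2 := ASM_Ph_nonneg h0 hz (max 0 ((1 - e) * ASM.chd p B (s1 + 10) (2 * L0) 2 T y - C))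
    simp only
    split_ifs <;> positivity
  have hPh0 := ASM_Ph_nonneg h0 hz 0
  have hBint : Integrable Bf := by
    obtain ⟨K, hK⟩ := hK
    have hK0 : 0 ≤ max K 0 := le_max_right _ _
    refine Integrable.mono' (gint.const_mul (1000 * max K 0 * ASM.Ph h R1 0)) ?_ ?_
    · refine Measurable.aestronglyMeasurable ?_
      rw [hBf]
      refine Measurable.mul ?_ ?_
      · refine Measurable.ite ?_ measurable_const measurable_const
        have hpm : Measurable fun y : LI.R3 => |p y| := hp.continuous.abs.measurable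
        exact (measurableSet_lt hpm measurable_const).inter (H586.measurableSet_Far B L0)
      · refine (Measurable.mul (continuous_Mn hp).measurable ?_).mul
          ((H586.Gw_continuous lam).measurable.pow_const 2)
        have e1 : (fun y => ASM.Ph h R1 (max 0 ((1 - e) *
            ASM.chd p B (s1 + 10) (2 * L0) 2 T y - C))) = fun y =>
            (Ph (fun s => h (max s 0)) (max 0 ((1 - e) *
              ASM.chd p B (s1 + 10) (2 * L0) 2 T y - C))).toReal := by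
          funext y
          exact ASM_Ph_eq h0 ha hz (le_max_left _ _)
        rw [e1]
        have hm : Measurable (Ph (fun s => h (max s 0))) := (Ph_anti (anti_ext ha)).measurable
        refine (hm.comp ?_).ennreal_toReal
        have := measurable_chd (p := p) hp.continuous B (s1 + 10) L0 T hT0
        fun_prop
    · refine Filter.Eventually.of_forall fun y => ?_
      rw [Real.norm_of_nonneg (hBf0 y), hBf]
      simp only
      have hG := (gpos y).1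
      split_ifs with hc
      · have h1 : Mn p y ≤ 1000 * max K 0 := by
          refine (Mn_le hgs y).trans ?_
          have := hK y (by linarith [hc.1])
          have := le_max_left K 0
          linarith
        have h2 : ASM.Ph h R1 (max 0 ((1 - e) * ASM.chd p B (s1 + 10) (2 * L0) 2 T y - C)) ≤
            ASM.Ph h R1 0 := by
          rw [ASM_Ph_eq h0 ha hz (le_max_left _ _), ASM_Ph_eq h0 ha hz le_rfl]
          refine ENNReal.toReal_mono ?_ (Ph_anti (anti_ext ha) (le_max_left _ _))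
          rw [Ph_eq h0 ha hz le_rfl]
          exact ENNReal.ofReal_ne_top
        have h3 := Mn_nonneg (p := p) y
        have h4 := ASM_Ph_nonneg h0 hz (max 0 ((1 - e) *
          ASM.chd p B (s1 + 10) (2 * L0) 2 T y - C))
        rw [one_mul]
        gcongr
      · rw [zero_mul]
        positivity
  have hright : ∫⁻ x : E3 in {x | 0 < rho3 (p ∘ T3) (s1 + 2 + 8) (Zon (T3 ⁻¹' B) L0) x ∧
      rho3 (p ∘ T3) (s1 + 2 + 8) (Zon (T3 ⁻¹' B) L0) x < ⊤},
      ENNReal.ofReal (Wi s1 8 ((p ∘ T3) x) *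
        ((1 + ε) * NN (p ∘ T3) x + ε * ‖fderiv ℝ (fderiv ℝ (p ∘ T3)) x‖ ^ 2) *
          LI.Gw lam (T3 x) ^ 2) *
        Ph (fun s => h (max s 0)) (max ((rho3 (p ∘ T3) (s1 + 2 + 8)
          (Zon (T3 ⁻¹' B) L0) x).toReal - C1 (s1 + 2) - 4) 0) ≤ ENNReal.ofReal (∫ y, Bf y) := by
    rw [ofReal_integral_eq_lintegral_ofReal hBint (Filter.Eventually.of_forall hBf0),
      ← lintegral_T3]
    rw [hS]
    have hmeas : MeasurableSet {x : E3 | 0 < rho3 (p ∘ T3) (s1 + 10) (Zon (T3 ⁻¹' B) L0) x ∧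
        rho3 (p ∘ T3) (s1 + 10) (Zon (T3 ⁻¹' B) L0) x < ⊤} := by
      have hm : Measurable (rho3 (p ∘ T3) (s1 + 10) (Zon (T3 ⁻¹' B) L0)) :=
        measurable_rho3 (hp.continuous.comp T3.continuous)
      exact (measurableSet_lt measurable_const hm).inter (measurableSet_lt hm measurable_const)
    refine (setLIntegral_mono' hmeas fun x hx => ?_).trans (setLIntegral_le_lintegral _ _)
    have := right_le (lam := lam) (B := B) hp hgs hs1 he hε0 hε2 hCC h0 ha hR1 hz (by linarith) hT x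
      hx.1 hx.2
    convert this using 3
  have hsum : ∑' b : (T3 ⁻¹' B : Set E3), ENNReal.ofReal ((fun x => LI.Gw lam (T3 x)) b ^ 2) =
      ENNReal.ofReal (∑' b : B, LI.Gw lam b ^ 2) := by
    rw [ENNReal.ofReal_tsum_of_nonneg (fun b => by positivity) (gsum B hB)]
    let eqv : (T3 ⁻¹' B : Set E3) ≃ B :=
      { toFun := fun x => ⟨T3 x.1, x.2⟩
        invFun := fun b => ⟨T3.symm b.1, by simp⟩
        left_inv := fun x => by simp
        right_inv := fun b => by simp }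
    exact Equiv.tsum_eq eqv (fun b : B => ENNReal.ofReal (LI.Gw lam b ^ 2))
  have hsum0 : 0 ≤ ∑' b : B, LI.Gw lam b ^ 2 := tsum_nonneg fun b => by positivity
  have e0 : Ph (fun s => h (max s 0)) 0 = ENNReal.ofReal (ASM.Ph h R1 0) := Ph_eq h0 ha hz le_rfl
  have fin : ENNReal.ofReal (∫ y, A y) ≤
      ENNReal.ofReal (C * ASM.Ph h R1 0 * ∑' b : B, LI.Gw lam b ^ 2 + ∫ y, Bf y) := by
    refine (hleft.trans key).trans ?_
    rw [ENNReal.ofReal_add (by positivity) (integral_nonneg (fun y => hBf0 y))]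
    refine add_le_add ?_ hright
    rw [hsum, e0, ENNReal.ofReal_mul (by positivity), ENNReal.ofReal_mul (by linarith)]
    gcongr
    exact le_max_left _ _
  have hBfi : 0 ≤ ∫ y, Bf y := integral_nonneg (fun y => hBf0 y)
  have hfin := (ENNReal.ofReal_le_ofReal_iff (by positivity)).1 fin
  refine hfin.trans (le_of_eq ?_)
  congr 1

end Vale.Agent.P134.PX
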