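import Vale.Agent.P134.PX.Final
import Vale.Agent.P134.PX.Bridge2

/-! # P134 / PX : the polyhedral part in the form of the assembly -/

namespace Vale.Agent.P134.PX

/-- the weighted Fiala inequality in slab form -/
theorem FIALA_ASM : ASM.StFIALA := fiala_bridge FIALA

end Vale.Agent.P134.PX
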