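import Vale.Agent.P134.PS.Kuhn

/-!
# P134 / PX : from the polyhedral area inequality to the slab inequality `FIALA3D`

`φ : E3 → ℝ` is 1-Lipschitz and `C²`; away from the bad centres `B` its gradient is almost constant
at scale `Rg`.  `srho` is the chain distance in the slab `{|φ| ≤ s}` (steps `≤ r`) from `A`.
`P` plays the role of `F'²` (antitone, zero for `t ≥ R0`), `Phi P t = ∫_{r>0} P (t+r) r dr`,
`H` the role of the squared weight `G²`.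
-/

open MeasureTheory Set
open scoped ENNReal RealInnerProductSpace Real

namespace Vale.Agent.P134.PF

open Vale.Agent.P134.PS

abbrev Lt := PS.Lat

/-- chain distance from `A` in the slab `{|φ| ≤ s}` with steps `≤ r` -/
noncomputable def srho (φ : E3 → ℝ) (s r : ℝ) (A : Set E3) (x : E3) : ℝ≥0∞ :=
  ⨅ (n : ℕ) (p : ℕ → E3) (_ : p 0 ∈ A ∧ p n = x ∧ (∀ k, k ≤ n → |φ (p k)| ≤ s) ∧
    ∀ k, k < n → dist (p k) (p (k + 1)) ≤ r), ENNReal.ofReal (Surf.len n p)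

/-- points at distance `≤ L` from `B` -/
def Nr (B : Set E3) (L : ℝ) : Set E3 := {x | ∃ b ∈ B, dist x b ≤ L}

noncomputable def Phi (P : ℝ≥0∞ → ℝ≥0∞) (t : ℝ≥0∞) : ℝ≥0∞ :=
  ∫⁻ r in Ioi (0 : ℝ), P (t + ENNReal.ofReal r) * ENNReal.ofReal r

/-- first derivative in the direction `a` -/
noncomputable def d1 (φ : E3 → ℝ) (x a : E3) : ℝ := fderiv ℝ φ x a

/-- second derivative in the directions `a`, `b` -/
noncomputable def d2 (φ : E3 → ℝ) (x a b : E3) : ℝ := fderiv ℝ (fun y => fderiv ℝ φ y a) x b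

/-- the standard basis -/
noncomputable def bs (j : Fin 3) : E3 := EuclideanSpace.single j 1

/-- `|D²φ|²` -/
noncomputable def hs (φ : E3 → ℝ) (x : E3) : ℝ := ∑ i, ∑ j, d2 φ x (bs i) (bs j) ^ 2

/-- hypotheses on `φ` and `B` -/
structure GD (φ : E3 → ℝ) (B : Set E3) (s e0 Rg L0 : ℝ) : Prop where
  c2 : ContDiff ℝ 2 φ
  lip : ∀ x y, |φ x - φ y| ≤ dist x y
  fin : ∀ R : ℝ, (B ∩ Metric.closedBall 0 R).Finite
  good : ∀ x, |φ x| ≤ s → x ∉ Nr B L0 → ∃ n : E3, ‖n‖ = 1 ∧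
    ∀ y, dist x y ≤ Rg → ∀ a : E3, |d1 φ y a - inner ℝ n a| ≤ e0 * ‖a‖

/-- weights: `H x ≤ e^{κ |x-y|} H y` -/
structure HW (H : E3 → ℝ≥0∞) (κ : ℝ) : Prop where
  meas : Measurable H
  nn : 0 ≤ κ
  le : ∀ x y, H x ≤ ENNReal.ofReal (Real.exp (κ * dist x y)) * H y

/-- lattice values with offset `o` -/
noncomputable def wo (φ : E3 → ℝ) (o : E3) : Lt → ℝ := fun q => φ (pt q + o)

/-- previous link vertex -/
def prv (τ : Fin 7) (k : ℕ) : Lt := bb τ (k + mm τ - 1)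

/-- base point and sides of the lattice parallelogram belonging to the `k`-th side of the Gauss
polygon of the edge `τ` -/
def par (τ : Fin 7) (k : ℕ) : Lt × Lt × Lt :=
  if prv τ k + bb τ (k + 1) = bb τ k ∨ prv τ k + bb τ (k + 1) = evec τ then
    (0, prv τ k, bb τ (k + 1))
  else (bb τ k, prv τ k - bb τ k, bb τ (k + 1) - bb τ k)

/-- second difference of `w` over the parallelogram -/
def lam (w : Lt → ℝ) (q : Lt) (τ : Fin 7) (k : ℕ) : ℝ :=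
  w (q + (par τ k).1 + (par τ k).2.1 + (par τ k).2.2) - w (q + (par τ k).1 + (par τ k).2.1)
    - w (q + (par τ k).1 + (par τ k).2.2) + w (q + (par τ k).1)

/-- the noise form `N(Dφ, D²φ)` -/
noncomputable def NN (φ : E3 → ℝ) (x : E3) : ℝ :=
  ∑ τ : Fin 7, 1 / 4 * d1 φ x (pt (evec τ)) ^ 2 *
    ∑ k ∈ Finset.range (mm τ), d2 φ x (pt (par τ k).2.1) (pt (par τ k).2.2) ^ 2

open Classical in
/-- `1` on `A`, `0` outside -/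
noncomputable def chi (A : Set E3) (x : E3) : ℝ≥0∞ := if x ∈ A then 1 else 0

/-- the surface `S` is the level surface `c` of `wo φ o` -/
structure IsLev (w : Lt → ℝ) (c : ℝ) (S : Surf) : Prop where
  gen : ∀ q, w q ≠ c
  V_eq : S.V = kV w c
  F_eq : ∃ e : S.ι ≃ {i : KI // (kF w c i).Nonempty}, ∀ i, S.F i = kF w c (e i).1
  θ_eq : ∀ (q : Lt) (τ : Fin 7) (t : ℝ), 0 < t → t < 1 →
      (1 - t) * w q + t * w (q + evec τ) = c →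
      S.θ (pt q + t • pt (evec τ)) =
        ∑ k ∈ Finset.range (mm τ), InnerProductGeometry.angle (spoke w q τ k) (spoke w q τ (k + 1))

/-- **FIALA3D**, with a level weight `ω` (supported in `|s| ≤ s1`, Lipschitz constant `h`). -/
def FIALA3D : Prop := ∀ ε s1 s2 : ℝ, 0 < ε → ε ≤ 1 → 1 ≤ s1 → s1 + 20 ≤ s2 →
  ∃ e0 r0 L00 Rg : ℝ, 0 < e0 ∧ 0 < r0 ∧ 0 < L00 ∧ 0 < Rg ∧ ∀ L0 : ℝ, L00 ≤ L0 →
  ∃ C : ℝ, 0 < C ∧ ∀ (φ : E3 → ℝ) (B : Set E3), GD φ B s2 e0 Rg L0 →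
  ∀ (P : ℝ≥0∞ → ℝ≥0∞) (R0 : ℝ), Antitone P → 1 ≤ R0 → (∀ t, ENNReal.ofReal R0 ≤ t → P t = 0) →
  ∀ (H : E3 → ℝ≥0∞) (κ : ℝ), HW H κ → C * κ * R0 ≤ 1 →
  ∀ (ω : ℝ → ℝ) (h : ℝ), (∀ s, 0 ≤ ω s ∧ ω s ≤ 1) → 0 ≤ h → (∀ s t, |ω s - ω t| ≤ h * |s - t|) →
    (∀ s, s1 ≤ |s| → ω s = 0) →
  ∫⁻ x, ENNReal.ofReal (ω (φ x) * ‖fderiv ℝ φ x‖) *
      P (ENNReal.ofReal (1 + ε) * srho φ s2 r0 (Nr B (2 * L0)) x + ENNReal.ofReal C) * H x ≤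
    ENNReal.ofReal C * Phi P 0 * ∑' b : B, H b +
    ENNReal.ofReal (1 + ε) * ∫⁻ x in {x | |φ x| < s1 + 10 ∧ x ∉ Nr B L0},
      ENNReal.ofReal ((ω (φ x) + 20 * h) * (NN φ x + ε * hs φ x)) *
        Phi P (srho φ s2 r0 (Nr B (2 * L0)) x - ENNReal.ofReal C) * H x

/-! ## Block statements -/

/-- F0: the theorem `P2` for level surfaces: for generic `c` the level surface exists. -/
def StF0 : Prop := ∀ (w : Lt → ℝ) (c : ℝ), (∀ q, w q ≠ c) → ∃ S : Surf, IsLev w c S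

/-- F1a: triangle inequality along a segment in the slab. -/
def StF1a : Prop := ∀ (φ : E3 → ℝ) (s r : ℝ) (A : Set E3), 0 < r → ∀ x y,
  (∀ z ∈ segment ℝ x y, |φ z| ≤ s) → srho φ s r A y ≤ srho φ s r A x + ENNReal.ofReal (dist x y)

/-- F1b: sources. -/
def StF1b : Prop := ∀ (φ : E3 → ℝ) (s r : ℝ) (A : Set E3) (x : E3), |φ x| ≤ s → x ∈ A →
  srho φ s r A x = 0

/-- F1c: one step. -/
def StF1c : Prop := ∀ (φ : E3 → ℝ) (s r : ℝ) (A : Set E3) (x y : E3), |φ x| ≤ s → |φ y| ≤ s →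
  dist x y ≤ r → srho φ s r A y ≤ srho φ s r A x + ENNReal.ofReal (dist x y)

/-- F1d: measurability. -/
def StF1d : Prop := ∀ (φ : E3 → ℝ) (s r : ℝ) (A : Set E3), Continuous φ → 0 < r →
  Measurable (srho φ s r A)

/-- F1e: elementary properties of `Phi`. -/
def StF1e : Prop := ∀ (P : ℝ≥0∞ → ℝ≥0∞), Antitone P → Antitone (Phi P) ∧ P 1 ≤ 2 * Phi P 0 ∧
  (∀ R0 : ℝ, 0 < R0 → (∀ t, ENNReal.ofReal R0 ≤ t → P t = 0) → ∀ t, ENNReal.ofReal R0 ≤ t →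
    Phi P t = 0)

/-- F2: the chain distance in the slab is at most the distance on the surface (+ C1). -/
def StF2 : Prop := ∀ (φ : E3 → ℝ) (o : E3) (c s r C1 : ℝ) (A : Set E3) (S : Surf) (Z : Set E3),
  (∀ x y, |φ x - φ y| ≤ dist x y) → 0 < r → 0 ≤ C1 → |c| + 2 ≤ s → IsLev (wo φ o) c S →
  (∀ z ∈ Z, srho φ s r A (z + o) ≤ ENNReal.ofReal C1) →
  ∀ x, srho φ s r A (x + o) ≤ S.rho Z x + ENNReal.ofReal C1

/-- K8: the tetrahedra cover, and the interpolations agree on common points. -/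
def StK8 : Prop := (∀ x : E3, ∃ i, x ∈ tet i) ∧ ∀ (w : Lt → ℝ) (i j : KI) (x : E3),
  x ∈ tet i → x ∈ tet j → ∑ k, bar i k x * w (vert i k) = ∑ k, bar j k x * w (vert j k)

/-- F3a: finitely many closed intervals covering `[0,1]` give a chain of parameters. -/
def StF3a : Prop := ∀ (ι : Type) (J : Finset ι) (I : ι → Set ℝ), (∀ j ∈ J, Convex ℝ (I j)) →
  (∀ j ∈ J, IsClosed (I j)) → (Icc (0 : ℝ) 1 ⊆ ⋃ j ∈ J, I j) →
  ∃ (n : ℕ) (t : ℕ → ℝ) (g : ℕ → ι), Monotone t ∧ t 0 = 0 ∧ t n = 1 ∧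
    (∀ k, k < n → g k ∈ J ∧ t k ∈ I (g k) ∧ t (k + 1) ∈ I (g k)) ∧ ∀ k, t k ∈ Icc (0 : ℝ) 1

/-- the gradient in all tetrahedra meeting the ball is close to `n` -/
def Gr (w : Lt → ℝ) (n : E3) (e : ℝ) (x0 : E3) (R : ℝ) : Prop :=
  ∀ i, (tet i ∩ Metric.closedBall x0 R).Nonempty → ‖grad w i - n‖ ≤ e

/-- F3b: the interpolation is almost affine where the gradients are close to `n`. -/
def StF3b : Prop := StK8 → StF3a → ∀ (w : Lt → ℝ) (n : E3) (e : ℝ) (x0 : E3) (R : ℝ),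
  Gr w n e x0 R → ∀ x ∈ Metric.closedBall x0 R, ∀ y ∈ Metric.closedBall x0 R, ∀ i j,
  x ∈ tet i → y ∈ tet j →
  |(∑ k, bar i k x * w (vert i k)) - (∑ k, bar j k y * w (vert j k)) - inner ℝ n (x - y)| ≤
    e * dist x y

/-- F3c: short chains on the level surface inside a good ball. -/
def StF3c : Prop := StK8 → StF3a → StF3b → ∀ (w : Lt → ℝ) (c : ℝ) (n : E3) (e : ℝ) (x0 : E3)
  (R : ℝ), ‖n‖ = 1 → 0 ≤ e → e ≤ 1 / 8 → Gr w n e x0 R →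
  ∀ y ∈ Metric.closedBall x0 (R / 4), ∀ y' ∈ Metric.closedBall x0 (R / 4), ∀ i i',
  y ∈ kF w c i → y' ∈ kF w c i' →
  ∃ (m : ℕ) (p : ℕ → E3) (g : ℕ → KI), p 0 = y ∧ p m = y' ∧
    (∀ k, k < m → p k ∈ kF w c (g k) ∧ p (k + 1) ∈ kF w c (g k)) ∧
    Surf.len m p ≤ (1 + 4 * e) * dist y y'

/-- F3d: existence of points of the level surface on the normal line. -/
def StF3d : Prop := StK8 → StF3a → StF3b → ∀ (w : Lt → ℝ) (c : ℝ) (n : E3) (e : ℝ) (z : E3)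
  (R h : ℝ), ‖n‖ = 1 → 0 ≤ e → e ≤ 1 / 8 → Gr w n e z R → ∀ i, z ∈ tet i →
  |(∑ k, bar i k z * w (vert i k)) - c| ≤ h → 2 * h ≤ R →
  ∃ (t : ℝ) (j : KI), |t| ≤ 2 * h ∧ z + t • n ∈ kF w c j

/-- F6: gradients of the interpolation are close to the gradient of `φ`, values too. -/
def StF6 : Prop := ∀ (φ : E3 → ℝ) (o n x0 : E3) (e R : ℝ), ContDiff ℝ 2 φ → 0 ≤ e →
  (∀ y, dist x0 y ≤ R + 2 → ∀ a : E3, |d1 φ y a - inner ℝ n a| ≤ e * ‖a‖) →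
  Gr (wo φ o) n (2 * e) (x0 - o) R ∧
  ∀ i, ∀ x ∈ tet i, x ∈ Metric.closedBall (x0 - o) R →
    |(∑ k, bar i k x * wo φ o (vert i k)) - φ (x + o)| ≤ 2 * e

/-- F6': without any smallness. -/
def StF6' : Prop := ∀ (φ : E3 → ℝ) (o : E3), (∀ x y, |φ x - φ y| ≤ dist x y) →
  ∀ i, ∀ x ∈ tet i, |(∑ k, bar i k x * wo φ o (vert i k)) - φ (x + o)| ≤ 9 / 5

/-- F3: the distance on the surface is at most `(1+ε)` times the chain distance in the slab. -/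
def StF3 : Prop := ∀ ε s1 s2 : ℝ, 0 < ε → ε ≤ 1 → 1 ≤ s1 → s1 + 20 ≤ s2 →
  ∃ e1 r0 C1 C2 L00 Rg : ℝ, 0 < e1 ∧ 10 ≤ r0 ∧ 10 ≤ C1 ∧ 0 < C2 ∧ 0 < L00 ∧ 0 < Rg ∧
  ∀ e0 L0 Rg' : ℝ, 0 < e0 → e0 ≤ e1 → L00 ≤ L0 → Rg ≤ Rg' →
  ∀ (φ : E3 → ℝ) (B : Set E3), GD φ B s2 e0 Rg' L0 →
  ∀ (o : E3) (c : ℝ) (S : Surf), |c| ≤ s1 + 1 → IsLev (wo φ o) c S → ∀ i, ∀ x ∈ S.F i,
  S.rho {v | v ∈ S.V ∧ srho φ s2 r0 (Nr B (2 * L0)) (v + o) ≤ ENNReal.ofReal C1} x ≤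
    ENNReal.ofReal (1 + ε) * srho φ s2 r0 (Nr B (2 * L0)) (x + o) + ENNReal.ofReal C2

/-- F4: the weighted area inequality on a polyhedral surface. -/
def StF4 : Prop := StP2 → ∀ (S : Surf) (Z : Set E3), Z ⊆ S.V →
  ∀ (P : ℝ≥0∞ → ℝ≥0∞) (R0 : ℝ), Antitone P → 1 ≤ R0 → (∀ t, ENNReal.ofReal R0 ≤ t → P t = 0) →
  ∀ (H : E3 → ℝ≥0∞) (κ : ℝ), HW H κ →
  ∑' i : S.ι, ∫⁻ z in S.C i, P (S.rho Z (S.inv i z)) * H (S.inv i z) ≤
    ENNReal.ofReal (Real.exp (κ * R0)) * ∑' v : {v // v ∈ S.V ∧ S.rho Z v < ⊤},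
      ENNReal.ofReal (S.β Z v) * H v * Phi P (S.rho Z v)

/-- F5: counting the sources. -/
def StF5 : Prop := ∀ L : ℝ, 0 < L → ∃ C : ℝ, 0 < C ∧ ∀ (B : Set E3) (o : E3) (w : Lt → ℝ) (c : ℝ),
  (∀ q, w q ≠ c) → (∀ R : ℝ, (B ∩ Metric.closedBall 0 R).Finite) →
  ∀ (H : E3 → ℝ≥0∞) (κ : ℝ), HW H κ → κ ≤ 1 →
  ∑' v : {v // v ∈ kV w c ∧ v + o ∈ Nr B L}, H (v.1 + o) ≤ ENNReal.ofReal C * ∑' b : B, H b

/-- EXC (helper16): the angle excess. -/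
def StEXC : Prop := ∃ C : ℝ, 0 < C ∧ ∀ (w : Lt → ℝ) (q : Lt) (τ : Fin 7) (n : E3) (e : ℝ),
  w (q + evec τ) ≠ w q → ‖n‖ = 1 → 0 ≤ e → e ≤ 1 / 8 →
  (∀ k, ‖grad w (q + (ff τ k).1, (ff τ k).2) - n‖ ≤ e) →
  max (∑ k ∈ Finset.range (mm τ), InnerProductGeometry.angle (spoke w q τ k) (spoke w q τ (k + 1))
      - 2 * π) 0 ≤
    (1 / 4 * |inner ℝ n (pt (evec τ))| + C * e) * ∑ k ∈ Finset.range (mm τ), lam w q τ k ^ 2

open Classical in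
/-- F7: integration over the levels: the vertices of the level surfaces run through the edges. -/
def StF7 : Prop := ∀ (w : Lt → ℝ) (I : Set ℝ) (h : ℝ → E3 → ℝ≥0∞) (Θ : Lt → Fin 7 → ℝ≥0∞),
  MeasurableSet I →
  (∀ c ∈ I, (∀ q, w q ≠ c) → ∀ (q : Lt) (τ : Fin 7) (t : ℝ), 0 < t → t < 1 →
    (1 - t) * w q + t * w (q + evec τ) = c → h c (pt q + t • pt (evec τ)) ≤ Θ q τ) →
  ∫⁻ c in I, (if (∀ q, w q ≠ c) then ∑' v : kV w c, h c v else 0) ≤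
    ∑' q : Lt, ∑ τ : Fin 7, ENNReal.ofReal |w (q + evec τ) - w q| * Θ q τ

/-- F8: second differences. -/
def StF8 : Prop := ∀ (φ : E3 → ℝ), ContDiff ℝ 2 φ → ∀ x a b : E3,
  ENNReal.ofReal ((φ (x + a + b) - φ (x + a) - φ (x + b) + φ x) ^ 2) ≤
    ∫⁻ s in Icc (0 : ℝ) 1, ∫⁻ t in Icc (0 : ℝ) 1,
      ENNReal.ofReal (d2 φ (x + s • a + t • b) a b ^ 2)

/-- the unit cube of offsets -/
def cube : Set E3 := {o | ∀ j, 0 ≤ o j ∧ o j < 1}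

/-- F9: integration over the offsets. -/
def StF9 : Prop := ∀ (M : E3 → ℝ≥0∞), Measurable M → ∀ p a b : E3,
  ∫⁻ o in cube, ∑' q : Lt, ∫⁻ s in Icc (0 : ℝ) 1, ∫⁻ t in Icc (0 : ℝ) 1,
    M (pt q + o + p + s • a + t • b) = ∫⁻ x, M x

/-- F10: the part of the left side near the bad centres. -/
def StF10 : Prop := StF1e → ∀ L : ℝ, 0 < L → ∃ C : ℝ, 0 < C ∧
  ∀ (B : Set E3) (P : ℝ≥0∞ → ℝ≥0∞) (H : E3 → ℝ≥0∞) (κ : ℝ), Antitone P → HW H κ → κ ≤ 1 →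
  Set.Countable B → ∀ (f : E3 → ℝ≥0∞), (∀ x, 1 ≤ f x) →
  ∫⁻ x in Nr B L, P (f x) * H x ≤ ENNReal.ofReal C * Phi P 0 * ∑' b : B, H b

end Vale.Agent.P134.PF
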