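import Vale.Agent.P134.PX.Rho
import Vale.Agent.P134.PX.FDefs

/-! # P134 / PX : sub-blocks of `StPXP` (coordinator helper551) -/

open MeasureTheory Set
open scoped ENNReal RealInnerProductSpace Real

namespace Vale.Agent.P134.PX

open PS hiding Lat

/-- the second difference around the edge, for lattice values (`1 ≤ k`) -/
def lamW (w : PS.Lat → ℝ) (q : PS.Lat) (τ : Fin 7) (k : ℕ) : ℝ :=
  w (q + sb τ k + (bb τ (k - 1) - sb τ k) + (bb τ (k + 1) - sb τ k))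
    - w (q + sb τ k + (bb τ (k - 1) - sb τ k)) - w (q + sb τ k + (bb τ (k + 1) - sb τ k))
    + w (q + sb τ k)

/-- EXCW: the angle excess around an edge whose gradients are close to the unit vector `n`. -/
def StEXCW : Prop := ∃ C : ℝ, 0 < C ∧ ∀ (w : PS.Lat → ℝ) (q : PS.Lat) (τ : Fin 7) (n : E3) (e : ℝ),
  w (q + evec τ) ≠ w q → ‖n‖ = 1 → 0 ≤ e → e ≤ 1 / 8 →
  (∀ k, ‖grad w (q + (ff τ k).1, (ff τ k).2) - n‖ ≤ e) →
  max (∑ k ∈ Finset.range (mm τ), InnerProductGeometry.angle (spoke w q τ k) (spoke w q τ (k + 1))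
      - 2 * π) 0 ≤
    (1 / 4 * |inner ℝ n (pt (evec τ))| + C * e) *
      ∑ k ∈ Finset.range (mm τ), lamW w q τ (k + 1) ^ 2

/-- GRD: the gradient of the interpolation is close to the gradient of `φ`. -/
def StGRD : Prop := ∀ (φ : E3 → ℝ) (n p : E3) (e : ℝ), ContDiff ℝ 2 φ → 0 ≤ e →
  (∀ y, dist y p ≤ 10 → ‖gradient φ y - n‖ ≤ e) →
  ∀ i : KI, (∀ k, dist (pt (vert i k)) p ≤ 9) → ‖grad (wv φ) i - n‖ ≤ 2 * e

/-- MEAS: measurability of the integrand on the left. -/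
def StMEAS : Prop := ∀ (φ : E3 → ℝ) (B : Set E3) (s L0 ε : ℝ) (f : ℝ → ℝ) (R0 : ℝ) (G : E3 → ℝ)
  (l : ℝ), Continuous φ → Prf f R0 → Gwt G l → Measurable (Psi3 φ B s L0 ε f G)

/-- PXPA: the weighted area inequality on the level surface `c`. -/
def StPXPA : Prop := StP2 → StPX2 → ∀ ε : ℝ, 0 < ε → ε ≤ 1 → ∀ s : ℝ, 1 ≤ s → ∃ δ > 0, ∀ L0 : ℝ,
  200 * (s + 10) ≤ L0 → ∀ (φ : E3 → ℝ) (B : Set E3), Good φ B s δ L0 →
  ∀ (f : ℝ → ℝ) (R0 : ℝ) (G : E3 → ℝ), Prf f R0 → Gwt G (ε / R0) →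
  ∀ c : ℝ, |c| < s + 2 → (∀ q, wv φ q ≠ c) →
  ∀ (S : Surf) (e : S.ι ≃ {i : KI // (kF (wv φ) c i).Nonempty}),
    (∀ i, S.F i = kF (wv φ) c (e i).1) → S.V = kV (wv φ) c →
  ∑' i : S.ι, ∫⁻ z in S.C i, Psi3 φ B s L0 ε f G (S.inv i z) ≤
    ∑' v : {v // v ∈ S.V ∧ S.rho (Src φ B s L0 c) v < ⊤},
      ENNReal.ofReal (S.β (Src φ B s L0 c) v) *
        (ENNReal.ofReal (Real.exp (2 * ε) * G v ^ 2) * Ph f (S.rho (Src φ B s L0 c) v).toReal)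

open Classical in
/-- the part of `Rr` which belongs to the edge `(q, τ)` -/
noncomputable def RrT (φ : E3 → ℝ) (B : Set E3) (s L0 ε : ℝ) (W : ℝ → ℝ → ℝ) (f : ℝ → ℝ)
    (G : E3 → ℝ) (p : E3) (τ : Fin 7) : ℝ≥0∞ :=
  if rho3 φ (s + 8) (Zon B L0) p < ⊤ then
    ENNReal.ofReal (W 5 (φ p)) *
      Ph f (max ((rho3 φ (s + 8) (Zon B L0) p).toReal - C1 s - 2) 0) *
      ENNReal.ofReal (Real.exp (8 * ε) * G p ^ 2) *
      (if rho3 φ (s + 8) (Zon B L0) p ≤ ENNReal.ofReal (C1 s + 2) then 40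
      else ∑ k ∈ Finset.range (mm τ),
        ENNReal.ofReal ((1 / 4 * (fderiv ℝ φ p (pt (evec τ))) ^ 2 + ε) *
          lam φ p τ (k + 1) ^ 2))
  else 0

/-- PXPB: the cost of a vertex is at most the cost of its edge. -/
def StPXPB : Prop := StPX2 → StEXCW → StGRD → ∀ ε : ℝ, 0 < ε → ε ≤ 1 → ∀ s : ℝ, 1 ≤ s →
  ∃ δ > 0, ∀ L0 : ℝ, 200 * (s + 10) ≤ L0 → ∀ (φ : E3 → ℝ) (B : Set E3), Good φ B s δ L0 →
  ∀ (W : ℝ → ℝ → ℝ) (f : ℝ → ℝ) (R0 : ℝ) (G : E3 → ℝ), Wt s W → Prf f R0 → Gwt G (ε / R0) →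
  ∀ c : ℝ, |c| < s + 2 → (∀ q, wv φ q ≠ c) →
  ∀ (S : Surf) (e : S.ι ≃ {i : KI // (kF (wv φ) c i).Nonempty}),
    (∀ i, S.F i = kF (wv φ) c (e i).1) → S.V = kV (wv φ) c →
    (∀ (q : PS.Lat) (τ : Fin 7) (t : ℝ), 0 < t → t < 1 →
      (1 - t) * wv φ q + t * wv φ (q + evec τ) = c →
      S.θ (pt q + t • pt (evec τ)) = ∑ k ∈ Finset.range (mm τ),
        InnerProductGeometry.angle (spoke (wv φ) q τ k) (spoke (wv φ) q τ (k + 1))) →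
  ∀ (q : PS.Lat) (τ : Fin 7) (t : ℝ), 0 < t → t < 1 →
    (1 - t) * wv φ q + t * wv φ (q + evec τ) = c → ∀ v : E3, v = pt q + t • pt (evec τ) →
    S.rho (Src φ B s L0 c) v < ⊤ →
    ENNReal.ofReal (W 2 c) * (ENNReal.ofReal (S.β (Src φ B s L0 c) v) *
        (ENNReal.ofReal (Real.exp (2 * ε) * G v ^ 2) * Ph f (S.rho (Src φ B s L0 c) v).toReal)) *
      ENNReal.ofReal |wv φ (q + evec τ) - wv φ q| ≤ RrT φ B s L0 ε W f G (pt q) τ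

/-- PXPC: assembly. -/
def StPXPC : Prop := StPX2 → StP2 → StK5 → StK7 → PF.StF7 → StMEAS → StPXPA → StPXPB → StEXCW →
  StGRD → StPXP

end Vale.Agent.P134.PX
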