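import Vale.Agent.P134.H16.ExcK
import Vale.Agent.P134.PX.PXPDefs

set_option linter.all false

/-! # P134 / PX : EXCW, the angle excess around an edge -/

open MeasureTheory Set
open scoped ENNReal RealInnerProductSpace Real

namespace Vale.Agent.P134.PX

open PS hiding Lat

theorem sb_succ (τ : Fin 7) (k : ℕ) :
    sb τ (k + 1) = (if bet τ (k + 1) = 1 ∧ aa τ = 1 then bb τ (k + 1) else 0) := by
  have h : ∀ τ : Fin 7, ∀ k < mm τ, sb τ (k + 1) =
      (if bet τ (k + 1) = 1 ∧ aa τ = 1 then bb τ (k + 1) else 0) := by decide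
  refine mod_ind τ (P := fun k => sb τ (k + 1) =
      (if bet τ (k + 1) = 1 ∧ aa τ = 1 then bb τ (k + 1) else 0)) (fun k => ?_) (h τ) k
  have e1 : sb τ (k + mm τ + 1) = sb τ (k + 1) := by
    unfold sb
    rw [show k + mm τ + 1 - 1 = k + mm τ by omega, show k + mm τ + 1 + 1 = k + 1 + 1 + mm τ by omega,
      show k + mm τ + 1 = k + 1 + mm τ by omega, show k + 1 - 1 = k by omega]
    simp only [bb_add]
  rw [e1, show k + mm τ + 1 = k + 1 + mm τ by omega]
  simp only [bb_add, bet_add]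

theorem bet_cases (τ : Fin 7) (k : ℕ) : (aa τ = 1 ∧ (bet τ k = 0 ∨ bet τ k = 1)) ∨
    (aa τ = 0 ∧ bet τ k = 1) := by
  have h : ∀ τ : Fin 7, ∀ k < mm τ, (aa τ = 1 ∧ (bet τ k = 0 ∨ bet τ k = 1)) ∨
    (aa τ = 0 ∧ bet τ k = 1) := by decide
  refine mod_ind τ (P := fun k => (aa τ = 1 ∧ (bet τ k = 0 ∨ bet τ k = 1)) ∨
    (aa τ = 0 ∧ bet τ k = 1)) (fun k => ?_) (h τ) k
  simp only [bet_add]

theorem rel_all (τ : Fin 7) (k : ℕ) : bb τ k + bb τ (k + 2)
    = fun j => aa τ * bb τ (k + 1) j + bet τ (k + 1) * evec τ j := by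
  refine mod_ind τ (P := fun k => bb τ k + bb τ (k + 2)
    = fun j => aa τ * bb τ (k + 1) j + bet τ (k + 1) * evec τ j) (fun k => ?_) (rel_tab τ) k
  rw [show k + mm τ + 2 = k + 2 + mm τ by ring, show k + mm τ + 1 = k + 1 + mm τ by ring]
  simp only [bb_add, bet_add]

theorem lamW_eq (w : PS.Lat → ℝ) (q : PS.Lat) (τ : Fin 7) (k : ℕ) :
    lamW w q τ (k + 1) = - PS.lam w q τ k := by
  have hr := rel_all τ k
  unfold lamW PS.lam
  rw [sb_succ, show k + 1 - 1 = k by omega, show k + 1 + 1 = k + 2 by omega]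
  rcases bet_cases τ (k + 1) with ⟨ha, hb | hb⟩ | ⟨ha, hb⟩
  · rw [if_neg (show ¬(bet τ (k + 1) = 1 ∧ aa τ = 1) by rw [hb]; simp)]
    rw [ha, hb] at hr ⊢
    have e1 : q + 0 + (bb τ k - 0) + (bb τ (k + 2) - 0) = q + bb τ (k + 1) := by
      have : q + 0 + (bb τ k - 0) + (bb τ (k + 2) - 0) = q + (bb τ k + bb τ (k + 2)) := by abel
      rw [this, hr]; congr 1; ext j; ring
    rw [e1, show q + 0 + (bb τ k - 0) = q + bb τ k by abel,
      show q + 0 + (bb τ (k + 2) - 0) = q + bb τ (k + 2) by abel, add_zero]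
    push_cast; ring
  · rw [if_pos (show (bet τ (k + 1) = 1 ∧ aa τ = 1) from ⟨hb, ha⟩)]
    rw [ha, hb] at hr ⊢
    have e1 : q + bb τ (k + 1) + (bb τ k - bb τ (k + 1)) + (bb τ (k + 2) - bb τ (k + 1))
        = q + evec τ := by
      have : q + bb τ (k + 1) + (bb τ k - bb τ (k + 1)) + (bb τ (k + 2) - bb τ (k + 1))
        = q + ((bb τ k + bb τ (k + 2)) - bb τ (k + 1)) := by abel
      rw [this, hr]; congr 1; ext j; simp
    rw [e1, show q + bb τ (k + 1) + (bb τ k - bb τ (k + 1)) = q + bb τ k by abel,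
      show q + bb τ (k + 1) + (bb τ (k + 2) - bb τ (k + 1)) = q + bb τ (k + 2) by abel]
    push_cast; ring
  · rw [if_neg (show ¬(bet τ (k + 1) = 1 ∧ aa τ = 1) by rw [ha]; simp)]
    rw [ha, hb] at hr ⊢
    have e1 : q + 0 + (bb τ k - 0) + (bb τ (k + 2) - 0) = q + evec τ := by
      have : q + 0 + (bb τ k - 0) + (bb τ (k + 2) - 0) = q + (bb τ k + bb τ (k + 2)) := by abel
      rw [this, hr]; congr 1; ext j; ring
    rw [e1, show q + 0 + (bb τ k - 0) = q + bb τ k by abel,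
      show q + 0 + (bb τ (k + 2) - 0) = q + bb τ (k + 2) by abel, add_zero]
    push_cast; ring

theorem EXCW : StEXCW := by
  refine ⟨1000, by norm_num, fun w q τ n e hD hn he he8 hg => ?_⟩
  have h := kuhn_excess w q τ hD n e hn hg he8
  rw [real_inner_comm] at h
  have hs : ∑ k ∈ Finset.range (mm τ), lamW w q τ (k + 1) ^ 2
      = ∑ k ∈ Finset.range (mm τ), PS.lam w q τ k ^ 2 := by
    refine Finset.sum_congr rfl (fun k _ => ?_)
    rw [lamW_eq]; ring
  rw [hs]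
  have hS : 0 ≤ ∑ k ∈ Finset.range (mm τ), PS.lam w q τ k ^ 2 :=
    Finset.sum_nonneg (fun k _ => sq_nonneg _)
  refine max_le ?_ ?_
  · refine h.trans (le_of_eq ?_)
    ring
  · have := abs_nonneg (inner ℝ n (pt (evec τ)))
    positivity

end Vale.Agent.P134.PX
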