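import Vale.Agent.P134.PX.FDefs

/-!
# P134 / PX : block F1, the chain distance in the slab; block F3a, chains of intervals
-/

open MeasureTheory Set
open scoped ENNReal RealInnerProductSpace Real

namespace Vale.Agent.P134.PF

open Vale.Agent.P134.PS

variable {φ : E3 → ℝ} {s r : ℝ} {A : Set E3}

theorem srho_le {x : E3} {n : ℕ} {p : ℕ → E3} (h : p 0 ∈ A ∧ p n = x ∧
    (∀ k, k ≤ n → |φ (p k)| ≤ s) ∧ ∀ k, k < n → dist (p k) (p (k + 1)) ≤ r) :
    srho φ s r A x ≤ ENNReal.ofReal (Surf.len n p) :=
  iInf_le_of_le n (iInf_le_of_le p (iInf_le_of_le h le_rfl))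

theorem le_srho {x : E3} {a : ℝ≥0∞} (h : ∀ (n : ℕ) (p : ℕ → E3), p 0 ∈ A → p n = x →
    (∀ k, k ≤ n → |φ (p k)| ≤ s) → (∀ k, k < n → dist (p k) (p (k + 1)) ≤ r) →
    a ≤ ENNReal.ofReal (Surf.len n p)) : a ≤ srho φ s r A x :=
  le_iInf fun n => le_iInf fun p => le_iInf fun hp => h n p hp.1 hp.2.1 hp.2.2.1 hp.2.2.2

theorem srho_top {x : E3} (h : s < |φ x|) : srho φ s r A x = ⊤ := by
  refine top_le_iff.1 (le_srho fun n p h0 h1 h2 h3 => ?_)
  have := h2 n le_rfl
  rw [h1] at this
  exact absurd this (not_le.2 h)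

theorem len_nonneg (n : ℕ) (p : ℕ → E3) : 0 ≤ Surf.len n p :=
  Finset.sum_nonneg fun _ _ => dist_nonneg

/-- F1b: sources. -/
theorem F1b : StF1b := by
  intro φ s r A x hx hA
  have h := srho_le (φ := φ) (s := s) (r := r) (A := A) (x := x) (n := 0) (p := fun _ => x)
    ⟨hA, rfl, fun _ _ => hx, fun k hk => absurd hk (by omega)⟩
  simpa [Surf.len] using h

/-- F1c: one step. -/
theorem F1c : StF1c := by
  intro φ s r A x y hx hy hxy
  rw [← tsub_le_iff_right]
  refine le_srho fun n p h0 h1 h2 h3 => ?_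
  rw [tsub_le_iff_right, ← ENNReal.ofReal_add (len_nonneg n p) dist_nonneg]
  set q : ℕ → E3 := fun k => if k ≤ n then p k else y with hq
  have e1 : ∀ k, k ≤ n → q k = p k := fun k hk => by rw [hq]; simp only; rw [if_pos hk]
  have e2 : q (n + 1) = y := by rw [hq]; simp
  have hlen : Surf.len (n + 1) q = Surf.len n p + dist x y := by
    unfold Surf.len
    rw [Finset.sum_range_succ, e2, e1 n le_rfl, h1]
    congr 1
    refine Finset.sum_congr rfl fun k hk => ?_
    rw [Finset.mem_range] at hk
    rw [e1 k hk.le, e1 (k + 1) hk]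
  rw [← hlen]
  refine srho_le ⟨by rw [e1 0 (Nat.zero_le _)]; exact h0, e2, fun k hk => ?_, fun k hk => ?_⟩
  · rcases Nat.lt_or_ge n k with h | h
    · have : k = n + 1 := by omega
      rw [this, e2]
      exact hy
    · rw [e1 k h]
      exact h2 k h
  · rcases Nat.lt_or_ge k n with h | h
    · rw [e1 k h.le, e1 (k + 1) h]
      exact h3 k h
    · have : k = n := by omega
      rw [this, e2, e1 n le_rfl, h1]
      exact hxy

/-- F1a: triangle inequality along a segment in the slab. -/
theorem F1a : StF1a := by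
  intro φ s r A hr x y hseg
  obtain ⟨N, hN⟩ := exists_nat_gt (dist x y / r)
  have hd0 : 0 ≤ dist x y / r := div_nonneg dist_nonneg hr.le
  have hN0 : (0 : ℝ) < N := hd0.trans_lt hN
  rw [div_lt_iff₀ hr] at hN
  set z : ℕ → E3 := fun k => x + ((k : ℝ) / N) • (y - x) with hz
  have hmem : ∀ k, k ≤ N → z k ∈ segment ℝ x y := by
    intro k hk
    rw [segment_eq_image']
    refine ⟨(k : ℝ) / N, ⟨by positivity, ?_⟩, rfl⟩
    rw [div_le_one hN0]
    exact_mod_cast hk
  have hstep : ∀ k, dist (z k) (z (k + 1)) = dist x y / N := by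
    intro k
    rw [dist_eq_norm]
    have : z k - z (k + 1) = (-(1 / (N : ℝ))) • (y - x) := by
      rw [hz]
      simp only
      push_cast
      module
    rw [this, norm_smul, norm_neg, Real.norm_of_nonneg (by positivity), ← dist_eq_norm,
      dist_comm y x]
    ring
  have key : ∀ k, k ≤ N → srho φ s r A (z k) ≤ srho φ s r A x +
      ENNReal.ofReal (k * (dist x y / N)) := by
    intro k
    induction k with
    | zero =>
      intro _
      have : z 0 = x := by rw [hz]; simp
      rw [this]
      simp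
    | succ k ih =>
      intro hk
      have h1 := ih (by omega)
      have h2 := F1c φ s r A (z k) (z (k + 1)) (hseg _ (hmem k (by omega)))
        (hseg _ (hmem (k + 1) hk)) (by
          rw [hstep, div_le_iff₀ hN0]
          nlinarith)
      rw [hstep] at h2
      refine h2.trans ((add_le_add_left h1 _).trans (le_of_eq ?_))
      rw [add_assoc, ← ENNReal.ofReal_add (by positivity) (by positivity)]
      congr 2
      push_cast
      ring
  have h := key N le_rfl
  have e : z N = y := by
    rw [hz]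
    simp only
    rw [div_self hN0.ne', one_smul]
    abel
  rw [e] at h
  refine h.trans (le_of_eq ?_)
  congr 2
  field_simp

/-- F1d: measurability. -/
theorem F1d : StF1d := by
  intro φ s r A hφ hr
  refine measurable_of_Iio fun t => ?_
  have hK : MeasurableSet {x : E3 | |φ x| ≤ s} :=
    (isClosed_le (continuous_abs.comp hφ) continuous_const).measurableSet
  have key : ∀ x, srho φ s r A x < t → |φ x| ≤ s ∧ ∃ ε > 0, ∀ y, |φ y| ≤ s → dist x y < ε →
      srho φ s r A y < t := by
    intro x hx
    have hxs : |φ x| ≤ s := by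
      by_contra hc
      rw [srho_top (not_le.1 hc)] at hx
      exact not_top_lt hx
    refine ⟨hxs, ?_⟩
    obtain ⟨ε, hε, hε2⟩ := ENNReal.lt_iff_exists_add_pos_lt.1 hx
    have hε' : (0 : ℝ) < ε := by exact_mod_cast hε
    refine ⟨min r ε, lt_min hr hε', fun y hy hxy => ?_⟩
    have h1 := F1c φ s r A x y hxs hy (hxy.le.trans (min_le_left _ _))
    refine h1.trans_lt (lt_of_le_of_lt (add_le_add_right ?_ _) hε2)
    rw [← ENNReal.ofReal_coe_nnreal]
    exact ENNReal.ofReal_le_ofReal (hxy.le.trans (min_le_right _ _))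
  choose! hs ε hε hε2 using key
  have e : srho φ s r A ⁻¹' Iio t = {x : E3 | |φ x| ≤ s} ∩
      ⋃ x ∈ {x | srho φ s r A x < t}, Metric.ball x (ε x) := by
    ext y
    constructor
    · intro hy
      exact ⟨hs y hy, mem_iUnion₂.2 ⟨y, hy, Metric.mem_ball_self (hε y hy)⟩⟩
    · rintro ⟨hy, hy2⟩
      obtain ⟨x, hx, hxy⟩ := mem_iUnion₂.1 hy2
      exact hε2 x hx y hy (by rwa [dist_comm])
  rw [e]
  exact hK.inter (isOpen_biUnion fun x _ => Metric.isOpen_ball).measurableSet

/-- F1e: elementary properties of `Phi`. -/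
theorem F1e : StF1e := by
  intro P hP
  refine ⟨fun a b hab => ?_, ?_, ?_⟩
  · refine lintegral_mono fun x => ?_
    exact mul_le_mul_left (hP (add_le_add_left hab _)) _
  · have h1 : ∫⁻ x in Ioc (0 : ℝ) 1, P 1 * ENNReal.ofReal x ≤ Phi P 0 := by
      unfold Phi
      refine (setLIntegral_mono' measurableSet_Ioc fun x hx => ?_).trans
        (lintegral_mono_set Ioc_subset_Ioi_self)
      refine mul_le_mul_left (hP ?_) _
      rw [zero_add]
      exact ENNReal.ofReal_le_one.2 hx.2
    have h2 : ∫⁻ x in Ioc (0 : ℝ) 1, P 1 * ENNReal.ofReal x = P 1 * ENNReal.ofReal (1 / 2) := by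
      rw [lintegral_const_mul _ ENNReal.measurable_ofReal]
      congr 1
      rw [← ofReal_integral_eq_lintegral_ofReal]
      · congr 1
        rw [← intervalIntegral.integral_of_le zero_le_one, integral_id]
        norm_num
      · exact (continuous_id.integrableOn_Icc).mono_set Ioc_subset_Icc_self
      · exact (ae_restrict_mem measurableSet_Ioc).mono fun x hx => hx.1.le
    rw [h2] at h1
    calc P 1 = 2 * (P 1 * ENNReal.ofReal (1 / 2)) := by
          rw [mul_left_comm, show (2 : ℝ≥0∞) = ENNReal.ofReal 2 by simp,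
            ← ENNReal.ofReal_mul (by norm_num)]
          norm_num
      _ ≤ 2 * Phi P 0 := mul_le_mul_right h1 _
  · intro R0 hR0 h0 t ht
    unfold Phi
    have : ∀ x : ℝ, P (t + ENNReal.ofReal x) * ENNReal.ofReal x = 0 := fun x => by
      rw [h0 _ (ht.trans le_self_add), zero_mul]
    simp [this]

/-- chains of intervals from `a` to `1` -/
theorem F3a_aux (ι : Type) : ∀ (J : Finset ι) (I : ι → Set ℝ), (∀ j ∈ J, Convex ℝ (I j)) →
    (∀ j ∈ J, IsClosed (I j)) → ∀ a : ℝ, a ≤ 1 → (Icc a 1 ⊆ ⋃ j ∈ J, I j) →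
    ∃ (n : ℕ) (t : ℕ → ℝ) (g : ℕ → ι), Monotone t ∧ t 0 = a ∧ t n = 1 ∧
      (∀ k, k < n → g k ∈ J ∧ t k ∈ I (g k) ∧ t (k + 1) ∈ I (g k)) ∧ ∀ k, t k ∈ Icc a 1 := by
  classical
  intro J
  induction J using Finset.strongInduction with
  | H J ih =>
    intro I hconv hcl a ha hcov
    obtain ⟨j0, hj0, haj⟩ := mem_iUnion₂.1 (hcov (left_mem_Icc.2 ha))
    have hne : (I j0 ∩ Icc a 1).Nonempty := ⟨a, haj, left_mem_Icc.2 ha⟩
    have hcomp : IsCompact (I j0 ∩ Icc a 1) := isCompact_Icc.inter_left (hcl j0 hj0)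
    obtain ⟨b, hb, hbmax⟩ := hcomp.exists_isMaxOn hne continuousOn_id
    have hbmax' : ∀ x ∈ I j0, x ∈ Icc a 1 → x ≤ b := fun x hx hx' => hbmax ⟨hx, hx'⟩
    rcases hb.2.2.eq_or_lt with h1 | h1
    · have hb1 : b = 1 := h1
      refine ⟨1, fun k => if k = 0 then a else 1, fun _ => j0, ?_, by simp, by simp, ?_, ?_⟩
      · intro k l hkl
        simp only
        split_ifs with h2 h3 h3
        · exact le_rfl
        · exact ha
        · omega
        · exact le_rfl
      · intro k hk
        have : k = 0 := by omega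
        subst this
        refine ⟨hj0, by simpa using haj, ?_⟩
        have := hb.1
        rw [hb1] at this
        simpa using this
      · intro k
        simp only
        split_ifs
        · exact ⟨le_rfl, ha⟩
        · exact ⟨ha, le_rfl⟩
    · have hb1 : b < 1 := h1
      have hcov2 : Icc b 1 ⊆ ⋃ j ∈ J.erase j0, I j := by
        have hclosed : IsClosed (⋃ j ∈ J.erase j0, I j) :=
          (J.erase j0).finite_toSet.isClosed_biUnion fun j hj =>
            hcl j (Finset.mem_of_mem_erase hj)
        rw [← closure_Ioc hb1.ne]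
        refine hclosed.closure_subset_iff.2 fun x hx => ?_
        have hxa : x ∈ Icc a 1 := ⟨hb.2.1.trans hx.1.le, hx.2⟩
        obtain ⟨j, hj, hxj⟩ := mem_iUnion₂.1 (hcov hxa)
        refine mem_iUnion₂.2 ⟨j, Finset.mem_erase.2 ⟨?_, hj⟩, hxj⟩
        rintro rfl
        exact absurd (hbmax' x hxj hxa) (not_le.2 hx.1)
      obtain ⟨n, t, g, h2, h3, h4, h5, h6⟩ := ih (J.erase j0) (Finset.erase_ssubset hj0) I
        (fun j hj => hconv j (Finset.mem_of_mem_erase hj))
        (fun j hj => hcl j (Finset.mem_of_mem_erase hj)) b hb1.le hcov2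
      refine ⟨n + 1, fun k => if k = 0 then a else t (k - 1), fun k => if k = 0 then j0 else
        g (k - 1), ?_, by simp, by simpa using h4, ?_, ?_⟩
      · intro k l hkl
        simp only
        split_ifs with h7 h8 h8
        · exact le_rfl
        · exact hb.2.1.trans (h6 _).1
        · omega
        · exact h2 (by omega)
      · intro k hk
        rcases Nat.eq_zero_or_pos k with h7 | h7
        · subst h7
          refine ⟨by simpa using hj0, by simpa using haj, ?_⟩
          simpa [h3] using hb.1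
        · obtain ⟨l, rfl⟩ : ∃ l, k = l + 1 := ⟨k - 1, by omega⟩
          have := h5 l (by omega)
          refine ⟨?_, ?_, ?_⟩
          · simpa using Finset.mem_of_mem_erase this.1
          · simpa using this.2.1
          · simpa using this.2.2
      · intro k
        simp only
        split_ifs
        · exact ⟨le_rfl, ha⟩
        · exact ⟨hb.2.1.trans (h6 _).1, (h6 _).2⟩

/-- F3a: finitely many closed intervals covering `[0,1]` give a chain of parameters. -/
theorem F3a : StF3a := fun ι J I h1 h2 h3 => F3a_aux ι J I h1 h2 0 zero_le_one h3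

end Vale.Agent.P134.PF
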