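import Vale.Agent.P134.PX.FDefs

/-! # P134 / PX, block F10: the part of the left side near the bad centres. -/

open MeasureTheory Set
open scoped ENNReal RealInnerProductSpace Real

namespace Vale.Agent.P134.PF

open Vale.Agent.P134.PS

namespace F10

theorem Nr_eq (B : Set E3) (L : ℝ) : Nr B L = ⋃ b : B, Metric.closedBall (b : E3) L := by
  ext x
  simp [Nr]

/-- volume of a closed ball of radius `L` -/
noncomputable def vb (L : ℝ) : ℝ := (volume (Metric.closedBall (0 : E3) L)).toReal

theorem vb_nonneg (L : ℝ) : 0 ≤ vb L := ENNReal.toReal_nonneg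

theorem vol_closedBall (b : E3) (L : ℝ) :
    volume (Metric.closedBall b L) = ENNReal.ofReal (vb L) := by
  rw [vb, ENNReal.ofReal_toReal (measure_closedBall_lt_top).ne]
  exact Measure.addHaar_closedBall_center volume b L

theorem HW.le_exp {H : E3 → ℝ≥0∞} {κ : ℝ} (hH : HW H κ) (hκ : κ ≤ 1) {L : ℝ}
    {x y : E3} (h : dist x y ≤ L) : H x ≤ ENNReal.ofReal (Real.exp L) * H y := by
  refine (hH.le x y).trans ?_
  gcongr
  calc κ * dist x y ≤ 1 * dist x y := by gcongr
    _ ≤ L := by linarith

/-- the weight on a ball -/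
theorem lint_ball {H : E3 → ℝ≥0∞} {κ : ℝ} (hH : HW H κ) (hκ : κ ≤ 1) {L : ℝ} (b : E3) : ∫⁻ x in Metric.closedBall b L, H x ≤
      ENNReal.ofReal (Real.exp L * vb L) * H b := by
  calc ∫⁻ x in Metric.closedBall b L, H x
      ≤ ∫⁻ _ in Metric.closedBall b L, ENNReal.ofReal (Real.exp L) * H b := by
        refine setLIntegral_mono measurable_const fun x hx => ?_
        exact HW.le_exp hH hκ (by simpa using hx)
    _ = ENNReal.ofReal (Real.exp L * vb L) * H b := by
        rw [setLIntegral_const, vol_closedBall, ENNReal.ofReal_mul (Real.exp_pos L).le]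
        ring

/-- the weight near the bad centres -/
theorem lint_near {H : E3 → ℝ≥0∞} {κ : ℝ} (hH : HW H κ) (hκ : κ ≤ 1) {L : ℝ} {B : Set E3} (hB : B.Countable) : ∫⁻ x in Nr B L, H x ≤
      ENNReal.ofReal (Real.exp L * vb L) * ∑' b : B, H b := by
  have : Countable B := hB.to_subtype
  rw [Nr_eq]
  refine (lintegral_iUnion_le _ _).trans ?_
  rw [← ENNReal.tsum_mul_left]
  exact ENNReal.tsum_le_tsum fun b => lint_ball hH hκ b

end F10

/-- F10: the part of the left side near the bad centres. -/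
theorem F10 : StF10 := by
  intro h1e L hL
  have hv := F10.vb_nonneg L
  refine ⟨2 * (Real.exp L * F10.vb L) + 1, by positivity, ?_⟩
  intro B P H κ hP hH hκ hB f hf
  have hP1 : P 1 ≤ 2 * Phi P 0 := (h1e P hP).2.1
  calc ∫⁻ x in Nr B L, P (f x) * H x
      ≤ ∫⁻ x in Nr B L, P 1 * H x := by
        refine lintegral_mono fun x => ?_
        exact mul_le_mul_left (hP (hf x)) _
    _ = P 1 * ∫⁻ x in Nr B L, H x := lintegral_const_mul _ hH.meas
    _ ≤ (2 * Phi P 0) * (ENNReal.ofReal (Real.exp L * F10.vb L) * ∑' b : B, H b) := by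
        gcongr
        exact F10.lint_near hH hκ hB
    _ = ENNReal.ofReal (2 * (Real.exp L * F10.vb L)) * Phi P 0 * ∑' b : B, H b := by
        rw [ENNReal.ofReal_mul (by norm_num : (0:ℝ) ≤ 2)]
        simp only [ENNReal.ofReal_ofNat]
        ring
    _ ≤ ENNReal.ofReal (2 * (Real.exp L * F10.vb L) + 1) * Phi P 0 * ∑' b : B, H b := by
        gcongr
        linarith

end Vale.Agent.P134.PF
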