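import Vale.Agent.P134.PX.FDefs
import Vale.Agent.P134.PS.BlockK1
import Vale.Agent.P134.PS.BlockK2

/-!
# P134 / PX : blocks F3b (almost affine interpolation) and F3d (points on normal lines)
-/

open MeasureTheory Set Filter Topology
open scoped ENNReal RealInnerProductSpace Real

namespace Vale.Agent.P134.PF

open Vale.Agent.P134.PS

namespace F3b

theorem tet_convex (i : KI) : Convex ℝ (tet i) := by
  intro x hx y hy a b ha hb hab k
  rw [BK1.bar_affine i k x y a b hab]
  exact add_nonneg (mul_nonneg ha (hx k)) (mul_nonneg hb (hy k))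

theorem tet_closed (i : KI) : IsClosed (tet i) := by
  have : tet i = ⋂ k, {x | 0 ≤ bar i k x} := by ext; simp [tet]
  rw [this]
  exact isClosed_iInter fun k => isClosed_le continuous_const (K2.bar_continuous i k)

theorem tet_finite (x0 : E3) (R : ℝ) :
    {i | (tet i ∩ Metric.closedBall x0 R).Nonempty}.Finite := by
  refine ((BK1.box_finite (R + dist x0 0)).prod (Set.finite_univ (α := Fin 6))).subset ?_
  rintro i ⟨x, hx, hR⟩
  refine ⟨fun j => ?_, Set.mem_univ _⟩
  have h1 := BK1.coord_bound hx j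
  have hR' : x ∈ Metric.closedBall (0 : E3) (R + dist x0 0) := by
    rw [Metric.mem_closedBall] at hR ⊢
    linarith [dist_triangle x x0 0]
  have h2 := abs_le.1 (BK1.abs_coord_le x _ hR' j)
  rw [abs_le]; constructor <;> linarith

/-- the Kuhn interpolation -/
noncomputable def val (h8 : StK8) (w : Lt → ℝ) (x : E3) : ℝ :=
  K2.LL w (Classical.choose (h8.1 x)) x

theorem val_eq (h8 : StK8) (w : Lt → ℝ) {i : KI} {x : E3} (hx : x ∈ tet i) :
    val h8 w x = K2.LL w i x :=
  h8.2 w _ i x (Classical.choose_spec (h8.1 x)) hx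

theorem val_sub (h8 : StK8) (w : Lt → ℝ) {i : KI} {x y : E3} (hx : x ∈ tet i) (hy : y ∈ tet i) :
    val h8 w y - val h8 w x = inner ℝ (grad w i) (y - x) := by
  rw [val_eq h8 w hx, val_eq h8 w hy, K2.LL_sub]

/-- the interpolation is almost affine in a good ball -/
theorem almost (h8 : StK8) (h3 : StF3a) {w : Lt → ℝ} {n : E3} {e : ℝ} {x0 : E3} {R : ℝ}
    (hg : Gr w n e x0 R) {x y : E3} (hx : x ∈ Metric.closedBall x0 R)
    (hy : y ∈ Metric.closedBall x0 R) :
    |val h8 w y - val h8 w x - inner ℝ n (y - x)| ≤ e * dist y x := by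
  classical
  set γ : ℝ → E3 := fun t => x + t • (y - x) with hγ
  have hγc : Continuous γ := by fun_prop
  have hsub : ∀ s t, γ t - γ s = (t - s) • (y - x) := by
    intro s t; simp only [hγ]; module
  have hball : ∀ t ∈ Icc (0 : ℝ) 1, γ t ∈ Metric.closedBall x0 R := by
    intro t ht
    have : γ t = (1 - t) • x + t • y := by simp only [hγ]; module
    rw [this]
    exact convex_closedBall x0 R hx hy (by linarith [ht.2]) ht.1 (by ring)
  have hfin := tet_finite x0 R
  obtain ⟨N, t, g, hmono, ht0, htN, hk, hIcc⟩ := h3 KI hfin.toFinset (fun j => γ ⁻¹' tet j)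
    (fun j _ => by
      intro a ha b hb s u hs hu hsu
      have : γ (s • a + u • b) = s • γ a + u • γ b := by
        simp only [hγ, smul_eq_mul]
        have : s = 1 - u := by linarith
        subst this
        module
      show γ (s • a + u • b) ∈ tet j
      rw [this]
      exact tet_convex j ha hb hs hu hsu)
    (fun j _ => (tet_closed j).preimage hγc)
    (fun s hs => by
      obtain ⟨j, hj⟩ := h8.1 (γ s)
      simp only [mem_iUnion]
      exact ⟨j, hfin.mem_toFinset.2 ⟨γ s, hj, hball s hs⟩, hj⟩)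
  have key : ∀ k, k ≤ N → |val h8 w (γ (t k)) - val h8 w x - t k * inner ℝ n (y - x)| ≤
      t k * (e * dist y x) := by
    intro k
    induction k with
    | zero =>
      intro _
      rw [ht0]
      simp [hγ]
    | succ k ih =>
      intro hkN
      have hk' : k < N := hkN
      obtain ⟨hJ, h1, h2⟩ := hk k hk'
      have ih' := ih hk'.le
      have hle : t k ≤ t (k + 1) := hmono (Nat.le_succ k)
      have hgr : ‖grad w (g k) - n‖ ≤ e :=
        hg (g k) (hfin.mem_toFinset.1 hJ)
      have hv := val_sub h8 w (x := γ (t k)) (y := γ (t (k + 1))) h1 h2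
      rw [hsub, inner_smul_right] at hv
      have h5 : inner ℝ (grad w (g k)) (y - x) - inner ℝ n (y - x) =
          inner ℝ (grad w (g k) - n) (y - x) := by rw [inner_sub_left]
      have h6 : |inner ℝ (grad w (g k) - n) (y - x)| ≤ e * dist y x := by
        refine (abs_real_inner_le_norm _ _).trans ?_
        rw [dist_eq_norm]
        exact mul_le_mul_of_nonneg_right hgr (norm_nonneg _)
      have h7 : val h8 w (γ (t (k + 1))) - val h8 w x - t (k + 1) * inner ℝ n (y - x) =
          (val h8 w (γ (t k)) - val h8 w x - t k * inner ℝ n (y - x)) +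
          (t (k + 1) - t k) * inner ℝ (grad w (g k) - n) (y - x) := by
        rw [← h5]; linear_combination hv
      rw [h7]
      refine (abs_add_le _ _).trans ?_
      rw [abs_mul, abs_of_nonneg (sub_nonneg.2 hle)]
      have h8' := mul_le_mul_of_nonneg_left h6 (sub_nonneg.2 hle)
      linarith
  have hN := key N le_rfl
  rw [htN] at hN
  have hγ1 : γ 1 = y := by simp [hγ]
  rw [hγ1, one_mul, one_mul] at hN
  exact hN

end F3b

open F3b in
theorem F3b : StF3b := by
  intro h8 h3 w n e x0 R hg x hx y hy i j hxi hyj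
  have h := almost h8 h3 hg hy hx
  rw [val_eq h8 w hxi, val_eq h8 w hyj] at h
  exact h

open F3b in
theorem F3d : StF3d := by
  intro h8 h3 _ w c n e z R h hn he0 he hg i hz hc hR
  have hh : 0 ≤ h := (abs_nonneg _).trans hc
  have hc' : |val h8 w z - c| ≤ h := by rw [val_eq h8 w hz]; exact hc
  set f : ℝ → ℝ := fun t => val h8 w (z + t • n) with hf
  have hball : ∀ t ∈ Icc (-(2 * h)) (2 * h), z + t • n ∈ Metric.closedBall z R := by
    intro t ht
    rw [Metric.mem_closedBall, dist_eq_norm, add_sub_cancel_left, norm_smul, hn, mul_one,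
      Real.norm_eq_abs]
    exact (abs_le.2 ht).trans hR
  have hnn : inner ℝ n n = (1 : ℝ) := by
    rw [real_inner_self_eq_norm_sq, hn]; norm_num
  have hdiff : ∀ s ∈ Icc (-(2 * h)) (2 * h), ∀ t ∈ Icc (-(2 * h)) (2 * h),
      |f t - f s - (t - s)| ≤ e * |t - s| := by
    intro s hs t ht
    have h1 := almost h8 h3 hg (hball s hs) (hball t ht)
    have h2 : z + t • n - (z + s • n) = (t - s) • n := by module
    rw [dist_eq_norm, h2, inner_smul_right, hnn, norm_smul, hn, mul_one, mul_one,
      Real.norm_eq_abs] at h1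
    exact h1
  have hcont : ContinuousOn f (Icc (-(2 * h)) (2 * h)) := by
    have hL : LipschitzOnWith 2 f (Icc (-(2 * h)) (2 * h)) := by
      refine LipschitzOnWith.of_dist_le_mul fun t ht s hs => ?_
      have h1 := hdiff s hs t ht
      rw [Real.dist_eq, Real.dist_eq]
      have h2 : |f t - f s| ≤ |f t - f s - (t - s)| + |t - s| := by
        have := abs_add_le (f t - f s - (t - s)) (t - s)
        simpa using this
      have h3' : e * |t - s| ≤ 1 * |t - s| :=
        mul_le_mul_of_nonneg_right (by linarith) (abs_nonneg _)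
      push_cast
      linarith
    exact hL.continuousOn
  have h0mem : (0 : ℝ) ∈ Icc (-(2 * h)) (2 * h) := ⟨by linarith, by linarith⟩
  have hpm : (2 * h) ∈ Icc (-(2 * h)) (2 * h) := ⟨by linarith, le_rfl⟩
  have hmm : -(2 * h) ∈ Icc (-(2 * h)) (2 * h) := ⟨le_rfl, by linarith⟩
  have hf0 : f 0 = val h8 w z := by simp [hf]
  have h1 := abs_le.1 (hdiff 0 h0mem _ hpm)
  have h2 := abs_le.1 (hdiff 0 h0mem _ hmm)
  rw [sub_zero, abs_of_nonneg (by linarith : (0 : ℝ) ≤ 2 * h)] at h1
  rw [sub_zero, abs_neg, abs_of_nonneg (by linarith : (0 : ℝ) ≤ 2 * h)] at h2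
  rw [hf0] at h1 h2
  have h3' := abs_le.1 hc'
  have he2 : e * (2 * h) ≤ 1 / 8 * (2 * h) := mul_le_mul_of_nonneg_right he (by linarith)
  have hmem : c ∈ Icc (f (-(2 * h))) (f (2 * h)) := by
    constructor
    · linarith [h2.2, h3'.2]
    · linarith [h1.1, h3'.1]
  obtain ⟨t, ht, hft⟩ := intermediate_value_Icc (by linarith : -(2 * h) ≤ 2 * h) hcont hmem
  obtain ⟨j, hj⟩ := h8.1 (z + t • n)
  refine ⟨t, j, abs_le.2 ht, hj, ?_⟩
  have := val_eq h8 w hj
  rw [show val h8 w (z + t • n) = c from hft] at this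
  exact this.symm

end Vale.Agent.P134.PF
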