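import Vale.Agent.P134.PX.FDefs

/-!
# P134 / PX : block F4, the weighted area inequality
-/

open MeasureTheory Set Filter Topology
open scoped ENNReal RealInnerProductSpace Real

namespace Vale.Agent.P134.PF

open Vale.Agent.P134.PS

theorem F4 : StF4 := by
  intro hP2 S Z hZ P R0 hP hR0 hP0 H κ hH
  set K : ℝ≥0∞ := ENNReal.ofReal (Real.exp (κ * R0)) with hK
  have hmeas : ∀ v, Measurable fun r : ℝ => P (S.rho Z v + ENNReal.ofReal r) := by
    intro v
    have : Antitone fun r : ℝ => P (S.rho Z v + ENNReal.ofReal r) := fun a b hab =>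
      hP (add_le_add le_rfl (ENNReal.ofReal_le_ofReal hab))
    exact this.measurable
  have h := hP2 S Z hZ (fun x => P (S.rho Z x) * H x)
    (fun v r => P (S.rho Z v + ENNReal.ofReal r) * (K * H v))
    (fun v => (hmeas v).mul measurable_const)
    (fun x hx => by
      show P (S.rho Z x) * H x = 0
      rw [hx, hP0 ⊤ le_top, zero_mul])
    (fun v _ _ x r hr hx hd => by
      show P (S.rho Z x) * H x ≤ P (S.rho Z v + ENNReal.ofReal r) * (K * H v)
      rw [hx]
      by_cases hrR : R0 ≤ r
      · rw [hP0 _ ((ENNReal.ofReal_le_ofReal hrR).trans le_add_self), zero_mul]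
        exact zero_le
      · push Not at hrR
        refine mul_le_mul le_rfl ?_ zero_le zero_le
        refine (hH.le x v).trans ?_
        refine mul_le_mul ?_ le_rfl zero_le zero_le
        apply ENNReal.ofReal_le_ofReal
        apply Real.exp_le_exp.2
        apply mul_le_mul_of_nonneg_left _ hH.nn
        rw [dist_comm]
        exact hd.trans hrR.le)
  refine h.trans (le_of_eq ?_)
  rw [← ENNReal.tsum_mul_left]
  refine tsum_congr fun v => ?_
  have h1 : ∫⁻ r in Ioi (0 : ℝ), P (S.rho Z v + ENNReal.ofReal r) * (K * H v) * ENNReal.ofReal r =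
      (K * H v) * Phi P (S.rho Z v) := by
    have h2 : Measurable fun r : ℝ =>
        P (S.rho Z v + ENNReal.ofReal r) * ENNReal.ofReal r :=
      (hmeas v).mul ENNReal.measurable_ofReal
    rw [Phi, ← lintegral_const_mul _ h2]
    refine lintegral_congr fun r => ?_
    ring
  rw [h1]
  ring

end Vale.Agent.P134.PF
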