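import Vale.Agent.P134.PX.BlockF10

/-! # P134 / PX, block F5: counting the sources. -/

open MeasureTheory Set
open scoped ENNReal RealInnerProductSpace Real

namespace Vale.Agent.P134.PF

open Vale.Agent.P134.PS

namespace F5

theorem evec_01 (τ : Fin 7) (j : Fin 3) : evec τ j = 0 ∨ evec τ j = 1 := by
  revert τ j; decide

theorem abs_apply_le (x : E3) (j : Fin 3) : |x j| ≤ ‖x‖ := by
  have h2 : ‖x j‖ ≤ ‖x‖ := PiLp.norm_apply_le x j
  rwa [Real.norm_eq_abs] at h2

/-- an edge containing a given vertex of the level surface -/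
theorem exists_edge {w : Lt → ℝ} {c : ℝ} (v : kV w c) : ∃ e : Lt × Fin 7, ∃ t : ℝ,
    0 < t ∧ t < 1 ∧ (v : E3) = pt e.1 + t • pt (evec e.2) ∧
    (1 - t) * w e.1 + t * w (e.1 + evec e.2) = c := by
  obtain ⟨v, q, τ, t, h⟩ := v
  exact ⟨(q, τ), t, h⟩

noncomputable def edge {w : Lt → ℝ} {c : ℝ} (v : kV w c) : Lt × Fin 7 := (exists_edge v).choose

theorem edge_spec {w : Lt → ℝ} {c : ℝ} (v : kV w c) : ∃ t : ℝ,
    0 < t ∧ t < 1 ∧ (v : E3) = pt (edge v).1 + t • pt (evec (edge v).2) ∧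
    (1 - t) * w (edge v).1 + t * w ((edge v).1 + evec (edge v).2) = c :=
  (exists_edge v).choose_spec

/-- a generic level surface meets an edge at most once -/
theorem edge_injective {w : Lt → ℝ} {c : ℝ} (hc : ∀ q, w q ≠ c) :
    Function.Injective (edge (w := w) (c := c)) := by
  intro v v' h
  obtain ⟨t, -, -, h1, h2⟩ := edge_spec v
  obtain ⟨t', -, -, h1', h2'⟩ := edge_spec v'
  rw [← h] at h1' h2'
  have h3 : (t - t') * (w ((edge v).1 + evec (edge v).2) - w (edge v).1) = 0 := by linarith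
  rcases mul_eq_zero.1 h3 with h4 | h4
  · have : t = t' := by linarith
    subst this
    exact Subtype.ext (h1.trans h1'.symm)
  · exfalso
    apply hc (edge v).1
    have : w ((edge v).1 + evec (edge v).2) = w (edge v).1 := by linarith
    rw [this] at h2
    linarith

/-- the edge is near the vertex -/
theorem edge_near {w : Lt → ℝ} {c : ℝ} (v : kV w c) (j : Fin 3) :
    |(v : E3) j - (edge v).1 j| ≤ 1 := by
  obtain ⟨t, h0, h1, h2, -⟩ := edge_spec v
  rw [h2]
  simp only [PiLp.add_apply, PiLp.smul_apply, pt, smul_eq_mul]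
  rcases evec_01 (edge v).2 j with h | h <;> rw [h] <;> simp [abs_le] <;> constructor <;> linarith

/-- codes of edges near a given point -/
abbrev Code (M : ℤ) : Type := (Fin 3 → Finset.Icc (-M) M) × Fin 7

/-- the edges through the vertices in a ball inject into `Code M` -/
theorem exists_code {w : Lt → ℝ} {c L : ℝ} (hc : ∀ q, w q ≠ c) (M : ℤ) (hM : L + 2 ≤ M)
    (x : E3) : ∃ f : {v : kV w c // dist (v : E3) x ≤ L} → Code M, Function.Injective f := by
  have key : ∀ v : {v : kV w c // dist (v : E3) x ≤ L}, ∀ j,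
      (edge v.1).1 j - ⌊x j⌋ ∈ Finset.Icc (-M) M := by
    intro v j
    have h1 := edge_near v.1 j
    have h2 : |((v.1 : E3) - x) j| ≤ L :=
      (abs_apply_le _ j).trans (by simpa [dist_eq_norm] using v.2)
    simp only [PiLp.sub_apply] at h2
    have h3 := Int.floor_le (x j)
    have h4 := Int.lt_floor_add_one (x j)
    rw [abs_le] at h1 h2
    rw [Finset.mem_Icc]
    constructor
    · have : (-(M : ℝ)) ≤ (((edge v.1).1 j - ⌊x j⌋ : ℤ) : ℝ) := by push_cast; linarith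
      exact_mod_cast this
    · have : (((edge v.1).1 j - ⌊x j⌋ : ℤ) : ℝ) ≤ M := by push_cast; linarith
      exact_mod_cast this
  refine ⟨fun v => (fun j => ⟨_, key v j⟩, (edge v.1).2), ?_⟩
  intro v v' h
  rw [Prod.mk.injEq] at h
  apply Subtype.ext
  apply edge_injective hc
  refine Prod.ext ?_ h.2
  funext j
  have := congrFun h.1 j
  rw [Subtype.mk.injEq] at this
  linarith

/-- the number of codes -/
noncomputable def nc (L : ℝ) : ℕ := Fintype.card (Code (⌈L⌉ + 2))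

theorem nc_pos (L : ℝ) (hL : 0 < L) : 0 < nc L := by
  rw [nc]
  have : 0 ≤ ⌈L⌉ := Int.ceil_nonneg hL.le
  have : Nonempty (Finset.Icc (-(⌈L⌉ + 2)) (⌈L⌉ + 2)) :=
    ⟨⟨0, by rw [Finset.mem_Icc]; constructor <;> linarith⟩⟩
  exact Fintype.card_pos

/-- sums over vertices near `B` -/
theorem tsum_near {w : Lt → ℝ} {c L : ℝ} (hc : ∀ q, w q ≠ c) (B : Set E3) (o : E3)
    {H : E3 → ℝ≥0∞} {κ : ℝ} (hH : HW H κ) (hκ : κ ≤ 1) :
    ∑' v : {v // v ∈ kV w c ∧ v + o ∈ Nr B L}, H (v.1 + o) ≤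
      ENNReal.ofReal (Real.exp L * nc L) * ∑' b : B, H b := by
  have hex : ∀ v : {v // v ∈ kV w c ∧ v + o ∈ Nr B L}, ∃ b : B, dist (v.1 + o) b ≤ L := by
    rintro ⟨v, -, b, hb, h⟩
    exact ⟨⟨b, hb⟩, h⟩
  choose b hb using hex
  have hM : L + 2 ≤ ((⌈L⌉ + 2 : ℤ) : ℝ) := by
    push_cast
    linarith [Int.le_ceil L]
  choose f hf using fun b : B => exists_code (w := w) (c := c) (L := L) hc (⌈L⌉ + 2) hM (b - o)
  have hd : ∀ v : {v // v ∈ kV w c ∧ v + o ∈ Nr B L},
      dist ((⟨v.1, v.2.1⟩ : kV w c) : E3) ((b v : E3) - o) ≤ L := by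
    intro v
    have := hb v
    rw [dist_eq_norm] at this ⊢
    rwa [show v.1 - ((b v : E3) - o) = v.1 + o - b v by abel]
  let F : {v // v ∈ kV w c ∧ v + o ∈ Nr B L} → B × Code (⌈L⌉ + 2) :=
    fun v => (b v, f (b v) ⟨⟨v.1, v.2.1⟩, hd v⟩)
  have hF : Function.Injective F := by
    intro v v' h
    simp only [F, Prod.mk.injEq] at h
    obtain ⟨h1, h2⟩ := h
    have h3 : ∀ (b1 b2 : B) (h : b1 = b2) (x1 x2 : kV w c) (e1 : dist (x1 : E3) ((b1 : E3) - o) ≤ L)
        (e2 : dist (x2 : E3) ((b2 : E3) - o) ≤ L), f b1 ⟨x1, e1⟩ = f b2 ⟨x2, e2⟩ → x1 = x2 := by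
      intro b1 b2 h x1 x2 e1 e2 h'
      subst h
      have := hf b1 h'
      simpa using this
    have h4 := h3 _ _ h1 _ _ _ _ h2
    rw [Subtype.mk.injEq] at h4
    exact Subtype.ext h4
  calc ∑' v : {v // v ∈ kV w c ∧ v + o ∈ Nr B L}, H (v.1 + o)
      ≤ ∑' v : {v // v ∈ kV w c ∧ v + o ∈ Nr B L}, ENNReal.ofReal (Real.exp L) * H (F v).1 :=
        ENNReal.tsum_le_tsum fun v => F10.HW.le_exp hH hκ (hb v)
    _ ≤ ∑' p : B × Code (⌈L⌉ + 2), ENNReal.ofReal (Real.exp L) * H p.1 :=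
        ENNReal.tsum_comp_le_tsum_of_injective hF _
    _ = ENNReal.ofReal (Real.exp L * nc L) * ∑' b : B, H b := by
        rw [ENNReal.tsum_prod (f := fun (b : B) (_ : Code (⌈L⌉ + 2)) =>
          ENNReal.ofReal (Real.exp L) * H b)]
        simp only [tsum_fintype, Finset.sum_const, Finset.card_univ, nsmul_eq_mul]
        rw [← ENNReal.tsum_mul_left, ENNReal.ofReal_mul (Real.exp_pos L).le,
          ENNReal.ofReal_natCast]
        refine tsum_congr fun b => ?_
        rw [nc]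
        ring

end F5

/-- F5: counting the sources. -/
theorem F5 : StF5 := by
  intro L hL
  have h1 := F5.nc_pos L hL
  refine ⟨Real.exp L * F5.nc L, by positivity, ?_⟩
  intro B o w c hc _ H κ hH hκ
  exact F5.tsum_near hc B o hH hκ

end Vale.Agent.P134.PF
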