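import Vale.Agent.P134.PX.FDefs

/-!
# P134 / PX : block F6, the interpolation of `φ` is close to `φ`
-/

open MeasureTheory Set
open scoped ENNReal RealInnerProductSpace Real

namespace Vale.Agent.P134.PF

open Vale.Agent.P134.PS

theorem pt_apply (q : Lt) (j : Fin 3) : (pt q) j = (q j : ℝ) := rfl

theorem vert_bd (i : KI) (k : Fin 4) (j : Fin 3) : ((i.1 j : ℤ) : ℝ) ≤ (vert i k j : ℝ) ∧
    (vert i k j : ℝ) ≤ (i.1 j : ℝ) + 1 := by
  unfold vert
  split_ifs
  · push_cast
    constructor <;> linarith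
  · push_cast
    constructor <;> linarith

theorem tet_coord {i : KI} {x : E3} (hx : x ∈ tet i) (j : Fin 3) :
    (i.1 j : ℝ) ≤ x j ∧ x j ≤ (i.1 j : ℝ) + 1 := by
  have h1 : x j = ∑ k, bar i k x * (vert i k j : ℝ) := by
    conv_lhs => rw [← bar_pt i x]
    simp [pt_apply]
  have h2 := bar_sum i x
  rw [h1]
  constructor
  · calc (i.1 j : ℝ) = ∑ k, bar i k x * (i.1 j : ℝ) := by rw [← Finset.sum_mul, h2, one_mul]
      _ ≤ _ := Finset.sum_le_sum fun k _ => mul_le_mul_of_nonneg_left (vert_bd i k j).1 (hx k)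
  · calc _ ≤ ∑ k, bar i k x * ((i.1 j : ℝ) + 1) :=
          Finset.sum_le_sum fun k _ => mul_le_mul_of_nonneg_left (vert_bd i k j).2 (hx k)
      _ = _ := by rw [← Finset.sum_mul, h2, one_mul]

/-- a vector with coordinates of modulus at most `e` has norm at most `√3 e` -/
theorem norm_le_of_coord {v : E3} {e : ℝ} (he : 0 ≤ e) (h : ∀ j, |v j| ≤ e) :
    ‖v‖ ≤ √3 * e := by
  rw [EuclideanSpace.norm_eq, ← Real.sqrt_sq he, ← Real.sqrt_mul (by norm_num)]
  refine Real.sqrt_le_sqrt ?_
  rw [Fin.sum_univ_three]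
  have key : ∀ j, ‖v j‖ ^ 2 ≤ e ^ 2 := fun j => by
    rw [Real.norm_eq_abs]
    exact pow_le_pow_left₀ (abs_nonneg _) (h j) 2
  linarith [key 0, key 1, key 2]

theorem sqrt3_le : √3 ≤ (9 / 5 : ℝ) := by
  rw [Real.sqrt_le_left (by norm_num)]
  norm_num

theorem tet_dist {i : KI} {x : E3} (hx : x ∈ tet i) (k : Fin 4) :
    ‖pt (vert i k) - x‖ ≤ √3 := by
  have h := norm_le_of_coord (v := pt (vert i k) - x) (e := 1) zero_le_one (fun j => by
    have h1 := tet_coord hx j
    have h2 := vert_bd i k j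
    rw [PiLp.sub_apply, pt_apply, abs_le]
    constructor <;> linarith [h1.1, h1.2, h2.1, h2.2])
  linarith

theorem F6' : StF6' := by
  intro φ o hφ i x hx
  have h1 : (∑ k, bar i k x * wo φ o (vert i k)) - φ (x + o) =
      ∑ k, bar i k x * (wo φ o (vert i k) - φ (x + o)) := by
    simp only [mul_sub, Finset.sum_sub_distrib]
    rw [← Finset.sum_mul, bar_sum, one_mul]
  rw [h1]
  calc |∑ k, bar i k x * (wo φ o (vert i k) - φ (x + o))|
      ≤ ∑ k, |bar i k x * (wo φ o (vert i k) - φ (x + o))| := Finset.abs_sum_le_sum_abs _ _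
    _ ≤ ∑ k, bar i k x * √3 := by
        refine Finset.sum_le_sum fun k _ => ?_
        rw [abs_mul, abs_of_nonneg (hx k)]
        refine mul_le_mul_of_nonneg_left ?_ (hx k)
        refine (hφ _ _).trans ?_
        rw [dist_eq_norm, add_sub_add_right_eq_sub]
        exact tet_dist hx k
    _ = √3 := by rw [← Finset.sum_mul, bar_sum, one_mul]
    _ ≤ 9 / 5 := sqrt3_le

theorem vert_step_aux : ∀ (s : Fin 6) (j j' : Fin 3),
    ((if rk s j' < (Fin.ofNat 4 (rk s j + 1) : Fin 4).val then (1 : ℤ) else 0) -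
      if rk s j' < (Fin.ofNat 4 (rk s j) : Fin 4).val then (1 : ℤ) else 0) =
      if j' = j then 1 else 0 := by decide

theorem vert_step (i : KI) (j : Fin 3) :
    pt (vert i (Fin.ofNat 4 (rk i.2 j + 1))) - pt (vert i (Fin.ofNat 4 (rk i.2 j))) = bs j := by
  ext j'
  rw [PiLp.sub_apply, pt_apply, pt_apply]
  have h := vert_step_aux i.2 j j'
  have h2 : (vert i (Fin.ofNat 4 (rk i.2 j + 1)) j' : ℤ) - vert i (Fin.ofNat 4 (rk i.2 j)) j' =
      if j' = j then 1 else 0 := by
    rw [← h]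
    simp only [vert]
    ring
  have h3 : ((vert i (Fin.ofNat 4 (rk i.2 j + 1)) j' : ℤ) : ℝ) -
      (vert i (Fin.ofNat 4 (rk i.2 j)) j' : ℤ) = ((if j' = j then 1 else 0 : ℤ) : ℝ) := by
    rw [← h2]
    push_cast
    ring
  rw [h3, bs, PiLp.single_apply]
  split_ifs <;> simp

theorem inner_bs (n : E3) (j : Fin 3) : inner ℝ n (bs j) = n j := by
  rw [bs, real_inner_comm, EuclideanSpace.inner_single_left]
  simp

/-- the mean value inequality for `φ - ⟪n, ·⟫` -/
theorem mv {φ : E3 → ℝ} {n x0 : E3} {e ρ : ℝ} (hφ : ContDiff ℝ 2 φ) (he : 0 ≤ e)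
    (h : ∀ y, dist x0 y ≤ ρ → ∀ a : E3, |d1 φ y a - inner ℝ n a| ≤ e * ‖a‖) {y z : E3}
    (hy : dist x0 y ≤ ρ) (hz : dist x0 z ≤ ρ) :
    |φ z - φ y - inner ℝ n (z - y)| ≤ e * ‖z - y‖ := by
  have hd : ∀ x ∈ Metric.closedBall x0 ρ, HasFDerivWithinAt (fun x => φ x - innerSL ℝ n x)
      (fderiv ℝ φ x - innerSL ℝ n) (Metric.closedBall x0 ρ) x := fun x _ =>
    (((hφ.differentiable (by norm_num)) x).hasFDerivAt.sub
      (innerSL ℝ n).hasFDerivAt).hasFDerivWithinAt
  have hb : ∀ x ∈ Metric.closedBall x0 ρ, ‖fderiv ℝ φ x - innerSL ℝ n‖ ≤ e := by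
    intro x hx
    refine ContinuousLinearMap.opNorm_le_bound _ he fun a => ?_
    have := h x (by rw [dist_comm]; exact hx) a
    simpa [d1] using this
  have key := (convex_closedBall x0 ρ).norm_image_sub_le_of_norm_hasFDerivWithin_le hd hb
    (x := y) (y := z) (by rw [Metric.mem_closedBall, dist_comm]; exact hy)
    (by rw [Metric.mem_closedBall, dist_comm]; exact hz)
  rw [Real.norm_eq_abs] at key
  refine le_trans (le_of_eq ?_) key
  congr 1
  simp only [innerSL_apply_apply, inner_sub_right]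
  ring

theorem F6 : StF6 := by
  intro φ o n x0 e R hφ he h
  have hR2 : √3 ≤ 2 := sqrt3_le.trans (by norm_num)
  have hv : ∀ (i : KI) (x : E3), x ∈ tet i → x ∈ Metric.closedBall (x0 - o) R → ∀ k,
      dist x0 (pt (vert i k) + o) ≤ R + 2 := by
    intro i x hx hxb k
    have h1 := tet_dist hx k
    rw [Metric.mem_closedBall, dist_eq_norm] at hxb
    rw [dist_comm, dist_eq_norm]
    have e1 : pt (vert i k) + o - x0 = (pt (vert i k) - x) + (x - (x0 - o)) := by abel
    rw [e1]
    linarith [norm_add_le (pt (vert i k) - x) (x - (x0 - o))]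
  refine ⟨?_, ?_⟩
  · rintro i ⟨x, hx, hxb⟩
    have hj : ∀ j, |(grad (wo φ o) i - n) j| ≤ e := by
      intro j
      have h1 := mv hφ he h (hv i x hx hxb (Fin.ofNat 4 (rk i.2 j)))
        (hv i x hx hxb (Fin.ofNat 4 (rk i.2 j + 1)))
      rw [add_sub_add_right_eq_sub, vert_step, inner_bs] at h1
      have e1 : ‖bs j‖ = 1 := by rw [bs]; simp
      rw [e1, mul_one] at h1
      exact h1
    refine (norm_le_of_coord he hj).trans ?_
    nlinarith
  · intro i x hx hxb
    have h1 : (∑ k, bar i k x * wo φ o (vert i k)) - φ (x + o) =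
        ∑ k, bar i k x * (φ (pt (vert i k) + o) - φ (x + o) -
          inner ℝ n (pt (vert i k) + o - (x + o))) := by
      simp only [mul_sub, Finset.sum_sub_distrib]
      have e1 : ∑ k, bar i k x * φ (x + o) = φ (x + o) := by
        rw [← Finset.sum_mul, bar_sum, one_mul]
      have e2 : ∑ k, bar i k x * inner ℝ n (pt (vert i k) + o - (x + o)) = 0 := by
        have e3 : ∀ k, bar i k x * inner ℝ n (pt (vert i k) + o - (x + o)) =
            inner ℝ n (bar i k x • pt (vert i k)) - bar i k x * inner ℝ n x := fun k => by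
          rw [add_sub_add_right_eq_sub, inner_sub_right, inner_smul_right]
          ring
        simp only [e3, Finset.sum_sub_distrib]
        rw [← inner_sum, bar_pt, ← Finset.sum_mul, bar_sum, one_mul, sub_self]
      rw [e1, e2, sub_zero]
      rfl
    rw [h1]
    have hxd : dist x0 (x + o) ≤ R + 2 := by
      rw [Metric.mem_closedBall, dist_eq_norm] at hxb
      rw [dist_comm, dist_eq_norm]
      have e1 : x + o - x0 = x - (x0 - o) := by abel
      rw [e1]
      linarith
    calc |∑ k, bar i k x * (φ (pt (vert i k) + o) - φ (x + o) -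
          inner ℝ n (pt (vert i k) + o - (x + o)))|
        ≤ ∑ k, |bar i k x * (φ (pt (vert i k) + o) - φ (x + o) -
          inner ℝ n (pt (vert i k) + o - (x + o)))| := Finset.abs_sum_le_sum_abs _ _
      _ ≤ ∑ k, bar i k x * (e * √3) := by
          refine Finset.sum_le_sum fun k _ => ?_
          rw [abs_mul, abs_of_nonneg (hx k)]
          refine mul_le_mul_of_nonneg_left ?_ (hx k)
          refine (mv hφ he h hxd (hv i x hx hxb k)).trans ?_
          refine mul_le_mul_of_nonneg_left ?_ he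
          rw [add_sub_add_right_eq_sub]
          exact tet_dist hx k
      _ = e * √3 := by rw [← Finset.sum_mul, bar_sum, one_mul]
      _ ≤ 2 * e := by nlinarith

end Vale.Agent.P134.PF
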