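import Vale.Agent.P134.PX.FDefs

/-!
# P134 / PX, block F7 : integration over the levels
-/

open MeasureTheory Set
open scoped ENNReal RealInnerProductSpace Real

namespace Vale.Agent.P134.PF

open Vale.Agent.P134.PS

namespace F7

/-- `c` lies strictly between the values at the ends of the edge -/
def btw (w : Lt → ℝ) (e : Lt × Fin 7) : Set ℝ :=
  Ioo (min (w e.1) (w (e.1 + evec e.2))) (max (w e.1) (w (e.1 + evec e.2)))

theorem volume_btw (w : Lt → ℝ) (e : Lt × Fin 7) :
    volume (btw w e) = ENNReal.ofReal |w (e.1 + evec e.2) - w e.1| := by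
  rw [btw, Real.volume_Ioo, max_sub_min_eq_abs]

theorem mem_btw {w : Lt → ℝ} {c t : ℝ} {q : Lt} {τ : Fin 7} (hc : ∀ q, w q ≠ c)
    (h0 : 0 < t) (h1 : t < 1) (h : (1 - t) * w q + t * w (q + evec τ) = c) :
    c ∈ btw w (q, τ) := by
  have ha := hc q
  have hb := hc (q + evec τ)
  simp only [btw, mem_Ioo, min_lt_iff, lt_max_iff]
  rcases lt_trichotomy (w q) (w (q + evec τ)) with hl | hl | hl
  · constructor
    · left; nlinarith
    · right; nlinarith
  · exfalso; apply ha; rw [← h, ← hl]; ring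
  · constructor
    · right; nlinarith
    · left; nlinarith

theorem t_unique {w : Lt → ℝ} {c t t' : ℝ} {q : Lt} {τ : Fin 7} (hc : ∀ q, w q ≠ c)
    (h : (1 - t) * w q + t * w (q + evec τ) = c)
    (h' : (1 - t') * w q + t' * w (q + evec τ) = c) : t = t' := by
  have hd : w (q + evec τ) - w q ≠ 0 := by
    intro hd
    apply hc q
    have : w (q + evec τ) = w q := by linarith
    rw [← h, this]; ring
  have : (t - t') * (w (q + evec τ) - w q) = 0 := by linear_combination h - h'
  rcases mul_eq_zero.1 this with h | h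
  · linarith
  · exact absurd h hd

open Classical in
/-- the sum over the vertices is at most the sum over the edges -/
theorem tsum_le (w : Lt → ℝ) (c : ℝ) (hc : ∀ q, w q ≠ c) (h : E3 → ℝ≥0∞)
    (Θ : Lt → Fin 7 → ℝ≥0∞)
    (H : ∀ (q : Lt) (τ : Fin 7) (t : ℝ), 0 < t → t < 1 →
      (1 - t) * w q + t * w (q + evec τ) = c → h (pt q + t • pt (evec τ)) ≤ Θ q τ) :
    ∑' v : kV w c, h v ≤
      ∑' e : Lt × Fin 7, (btw w e).indicator (fun _ => Θ e.1 e.2) c := by
  have hex : ∀ v : kV w c, ∃ (e : Lt × Fin 7) (t : ℝ), 0 < t ∧ t < 1 ∧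
      (v : E3) = pt e.1 + t • pt (evec e.2) ∧ (1 - t) * w e.1 + t * w (e.1 + evec e.2) = c := by
    rintro ⟨v, q, τ, t, h0, h1, hv, hw⟩
    exact ⟨(q, τ), t, h0, h1, hv, hw⟩
  choose E t h0 h1 hv hw using hex
  have hinj : Function.Injective E := by
    intro a b hab
    apply Subtype.ext
    rw [hv a, hv b]
    have : t a = t b := by
      have hb := hw b
      rw [← hab] at hb
      exact t_unique (q := (E a).1) (τ := (E a).2) hc (hw a) hb
    rw [this, hab]
  calc ∑' v : kV w c, h v
      ≤ ∑' v : kV w c, (btw w (E v)).indicator (fun _ => Θ (E v).1 (E v).2) c := by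
        refine ENNReal.tsum_le_tsum fun v => ?_
        rw [indicator_of_mem (mem_btw hc (h0 v) (h1 v) (hw v))]
        conv_lhs => rw [hv v]
        exact H _ _ _ (h0 v) (h1 v) (hw v)
    _ ≤ _ := ENNReal.tsum_comp_le_tsum_of_injective hinj
        (fun e => (btw w e).indicator (fun _ => Θ e.1 e.2) c)

end F7

open Classical in
theorem F7 : StF7 := by
  intro w I h Θ hI H
  calc ∫⁻ c in I, (if (∀ q, w q ≠ c) then ∑' v : kV w c, h c v else 0)
      ≤ ∫⁻ c in I, ∑' e : Lt × Fin 7, (F7.btw w e).indicator (fun _ => Θ e.1 e.2) c := by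
        refine setLIntegral_mono' hI fun c hc => ?_
        split_ifs with hg
        · exact F7.tsum_le w c hg (h c) Θ (H c hc hg)
        · exact zero_le
    _ ≤ ∫⁻ c, ∑' e : Lt × Fin 7, (F7.btw w e).indicator (fun _ => Θ e.1 e.2) c :=
        setLIntegral_le_lintegral _ _
    _ = ∑' e : Lt × Fin 7, ∫⁻ c, (F7.btw w e).indicator (fun _ => Θ e.1 e.2) c := by
        refine lintegral_tsum fun e => ?_
        exact (measurable_const.indicator measurableSet_Ioo).aemeasurable
    _ = ∑' e : Lt × Fin 7, ENNReal.ofReal |w (e.1 + evec e.2) - w e.1| * Θ e.1 e.2 := by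
        congr 1; ext e
        rw [lintegral_indicator_const (s := F7.btw w e) measurableSet_Ioo, F7.volume_btw, mul_comm]
    _ = ∑' q : Lt, ∑' τ : Fin 7, ENNReal.ofReal |w (q + evec τ) - w q| * Θ q τ :=
        ENNReal.tsum_prod (f := fun q τ => ENNReal.ofReal |w (q + evec τ) - w q| * Θ q τ)
    _ = _ := by
        congr 1; ext q; rw [tsum_fintype]

end Vale.Agent.P134.PF

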