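import Vale.Agent.P134.PX.FDefs

/-! # P134 / PX / block F8 : second differences as averages of second derivatives -/

open MeasureTheory Set
open scoped ENNReal RealInnerProductSpace Real

namespace Vale.Agent.P134.PF

open Vale.Agent.P134.PS

/-- Jensen for continuous functions on `[0,1]` -/
theorem sq_integral_le {g : ℝ → ℝ} (hg : Continuous g) :
    (∫ t in (0 : ℝ)..1, g t) ^ 2 ≤ ∫ t in (0 : ℝ)..1, g t ^ 2 := by
  set m := ∫ t in (0 : ℝ)..1, g t with hm
  have h0 : 0 ≤ ∫ t in (0 : ℝ)..1, (g t - m) ^ 2 :=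
    intervalIntegral.integral_nonneg (by norm_num) fun t _ => sq_nonneg _
  have h1 : ∫ t in (0 : ℝ)..1, (g t - m) ^ 2
      = (∫ t in (0 : ℝ)..1, g t ^ 2) - 2 * m * m + m ^ 2 := by
    have e : ∀ t, (g t - m) ^ 2 = (g t ^ 2 - 2 * m * g t) + m ^ 2 := fun t => by ring
    simp_rw [e]
    rw [intervalIntegral.integral_add, intervalIntegral.integral_sub,
      intervalIntegral.integral_const_mul, ← hm]
    · simp
    · exact (hg.pow 2).intervalIntegrable _ _
    · exact (continuous_const.mul hg).intervalIntegrable _ _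
    · exact ((hg.pow 2).sub (continuous_const.mul hg)).intervalIntegrable _ _
    · exact continuous_const.intervalIntegrable _ _
  nlinarith

theorem ofReal_sq_integral_le {g : ℝ → ℝ} (hg : Continuous g) :
    ENNReal.ofReal ((∫ t in (0 : ℝ)..1, g t) ^ 2) ≤
      ∫⁻ t in Icc (0 : ℝ) 1, ENNReal.ofReal (g t ^ 2) := by
  have h1 : (∫ t in (0 : ℝ)..1, g t ^ 2) = ∫ t in Icc (0 : ℝ) 1, g t ^ 2 := by
    rw [intervalIntegral.integral_of_le (by norm_num), integral_Icc_eq_integral_Ioc]
  rw [← ofReal_integral_eq_lintegral_ofReal, ← h1]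
  · exact ENNReal.ofReal_le_ofReal (sq_integral_le hg)
  · exact (hg.pow 2).continuousOn.integrableOn_compact isCompact_Icc
  · exact Filter.Eventually.of_forall fun t => sq_nonneg _

theorem continuous_d1 {φ : E3 → ℝ} (hφ : ContDiff ℝ 2 φ) (a : E3) :
    ContDiff ℝ 1 (fun y => fderiv ℝ φ y a) :=
  (hφ.fderiv_right (m := 1) (by norm_num)).clm_apply contDiff_const

theorem continuous_d2 {φ : E3 → ℝ} (hφ : ContDiff ℝ 2 φ) (a b : E3) :
    Continuous (fun y => d2 φ y a b) := by
  unfold d2
  exact ((continuous_d1 hφ a).continuous_fderiv (by norm_num)).clm_apply continuous_const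

/-- derivative along a line -/
theorem hasDerivAt_line {f : E3 → ℝ} (hf : Differentiable ℝ f) (x v : E3) (s : ℝ) :
    HasDerivAt (fun s : ℝ => f (x + s • v)) (fderiv ℝ f (x + s • v) v) s := by
  have h1 : HasDerivAt (fun s : ℝ => x + s • v) v s := by
    simpa using ((hasDerivAt_id s).smul_const v).const_add x
  exact (hf (x + s • v)).hasFDerivAt.comp_hasDerivAt s h1

theorem F8 : StF8 := by
  intro φ hφ x a b
  have hd : Differentiable ℝ φ := hφ.differentiable (by norm_num)
  have hd1 : ∀ a : E3, Differentiable ℝ (fun y => fderiv ℝ φ y a) := fun a =>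
    (continuous_d1 hφ a).differentiable (by norm_num)
  have hc1 : ∀ a : E3, Continuous (fun y => fderiv ℝ φ y a) := fun a =>
    (continuous_d1 hφ a).continuous
  -- first derivative in `s`
  set H : ℝ → ℝ := fun s => fderiv ℝ φ (x + b + s • a) a - fderiv ℝ φ (x + s • a) a with hH
  have hHc : Continuous H := by
    have h1 : Continuous fun s : ℝ => x + b + s • a := by fun_prop
    have h2 : Continuous fun s : ℝ => x + s • a := by fun_prop
    exact ((hc1 a).comp h1).sub ((hc1 a).comp h2)
  have hint : ∫ s in (0 : ℝ)..1, H s = φ (x + a + b) - φ (x + a) - φ (x + b) + φ x := by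
    have hder : ∀ s ∈ uIcc (0 : ℝ) 1,
        HasDerivAt (fun s : ℝ => φ (x + b + s • a) - φ (x + s • a)) (H s) s := fun s _ =>
      (hasDerivAt_line hd (x + b) a s).sub (hasDerivAt_line hd x a s)
    rw [intervalIntegral.integral_eq_sub_of_hasDerivAt hder (hHc.intervalIntegrable _ _)]
    simp only [one_smul, zero_smul, add_zero]
    rw [show x + b + a = x + a + b by abel]
    ring
  have hHt : ∀ s, H s = ∫ t in (0 : ℝ)..1, d2 φ (x + s • a + t • b) a b := by
    intro s
    have hder : ∀ t ∈ uIcc (0 : ℝ) 1,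
        HasDerivAt (fun t : ℝ => fderiv ℝ φ (x + s • a + t • b) a)
          (d2 φ (x + s • a + t • b) a b) t := fun t _ =>
      hasDerivAt_line (hd1 a) (x + s • a) b t
    have hcont : Continuous fun t : ℝ => d2 φ (x + s • a + t • b) a b :=
      (continuous_d2 hφ a b).comp (by fun_prop)
    rw [intervalIntegral.integral_eq_sub_of_hasDerivAt hder (hcont.intervalIntegrable _ _)]
    simp only [one_smul, zero_smul, add_zero, hH]
    rw [show x + b + s • a = x + s • a + b by abel]
  rw [← hint]
  refine (ofReal_sq_integral_le hHc).trans (lintegral_mono fun s => ?_)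
  simp only
  rw [hHt s]
  have hcont : Continuous fun t : ℝ => d2 φ (x + s • a + t • b) a b :=
    (continuous_d2 hφ a b).comp (by fun_prop)
  exact ofReal_sq_integral_le hcont

end Vale.Agent.P134.PF
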