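import Vale.Agent.P134.PX.FDefs

/-! # P134 / PX / block F9 : integration over the offsets -/

open MeasureTheory Set
open scoped ENNReal RealInnerProductSpace Real

namespace Vale.Agent.P134.PF

open Vale.Agent.P134.PS

theorem measurableSet_cube : MeasurableSet cube := by
  have : cube = ⋂ j : Fin 3, {o : E3 | 0 ≤ o j} ∩ {o : E3 | o j < 1} := by
    ext o; simp [cube]
  rw [this]
  refine MeasurableSet.iInter fun j => ?_
  have hj : Measurable fun o : E3 => o j := by fun_prop
  exact (measurableSet_le measurable_const hj).inter (measurableSet_lt hj measurable_const)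

/-- the translates of the cube tile the space -/
theorem tsum_lintegral_cube (N : E3 → ℝ≥0∞) :
    ∑' q : Lt, ∫⁻ o in cube, N (pt q + o) = ∫⁻ x, N x := by
  have h1 : ∀ q : Lt, ∫⁻ o in cube, N (pt q + o) = ∫⁻ x in (fun x => pt q + x) '' cube, N x := by
    intro q
    have hme : MeasurableEmbedding (fun x : E3 => pt q + x) :=
      (Homeomorph.addLeft (pt q)).measurableEmbedding
    have hmp : MeasurePreserving (fun x : E3 => pt q + x) volume volume :=
      measurePreserving_add_left volume (pt q)
    rw [← hmp.setLIntegral_comp_emb hme]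
  simp_rw [h1]
  have hm : ∀ q : Lt, MeasurableSet ((fun x : E3 => pt q + x) '' cube) := fun q =>
    (Homeomorph.addLeft (pt q)).measurableEmbedding.measurableSet_image.2 measurableSet_cube
  have hd : Pairwise (Function.onFun Disjoint fun q : Lt => (fun x : E3 => pt q + x) '' cube) := by
    intro q q' hqq
    rw [Function.onFun, Set.disjoint_left]
    rintro _ ⟨o, ho, rfl⟩ ⟨o', ho', heq⟩
    apply hqq
    funext j
    have hj : (q' j : ℝ) + o' j = (q j : ℝ) + o j := congrArg (fun v : E3 => v j) heq
    have h1 := ho j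
    have h2 := ho' j
    have h3 : ((q j - q' j : ℤ) : ℝ) < 1 := by push_cast; linarith [h1.1, h2.2]
    have h4 : (-1 : ℝ) < ((q j - q' j : ℤ) : ℝ) := by push_cast; linarith [h1.2, h2.1]
    have h5 : q j - q' j < 1 := by exact_mod_cast h3
    have h6 : -1 < q j - q' j := by exact_mod_cast h4
    omega
  rw [← lintegral_iUnion hm hd]
  have hU : ⋃ q : Lt, (fun x : E3 => pt q + x) '' cube = univ := by
    rw [eq_univ_iff_forall]
    intro x
    rw [mem_iUnion]
    refine ⟨fun j => ⌊x j⌋, x - pt fun j => ⌊x j⌋, ?_, by simp⟩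
    intro j
    have : (x - pt fun j => ⌊x j⌋) j = x j - ⌊x j⌋ := rfl
    rw [this]
    exact ⟨sub_nonneg.2 (Int.floor_le _), by linarith [Int.lt_floor_add_one (x j)]⟩
  rw [hU, Measure.restrict_univ]

theorem F9 : StF9 := by
  intro M hM p a b
  have hmeas : ∀ q : Lt, Measurable fun z : E3 × (ℝ × ℝ) =>
      M (pt q + z.1 + p + z.2.1 • a + z.2.2 • b) := fun q => hM.comp (by fun_prop)
  -- all inner integrals as one integral over the square
  set μ : Measure (ℝ × ℝ) := (volume.restrict (Icc (0 : ℝ) 1)).prod (volume.restrict (Icc (0 : ℝ) 1))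
    with hμ
  have h1 : ∀ (q : Lt) (o : E3), ∫⁻ s in Icc (0 : ℝ) 1, ∫⁻ t in Icc (0 : ℝ) 1,
      M (pt q + o + p + s • a + t • b) = ∫⁻ w, M (pt q + o + p + w.1 • a + w.2 • b) ∂μ := by
    intro q o
    rw [hμ, lintegral_prod]
    exact (hM.comp (by fun_prop)).aemeasurable
  simp_rw [h1]
  rw [lintegral_tsum]
  · have h2 : ∀ q : Lt, ∫⁻ o in cube, ∫⁻ w, M (pt q + o + p + w.1 • a + w.2 • b) ∂μ
        = ∫⁻ w, (∫⁻ o in cube, M (pt q + o + p + w.1 • a + w.2 • b)) ∂μ := by
      intro q
      exact lintegral_lintegral_swap (hmeas q).aemeasurable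
    simp_rw [h2]
    rw [← lintegral_tsum]
    · have h3 : ∀ w : ℝ × ℝ, ∑' q : Lt, ∫⁻ o in cube, M (pt q + o + p + w.1 • a + w.2 • b)
          = ∫⁻ x, M x := by
        intro w
        have h4 : ∀ q : Lt, ∫⁻ o in cube, M (pt q + o + p + w.1 • a + w.2 • b)
            = ∫⁻ o in cube, (fun x => M (x + (p + w.1 • a + w.2 • b))) (pt q + o) := by
          intro q
          refine lintegral_congr fun o => ?_
          simp only
          congr 1
          abel
        rw [tsum_congr h4]
        refine (tsum_lintegral_cube (fun x => M (x + (p + w.1 • a + w.2 • b)))).trans ?_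
        exact lintegral_add_right_eq_self M _
      simp_rw [h3]
      have hU : μ univ = 1 := by
        rw [hμ, ← univ_prod_univ, Measure.prod_prod]
        simp
      rw [lintegral_const, hU, mul_one]
    · intro q
      have : Measurable fun w : ℝ × ℝ => ∫⁻ o in cube, M (pt q + o + p + w.1 • a + w.2 • b) :=
        Measurable.lintegral_prod_left' (f := fun z : E3 × (ℝ × ℝ) =>
          M (pt q + z.1 + p + z.2.1 • a + z.2.2 • b)) (hmeas q)
      exact this.aemeasurable
  · intro q
    have : Measurable fun o : E3 => ∫⁻ w, M (pt q + o + p + w.1 • a + w.2 • b) ∂μ :=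
      Measurable.lintegral_prod_right' (f := fun z : E3 × (ℝ × ℝ) =>
          M (pt q + z.1 + p + z.2.1 • a + z.2.2 • b)) (hmeas q)
    exact this.aemeasurable

end Vale.Agent.P134.PF
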