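import Vale.Agent.P134.PX.FDefs

/-! Block K8: the Kuhn tetrahedra cover, and the interpolations agree on common points. -/

open MeasureTheory Set
open scoped ENNReal RealInnerProductSpace Real

namespace Vale.Agent.P134.PF

open Vale.Agent.P134.PS

theorem K8_cover (x : E3) : ∃ i, x ∈ tet i := by
  set z : Lt := fun j => ⌊x j⌋ with hz
  have h0 : ∀ j, 0 ≤ x j - z j := fun j => sub_nonneg.mpr (Int.floor_le (x j))
  have h1 : ∀ j, x j - z j ≤ 1 := fun j => by
    have := Int.lt_floor_add_one (x j)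
    simp only [hz]; linarith
  have key : ∀ s : Fin 6, x (ord s 1) - z (ord s 1) ≤ x (ord s 0) - z (ord s 0) →
      x (ord s 2) - z (ord s 2) ≤ x (ord s 1) - z (ord s 1) → x ∈ tet (z, s) := by
    intro s ha hb k
    have e0 := h1 (ord s 0)
    have e3 := h0 (ord s 2)
    fin_cases k
    · simp only [bar]; simp; linarith
    · simp only [bar]; simp; linarith
    · simp only [bar]; simp; linarith
    · simp only [bar]; simp; linarith
  rcases le_total (x 1 - z 1) (x 0 - z 0) with a | a <;>
  rcases le_total (x 2 - z 2) (x 1 - z 1) with b | b <;>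
  rcases le_total (x 2 - z 2) (x 0 - z 0) with c | c
  · exact ⟨(z, 0), key 0 a b⟩
  · exact ⟨(z, 0), key 0 a b⟩
  · exact ⟨(z, 1), key 1 c b⟩
  · exact ⟨(z, 4), key 4 c a⟩
  · exact ⟨(z, 2), key 2 a c⟩
  · exact ⟨(z, 3), key 3 b c⟩
  · exact ⟨(z, 5), key 5 b a⟩
  · exact ⟨(z, 5), key 5 b a⟩

theorem K8_ceil (i : KI) (x : E3) (hx : x ∈ tet i) (θ : ℝ) (h0 : 0 < θ) (h1 : θ < 1) (k : Fin 4)
    (hk : ∀ l : Fin 3, θ < x (ord i.2 l) - i.1 (ord i.2 l) ↔ (l : ℕ) < k) :
    (fun j => ⌈x j - θ⌉) = vert i k := by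
  have hb0 : x (ord i.2 0) - i.1 (ord i.2 0) ≤ 1 := by
    have := hx 0; simp only [bar] at this; simp at this; linarith
  have hb1 : x (ord i.2 1) - i.1 (ord i.2 1) ≤ x (ord i.2 0) - i.1 (ord i.2 0) := by
    have := hx 1; simp only [bar] at this; simp at this; linarith
  have hb2 : x (ord i.2 2) - i.1 (ord i.2 2) ≤ x (ord i.2 1) - i.1 (ord i.2 1) := by
    have := hx 2; simp only [bar] at this; simp at this; linarith
  have hb3 : 0 ≤ x (ord i.2 2) - i.1 (ord i.2 2) := by
    have := hx 3; simp only [bar] at this; simp at this; linarith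
  have hle : ∀ l : Fin 3, 0 ≤ x (ord i.2 l) - i.1 (ord i.2 l) ∧
      x (ord i.2 l) - i.1 (ord i.2 l) ≤ 1 := by
    intro l
    fin_cases l
    · exact ⟨by simp only [Fin.zero_eta]; linarith, hb0⟩
    · constructor <;> simp only [Fin.mk_one] <;> linarith
    · constructor
      · exact hb3
      · show x (ord i.2 2) - i.1 (ord i.2 2) ≤ 1
        linarith
  funext j
  obtain ⟨l, rfl⟩ : ∃ l, ord i.2 l = j := (Finite.injective_iff_surjective.mp (ord_inj i.2)) j
  unfold vert
  rw [rk_ord, Int.ceil_eq_iff]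
  have hl := hle l
  by_cases h : (l : ℕ) < k
  · have h2 := (hk l).mpr h
    rw [if_pos h]
    push_cast
    constructor <;> linarith
  · have h2 := not_lt.mp (fun h' => h ((hk l).mp h'))
    rw [if_neg h]
    push_cast
    constructor <;> linarith

theorem K8_integral (w : Lt → ℝ) (i : KI) (x : E3) (hx : x ∈ tet i) :
    ∑ k, bar i k x * w (vert i k) = ∫ θ in (0 : ℝ)..1, w (fun j => ⌈x j - θ⌉) := by
  set a := x (ord i.2 0) - i.1 (ord i.2 0) with ha
  set b := x (ord i.2 1) - i.1 (ord i.2 1) with hb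
  set c := x (ord i.2 2) - i.1 (ord i.2 2) with hc
  have e0 : bar i 0 x = 1 - a := by simp only [bar]; simp [ha]
  have e1 : bar i 1 x = a - b := by simp only [bar]; simp [ha, hb]
  have e2 : bar i 2 x = b - c := by simp only [bar]; simp [hb, hc]
  have e3 : bar i 3 x = c := by simp only [bar]; simp [hc]
  have ha1 : a ≤ 1 := by have := hx 0; rw [e0] at this; linarith
  have hba : b ≤ a := by have := hx 1; rw [e1] at this; linarith
  have hcb : c ≤ b := by have := hx 2; rw [e2] at this; linarith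
  have hc0 : 0 ≤ c := by have := hx 3; rwa [e3] at this
  set F : ℝ → ℝ := fun θ => w (fun j => ⌈x j - θ⌉) with hF
  have piece : ∀ (p q : ℝ) (k : Fin 4), p ≤ q → 0 ≤ p → q ≤ 1 →
      (∀ θ, p < θ → θ < q → ∀ l : Fin 3, θ < x (ord i.2 l) - i.1 (ord i.2 l) ↔ (l : ℕ) < k) →
      IntervalIntegrable F volume p q ∧ ∫ θ in p..q, F θ = (q - p) * w (vert i k) := by
    intro p q k hpq hp hq h
    have hae : ∀ᵐ θ ∂volume, θ ∈ Set.uIoc p q → F θ = w (vert i k) := by
      have : ∀ᵐ θ : ℝ ∂volume, θ ≠ q := by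
        simp [ae_iff, measure_singleton]
      filter_upwards [this] with θ hθ hmem
      rw [Set.uIoc_of_le hpq] at hmem
      have hlt : θ < q := lt_of_le_of_ne hmem.2 hθ
      have := K8_ceil i x hx θ (lt_of_le_of_lt hp hmem.1) (lt_of_lt_of_le hlt hq) k
        (h θ hmem.1 hlt)
      simp only [hF, this]
    refine ⟨?_, ?_⟩
    · have h1 : IntervalIntegrable (fun _ : ℝ => w (vert i k)) volume p q :=
        intervalIntegrable_const
      refine h1.congr_ae ?_
      rw [Filter.EventuallyEq, ae_restrict_iff' measurableSet_uIoc]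
      filter_upwards [hae] with θ hθ hm
      exact (hθ hm).symm
    · rw [intervalIntegral.integral_congr_ae (g := fun _ => w (vert i k)) hae,
        intervalIntegral.integral_const, smul_eq_mul]
  have p3 := piece 0 c 3 hc0 le_rfl (by linarith) (by
    intro θ h1 h2 l
    fin_cases l <;> simp <;> linarith)
  have p2 := piece c b 2 hcb hc0 (by linarith) (by
    intro θ h1 h2 l
    fin_cases l <;> simp <;> linarith)
  have p1 := piece b a 1 hba (by linarith) ha1 (by
    intro θ h1 h2 l
    fin_cases l <;> simp <;> linarith)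
  have p0 := piece a 1 0 ha1 (by linarith) le_rfl (by
    intro θ h1 h2 l
    fin_cases l <;> simp <;> linarith)
  rw [← intervalIntegral.integral_add_adjacent_intervals (p3.1.trans (p2.1.trans p1.1)) p0.1,
    ← intervalIntegral.integral_add_adjacent_intervals p3.1 (p2.1.trans p1.1),
    ← intervalIntegral.integral_add_adjacent_intervals p2.1 p1.1, p0.2, p1.2, p2.2, p3.2,
    Fin.sum_univ_four, e0, e1, e2, e3]
  ring

theorem K8 : StK8 := by
  refine ⟨K8_cover, fun w i j x hi hj => ?_⟩
  rw [K8_integral w i x hi, K8_integral w j x hj]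

end Vale.Agent.P134.PF
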