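import Vale.Agent.P134.PX.Rho
import Vale.Agent.P134.PS.H399.Chord
import Vale.Agent.P134.PS.H399.Lov
import Vale.Agent.P134.PS.BlockK2

/-! # P134 / PX2 : comparison of the chain distance in the slab with the distance on the
polyhedral surface -/

open MeasureTheory Set
open scoped ENNReal RealInnerProductSpace Real

namespace Vale.Agent.P134.PX

open PS hiding Lat
open PS.H399

namespace X2

/-! ### near vertices -/

lemma edge_tab : ∀ (s : Fin 6) (a b : Fin 4), a < b → ∃ τ : Fin 7, ∀ j : Fin 3,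
    (if rk s j < b then (1 : ℤ) else 0) = (if rk s j < a then (1 : ℤ) else 0) + evec τ j := by
  decide

lemma coord_mem {i : KI} {x : E3} (h : x ∈ tet i) (j : Fin 3) :
    (i.1 j : ℝ) ≤ x j ∧ x j ≤ i.1 j + 1 := by
  obtain ⟨z, s⟩ := i
  have h0 : 0 ≤ 1 - (x (ord s 0) - z (ord s 0)) := h 0
  have h1 : 0 ≤ (x (ord s 0) - z (ord s 0)) - (x (ord s 1) - z (ord s 1)) := h 1
  have h2 : 0 ≤ (x (ord s 1) - z (ord s 1)) - (x (ord s 2) - z (ord s 2)) := h 2
  have h3 : 0 ≤ x (ord s 2) - z (ord s 2) := h 3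
  obtain ⟨l, rfl⟩ := ord_surj3 s j
  show ((z (ord s l) : ℤ) : ℝ) ≤ x (ord s l) ∧ x (ord s l) ≤ (z (ord s l) : ℤ) + 1
  match l with
  | 0 => constructor <;> linarith
  | 1 => constructor <;> linarith
  | 2 => constructor <;> linarith

lemma dist_tet {i : KI} {x y : E3} (hx : x ∈ tet i) (hy : y ∈ tet i) : dist x y ≤ 2 := by
  rw [dist_eq_norm, EuclideanSpace.norm_eq, Fin.sum_univ_three]
  rw [Real.sqrt_le_left (by norm_num)]
  simp only [PiLp.sub_apply, Real.norm_eq_abs, sq_abs]
  have k : ∀ j, (x j - y j) ^ 2 ≤ 1 := by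
    intro j
    have h1 := coord_mem hx j
    have h2 := coord_mem hy j
    have h3 : |x j - y j| ≤ 1 := by rw [abs_le]; constructor <;> linarith [h1.1, h1.2, h2.1, h2.2]
    rw [← sq_abs]; nlinarith [abs_nonneg (x j - y j)]
  have := k 0; have := k 1; have := k 2
  linarith

lemma kF_subset_tet (w : PS.Lat → ℝ) (c : ℝ) (i : KI) : kF w c i ⊆ tet i := fun _ h => h.1

/-- a point of the edge between two vertices of the tetrahedron -/
lemma edge_point (w : PS.Lat → ℝ) (c : ℝ) (i : KI) {a b : Fin 4} (hab : a < b) {t : ℝ}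
    (h0 : 0 < t) (h1 : t < 1) (hc : (1 - t) * w (vert i a) + t * w (vert i b) = c) :
    ∃ v ∈ kV w c, v ∈ kF w c i := by
  obtain ⟨τ, hτ⟩ := edge_tab i.2 a b hab
  have hv : vert i b = vert i a + evec τ := by
    funext j
    have := hτ j
    show i.1 j + (if rk i.2 j < b then 1 else 0) = (i.1 j + if rk i.2 j < a then 1 else 0) + evec τ j
    rw [this]; ring
  set l : Fin 4 → ℝ := fun k => if k = a then 1 - t else if k = b then t else 0 with hl
  have hba : b ≠ a := hab.ne'
  have hsum : ∀ f : Fin 4 → ℝ, ∑ k, l k * f k = (1 - t) * f a + t * f b := by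
    intro f
    have : ∀ k, l k * f k = (if k = a then (1 - t) * f a else 0) +
        (if k = b then t * f b else 0) := by
      intro k
      simp only [hl]
      by_cases h : k = a
      · subst h; simp [hba.symm]
      · by_cases h' : k = b
        · subst h'; simp [h]
        · simp [h, h']
    simp_rw [this, Finset.sum_add_distrib]
    simp
  have hl1 : ∑ k, l k = 1 := by
    have := hsum (fun _ => 1)
    simpa using this
  have hl0 : ∀ k, 0 ≤ l k := by
    intro k
    simp only [hl]
    split_ifs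
    · linarith
    · linarith
    · exact le_rfl
  refine ⟨∑ k, l k • pt (vert i k), ⟨vert i a, τ, t, h0, h1, ?_, ?_⟩, ?_⟩
  · ext j
    have := hsum (fun k => pt (vert i k) j)
    simp only [PiLp.smul_apply, smul_eq_mul, PiLp.add_apply] at this ⊢
    have e : (∑ k, l k • pt (vert i k)) j = ∑ k, l k * pt (vert i k) j := by
      simp [Fin.sum_univ_four]
    rw [e, this, hv]
    have e2 : pt (vert i a + evec τ) j = pt (vert i a) j + pt (evec τ) j := by
      simp [pt]
    rw [e2]; ring
  · rw [← hv]; exact hc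
  · refine ⟨fun k => ?_, ?_⟩
    · rw [bar_comb i l hl1 k]; exact hl0 k
    · simp_rw [bar_comb i l hl1]
      rw [hsum (fun k => w (vert i k))]; exact hc

lemma near_vertex {w : PS.Lat → ℝ} {c : ℝ} (hw : ∀ q, w q ≠ c) {i : KI} {y : E3}
    (hy : y ∈ kF w c i) : ∃ v ∈ kV w c, v ∈ kF w c i ∧ dist y v ≤ 2 := by
  obtain ⟨⟨a, ha⟩, ⟨b, hb⟩⟩ := K2.exists_sides hw hy
  have hex : ∃ v ∈ kV w c, v ∈ kF w c i := by
    have hab : a ≠ b := by rintro rfl; linarith
    have hd : 0 < w (vert i b) - w (vert i a) := by linarith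
    rcases lt_or_gt_of_ne hab with h | h
    · refine edge_point w c i h (t := (c - w (vert i a)) / (w (vert i b) - w (vert i a))) ?_ ?_ ?_
      · apply div_pos <;> linarith
      · rw [div_lt_one hd]; linarith
      · field_simp; ring
    · refine edge_point w c i h (t := (w (vert i b) - c) / (w (vert i b) - w (vert i a))) ?_ ?_ ?_
      · apply div_pos <;> linarith
      · rw [div_lt_one hd]; linarith
      · field_simp; ring
  obtain ⟨v, hv, hv'⟩ := hex
  exact ⟨v, hv, hv', dist_tet hy.1 hv'.1⟩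

/-! ### almost affine -/

lemma norm_grad_sub (φ : E3 → ℝ) (y n : E3) :
    ‖fderiv ℝ φ y - InnerProductSpace.toDual ℝ E3 n‖ = ‖gradient φ y - n‖ := by
  have : gradient φ y - n = (InnerProductSpace.toDual ℝ E3).symm
      (fderiv ℝ φ y - InnerProductSpace.toDual ℝ E3 n) := by
    rw [map_sub, LinearIsometryEquiv.symm_apply_apply]; rfl
  rw [this, LinearIsometryEquiv.norm_map]

lemma flat_affine {φ : E3 → ℝ} (h2 : ContDiff ℝ 2 φ) {δ L : ℝ} {x n : E3}
    (h : ∀ y, dist y x ≤ L → ‖gradient φ y - n‖ ≤ δ) {a b : E3}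
    (ha : a ∈ Metric.closedBall x L) (hb : b ∈ Metric.closedBall x L) :
    |φ a - φ b - ⟪n, a - b⟫| ≤ δ * ‖a - b‖ := by
  have := (convex_closedBall x L).norm_image_sub_le_of_norm_fderiv_le' (f := φ) (C := δ)
    (φ := InnerProductSpace.toDual ℝ E3 n) (x := b) (y := a)
    (fun y _ => (h2.differentiable (by norm_num)).differentiableAt)
    (fun y hy => by rw [norm_grad_sub]; exact h y hy) hb ha
  simpa [InnerProductSpace.toDual_apply_apply] using this

lemma lip {φ : E3 → ℝ} (h2 : ContDiff ℝ 2 φ) (h : ∀ x, ‖gradient φ x‖ ≤ 1) (x y : E3) :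
    |φ x - φ y| ≤ dist x y := by
  have := (convex_univ : Convex ℝ (univ : Set E3)).norm_image_sub_le_of_norm_fderiv_le
    (f := φ) (C := 1) (x := y) (y := x)
    (fun y _ => (h2.differentiable (by norm_num)).differentiableAt)
    (fun y _ => by
      have e := norm_grad_sub φ y 0
      simp only [map_zero, sub_zero] at e
      rw [e]; exact h y) (mem_univ _) (mem_univ _)
  rw [one_mul, ← dist_eq_norm x y] at this
  simpa using this

/-- the interpolation -/
noncomputable def WW (φ : E3 → ℝ) : E3 → ℝ := lov (wv φ)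

lemma WW_close {φ : E3 → ℝ} (hφ : ∀ x y, |φ x - φ y| ≤ dist x y) (x : E3) :
    |WW φ x - φ x| ≤ 2 := lov_close hφ x

lemma WW_continuous {φ : E3 → ℝ} (hφ : ∀ x y, |φ x - φ y| ≤ dist x y) : Continuous (WW φ) := by
  have h : ∀ x y, |WW φ x - WW φ y| ≤ 2 * ‖x - y‖ := by
    intro x y
    have := lov_affine (wv φ) (n := 0) (x := x) (y := y) (e := 1) zero_le_one (fun θ _ => by
      rw [inner_zero_left, sub_zero, one_mul, ← dist_eq_norm]
      exact hφ _ _)
    simpa [WW] using this
  have : LipschitzWith 2 (WW φ) := LipschitzWith.of_dist_le_mul fun x y => by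
    rw [Real.dist_eq, dist_eq_norm]; exact h x y
  exact this.continuous

lemma mem_face {φ : E3 → ℝ} {c : ℝ} {y : E3} (h : WW φ y = c) : ∃ i, y ∈ kF (wv φ) c i := by
  obtain ⟨i, hi⟩ := exists_tet y
  exact ⟨i, hi, by rw [← lov_eq (wv φ) hi]; exact h⟩

lemma WW_of_face {φ : E3 → ℝ} {c : ℝ} {y : E3} {i : KI} (h : y ∈ kF (wv φ) c i) :
    WW φ y = c := by
  have := lov_eq (wv φ) (x := y) (i := i) h.1
  rw [WW, this]; exact h.2

/-- good direction for `φ` and its interpolation -/
structure Dr (φ : E3 → ℝ) (κ R : ℝ) (x n : E3) : Prop where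
  w : GD (WW φ) κ x R n
  f : GD φ κ x R n

lemma exists_Dr {φ : E3 → ℝ} {B : Set E3} {s δ L0 : ℝ} (hG : Good φ B s δ L0) (hδ : 0 ≤ δ)
    {x : E3} (hx : |φ x| ≤ s + 8) (hfar : ∀ b ∈ B, L0 ≤ dist x b) :
    ∃ n, Dr φ (2 * δ) (50 * (s + 10) - 2) x n := by
  obtain ⟨n, hn, h⟩ := hG.flat x (by linarith) hfar
  have key : ∀ a ∈ Metric.closedBall x (50 * (s + 10)), ∀ b ∈ Metric.closedBall x (50 * (s + 10)),
      |φ a - φ b - ⟪n, a - b⟫| ≤ δ * ‖a - b‖ := fun a ha b hb => flat_affine hG.c2 h ha hb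
  refine ⟨n, ⟨hn, ?_⟩, ⟨hn, ?_⟩⟩
  · intro a ha b hb
    refine lov_affine (wv φ) hδ fun θ hθ => ?_
    rw [Metric.mem_ball] at ha hb
    refine key _ ?_ _ ?_
    · rw [Metric.mem_closedBall]
      have := dist_fl3 a hθ
      have := dist_triangle (pt (fl3 a θ)) a x
      linarith
    · rw [Metric.mem_closedBall]
      have := dist_fl3 b hθ
      have := dist_triangle (pt (fl3 b θ)) b x
      linarith
  · intro a ha b hb
    rw [Metric.mem_ball] at ha hb
    refine (key a (by rw [Metric.mem_closedBall]; linarith) b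
      (by rw [Metric.mem_closedBall]; linarith)).trans ?_
    have := norm_nonneg (a - b)
    nlinarith

/-- `ϖ` is a projection of `x` to the level `c` -/
def Pr (φ : E3 → ℝ) (κ R T c : ℝ) (x ϖ : E3) : Prop :=
  ∃ (n : E3) (t : ℝ), Dr φ κ R x n ∧ |t| ≤ T ∧ ϖ = x + t • n ∧ WW φ ϖ = c

lemma exists_Pr {φ : E3 → ℝ} {B : Set E3} {s δ L0 c : ℝ} (hG : Good φ B s δ L0) (hδ : 0 ≤ δ)
    (hδ1 : δ ≤ 1 / 4) (hs : 1 ≤ s) (hc : |c| < s + 2)
    {x : E3} (hx : |φ x| ≤ s + 8) (hfar : ∀ b ∈ B, L0 ≤ dist x b) :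
    ∃ ϖ, Pr φ (2 * δ) (50 * (s + 10) - 2) (4 * s + 24) c x ϖ := by
  have hl := lip hG.c2 hG.le_one
  obtain ⟨n, hD⟩ := exists_Dr hG hδ hx hfar
  obtain ⟨t, ht, hW⟩ := exists_height (WW_continuous hl) hD.w (by linarith) (z := x) (c := c)
    (H := 4 * s + 24) (by linarith) (fun t ht => by
      rw [Metric.mem_ball, dist_eq_norm, add_sub_cancel_left, norm_smul, hD.w.1, mul_one,
        Real.norm_eq_abs]
      linarith) (by
      have h1 := WW_close hl x
      rw [abs_le] at h1 hx ⊢
      rw [abs_lt] at hc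
      constructor <;> linarith [h1.1, h1.2, hx.1, hx.2, hc.1, hc.2])
  exact ⟨x + t • n, n, t, hD, ht, rfl, hW⟩

/-- two good directions at nearby points -/
lemma Dr.close {φ : E3 → ℝ} {κ R : ℝ} (hκ : 0 ≤ κ) (hR : 10 ≤ R) {x x' n n' : E3}
    (h : Dr φ κ R x n) (h' : Dr φ κ R x' n') (hd : dist x x' ≤ 4) : ‖n - n'‖ ≤ 2 * κ := by
  set v := n - n' with hv
  have hv2 : ‖v‖ ≤ 2 := by
    rw [hv]
    refine (norm_sub_le _ _).trans ?_
    rw [h.w.1, h'.w.1]; norm_num
  have hx1 : x ∈ Metric.ball x R := Metric.mem_ball_self (by linarith)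
  have hx2 : x + v ∈ Metric.ball x R := by
    rw [Metric.mem_ball, dist_eq_norm, add_sub_cancel_left]; linarith
  have hx3 : x ∈ Metric.ball x' R := by rw [Metric.mem_ball]; linarith
  have hx4 : x + v ∈ Metric.ball x' R := by
    rw [Metric.mem_ball]
    have h1 := dist_triangle (x + v) x x'
    have h2 : dist (x + v) x = ‖v‖ := by rw [dist_eq_norm, add_sub_cancel_left]
    linarith
  have e1 := h.w.2 _ hx2 _ hx1
  have e2 := h'.w.2 _ hx4 _ hx3
  rw [add_sub_cancel_left] at e1 e2
  have e3 : (⟪n, v⟫ : ℝ) - ⟪n', v⟫ = ‖v‖ ^ 2 := by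
    rw [← inner_sub_left, ← hv, real_inner_self_eq_norm_sq]
  rw [abs_le] at e1 e2
  have e4 : ‖v‖ ^ 2 ≤ 2 * κ * ‖v‖ := by
    rw [← e3]; linarith [e1.1, e1.2, e2.1, e2.2]
  by_contra hcon
  push Not at hcon
  have : 0 < ‖v‖ := by
    have : 0 ≤ 2 * κ := by positivity
    linarith
  nlinarith

variable {S : Surf}

/-- one coarse step -/
lemma coarse_step {φ : E3 → ℝ} (hl : ∀ x y, |φ x - φ y| ≤ dist x y) {κ R T c : ℝ} (hκ : 0 ≤ κ)
    (hκ2 : κ ≤ 1 / 2) (hT : 4 ≤ T) (hκT : κ * T ≤ 1 / 4) (hR : 4 * T + 100 ≤ R)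
    (hS : ∀ y, WW φ y = c → ∃ i, y ∈ S.F i) (Z : Set E3) {x x' ϖ ϖ' : E3}
    (h : Pr φ κ R T c x ϖ) (h' : Pr φ κ R T c x' ϖ') (hd : dist x x' ≤ 4) :
    S.rho Z ϖ' ≤ S.rho Z ϖ + ENNReal.ofReal ((dist x x' + 2 * κ * T) / (1 - κ ^ 2)) := by
  obtain ⟨n, t, hD, ht, hϖ, hW⟩ := h
  obtain ⟨n', t', hD', ht', hϖ', hW'⟩ := h'
  have hnn := hD.close hκ (by linarith) hD' hd
  have h1κ : 3 / 4 ≤ 1 - κ ^ 2 := by nlinarith
  set q := Real.sqrt (1 - κ ^ 2) with hq
  have hq0 : 0 < q := Real.sqrt_pos.2 (by linarith)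
  have hqq : q * q = 1 - κ ^ 2 := Real.mul_self_sqrt (by linarith)
  have hq12 : 1 / 2 ≤ q := by nlinarith
  set p := (x' - x) + t' • (n' - n) with hp
  have hv : ϖ' - ϖ = p + (t' - t) • n := by
    rw [hϖ, hϖ', hp, smul_sub, sub_smul]; abel
  have hpn : ‖p‖ ≤ dist x x' + 2 * κ * T := by
    rw [hp]
    refine (norm_add_le _ _).trans ?_
    rw [norm_smul, ← dist_eq_norm, dist_comm x' x, norm_sub_rev n' n, Real.norm_eq_abs]
    have h1 : |t'| * ‖n - n'‖ ≤ T * (2 * κ) := by gcongr
    linarith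
  have hdϖ : dist ϖ x ≤ T := by
    rw [hϖ, dist_eq_norm, add_sub_cancel_left, norm_smul, hD.w.1, mul_one, Real.norm_eq_abs]
    exact ht
  have hdϖ' : dist ϖ' x' ≤ T := by
    rw [hϖ', dist_eq_norm, add_sub_cancel_left, norm_smul, hD'.w.1, mul_one, Real.norm_eq_abs]
    exact ht'
  have hb : ϖ ∈ Metric.ball x R := by rw [Metric.mem_ball]; linarith
  have hb' : ϖ' ∈ Metric.ball x R := by
    rw [Metric.mem_ball]
    have := dist_triangle ϖ' x' x
    rw [dist_comm x' x] at this
    linarith
  have hin : |(⟪n, ϖ' - ϖ⟫ : ℝ)| ≤ κ * ‖ϖ' - ϖ‖ := by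
    have := hD.w.2 _ hb' _ hb
    rwa [hW, hW', sub_self, zero_sub, abs_neg] at this
  have hvn := norm_le_of_inner hD.w.1 hκ (by linarith) hin hv
  rw [← hq] at hvn
  have hdist : dist ϖ ϖ' = ‖ϖ' - ϖ‖ := by rw [dist_comm, dist_eq_norm]
  have hvn2 : dist ϖ ϖ' ≤ 10 := by
    rw [hdist]
    refine hvn.trans ?_
    rw [div_le_iff₀ hq0]
    nlinarith
  have hch := chord S Z (WW_continuous hl) hD.w hκ hκ2 (fun y _ hy => hS y hy) (y := ϖ)
    (y' := ϖ') (by linarith) (by linarith) (by linarith) hW hW'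
  rw [← hq] at hch
  have hfin : dist ϖ ϖ' / q ≤ (dist x x' + 2 * κ * T) / (1 - κ ^ 2) := by
    rw [hdist, div_le_iff₀ hq0]
    refine hvn.trans ?_
    rw [div_le_iff₀ hq0, mul_assoc, hqq, div_mul_cancel₀ _ (by linarith)]
    exact hpn
  exact hch.trans (add_le_add le_rfl (ENNReal.ofReal_le_ofReal hfin))

lemma len_succ'' (n : ℕ) (p : ℕ → E3) :
    Surf.len (n + 1) p = Surf.len n p + dist (p n) (p (n + 1)) := by
  simp [Surf.len, Finset.sum_range_succ]

lemma dist_le_tail (p : ℕ → E3) {j m : ℕ} (h : j ≤ m) :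
    dist (p j) (p m) ≤ Surf.len m p - Surf.len j p := by
  induction m, h using Nat.le_induction with
  | base => simp
  | succ m hm ih =>
    rw [len_succ'']
    have := dist_triangle (p j) (p m) (p (m + 1))
    linarith

/-- merging of steps -/
lemma coarse {φ : E3 → ℝ} (hl : ∀ x y, |φ x - φ y| ≤ dist x y) {κ R T c ε : ℝ} (hκ : 0 ≤ κ)
    (hκ2 : κ ≤ 1 / 2) (hT : 4 ≤ T) (hκT : κ * T ≤ 1 / 4) (hR : 4 * T + 100 ≤ R)
    (hS : ∀ y, WW φ y = c → ∃ i, y ∈ S.F i) (Z : Set E3) (hε : 0 < ε)
    (hκε : 2 * (2 * κ * T) ≤ ε) (hκε2 : 2 * ((1 + ε) * κ ^ 2) ≤ ε)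
    (A : E3 → Prop) (hA : ∀ x, A x → ∃ ϖ, Pr φ κ R T c x ϖ) :
    ∀ (m : ℕ) (p : ℕ → E3), (∀ k ≤ m, A (p k)) → (∀ k < m, dist (p k) (p (k + 1)) ≤ 2) →
    ∀ ϖ0 ϖm, Pr φ κ R T c (p 0) ϖ0 → Pr φ κ R T c (p m) ϖm →
    S.rho Z ϖm ≤ S.rho Z ϖ0 + ENNReal.ofReal ((1 + ε) * Surf.len m p + 2) := by
  have h1κ : 3 / 4 ≤ 1 - κ ^ 2 := by nlinarith
  -- the two numerical estimates
  have num1 : ∀ d l : ℝ, 0 ≤ d → d ≤ l → (d + 2 * κ * T) / (1 - κ ^ 2) ≤ (1 + ε) * l + 2 := by
    intro d l hd hdl
    rw [div_le_iff₀ (by linarith)]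
    have h1 : (1 + ε) * l * κ ^ 2 ≤ ε / 2 * l := by nlinarith
    nlinarith
  have num2 : ∀ d l : ℝ, 0 ≤ d → d ≤ l → 2 ≤ l → (d + 2 * κ * T) / (1 - κ ^ 2) ≤ (1 + ε) * l := by
    intro d l hd hdl hl2
    rw [div_le_iff₀ (by linarith)]
    have h1 : (1 + ε) * l * κ ^ 2 ≤ ε / 2 * l := by nlinarith
    nlinarith
  intro m
  induction m using Nat.strong_induction_on with
  | _ m ih =>
    intro p hp hstep ϖ0 ϖm h0 hm
    by_cases hlen : Surf.len m p ≤ 4
    · have hd : dist (p 0) (p m) ≤ Surf.len m p := by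
        have := dist_le_tail p (Nat.zero_le m)
        have e : Surf.len 0 p = 0 := by simp [Surf.len]
        rw [e, sub_zero] at this
        exact this
      refine (coarse_step hl hκ hκ2 hT hκT hR hS Z h0 hm (by linarith)).trans ?_
      gcongr
      exact num1 _ _ dist_nonneg hd
    · push Not at hlen
      have hPm : Surf.len m p - Surf.len m p < 2 := by norm_num
      classical
      have hex : ∃ k, Surf.len m p - Surf.len k p < 2 := ⟨m, hPm⟩
      set k := Nat.find hex with hk
      have hk1 := Nat.find_spec hex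
      rw [← hk] at hk1
      have hkm : k ≤ m := Nat.find_min' hex hPm
      have hk0 : k ≠ 0 := by
        intro h
        rw [h] at hk1
        have e : Surf.len 0 p = 0 := by simp [Surf.len]
        rw [e] at hk1
        linarith
      obtain ⟨j, hj⟩ : ∃ j, k = j + 1 := ⟨k - 1, by omega⟩
      have hj1 : 2 ≤ Surf.len m p - Surf.len j p := by
        have := Nat.find_min hex (m := j) (by omega)
        push Not at this
        exact this
      have hj2 : Surf.len m p - Surf.len j p ≤ 4 := by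
        rw [hj, len_succ''] at hk1
        have := hstep j (by omega)
        linarith
      have hjm : j < m := by omega
      obtain ⟨ϖj, hϖj⟩ := hA (p j) (hp j hjm.le)
      have ih1 := ih j hjm p (fun k hk => hp k (by omega)) (fun k hk => hstep k (by omega)) ϖ0 ϖj
        h0 hϖj
      have hdt := dist_le_tail p hjm.le
      have hs := coarse_step hl hκ hκ2 hT hκT hR hS Z hϖj hm (by linarith)
      have hn := num2 _ _ dist_nonneg hdt hj1
      calc S.rho Z ϖm ≤ S.rho Z ϖj +
            ENNReal.ofReal ((dist (p j) (p m) + 2 * κ * T) / (1 - κ ^ 2)) := hs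
        _ ≤ (S.rho Z ϖ0 + ENNReal.ofReal ((1 + ε) * Surf.len j p + 2)) +
            ENNReal.ofReal ((1 + ε) * (Surf.len m p - Surf.len j p)) := by gcongr
        _ = S.rho Z ϖ0 + ENNReal.ofReal ((1 + ε) * Surf.len m p + 2) := by
            have hlj : 0 ≤ Surf.len j p := Finset.sum_nonneg fun _ _ => dist_nonneg
            rw [add_assoc, ← ENNReal.ofReal_add (by positivity)
              (mul_nonneg (by linarith) (by linarith))]
            congr 2; ring

end X2

open X2 in
/-- **Block PX2** -/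
theorem PX2 : StPX2 := by
  intro ε hε s hs
  -- choice of δ
  set T : ℝ := 4 * s + 24 with hT
  have hT0 : 0 < T := by rw [hT]; linarith
  set ε' : ℝ := min ε 1 with hε'
  have hε'0 : 0 < ε' := lt_min hε one_pos
  have hε'1 : ε' ≤ 1 := min_le_right _ _
  refine ⟨ε' / (16 * T), by positivity, ?_⟩
  intro L0 hL0 φ B hG c hc hw S e hF hV x i hxi
  set δ := ε' / (16 * T) with hδ
  have hδ0 : 0 ≤ δ := by positivity
  have hδT : δ * T = ε' / 16 := by rw [hδ]; field_simp
  have hδ4 : δ ≤ 1 / 4 := by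
    rw [hδ, div_le_iff₀ (by positivity)]
    nlinarith
  set κ := 2 * δ with hκ
  have hκ0 : 0 ≤ κ := by positivity
  have hκ2 : κ ≤ 1 / 2 := by linarith
  have hκT : κ * T = ε' / 8 := by rw [hκ, mul_assoc, hδT]; ring
  have hκ1 : κ ≤ ε' / 8 := by
    have : κ * 1 ≤ κ * T := by gcongr; linarith
    linarith
  have hl := lip hG.c2 hG.le_one
  have hface : ∀ y, WW φ y = c → ∃ i, y ∈ S.F i := by
    intro y hy
    obtain ⟨i, hi⟩ := mem_face hy
    refine ⟨e.symm ⟨i, ⟨y, hi⟩⟩, ?_⟩
    rw [hF]; simpa using hi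
  have hface' : ∀ i y, y ∈ S.F i → WW φ y = c := by
    intro i y hy
    rw [hF] at hy
    exact WW_of_face hy
  have hslab : ∀ y, WW φ y = c → |φ y| ≤ s + 8 := by
    intro y hy
    have := WW_close hl y
    rw [hy, abs_le] at this
    rw [abs_lt] at hc
    rw [abs_le]
    constructor <;> linarith [this.1, this.2, hc.1, hc.2]
  have hseg : ∀ i y y', y ∈ S.F i → y' ∈ S.F i → ∀ z ∈ segment ℝ y y', |φ z| ≤ s + 8 := by
    intro i y y' hy hy' z hz
    exact hslab z (hface' i z ((S.convex i).segment_subset hy hy' hz))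
  set Z3 := Zon B L0 with hZ3
  set Z := Src φ B s L0 c with hZ
  have hxW : WW φ x = c := WW_of_face hxi
  -- near vertices are sources if the point has small `rho3`
  have hnear : ∀ y, WW φ y = c → rho3 φ (s + 8) Z3 y ≤ ENNReal.ofReal T → S.rho Z y ≤
      ENNReal.ofReal 2 := by
    intro y hy hr
    obtain ⟨i, hi⟩ := mem_face hy
    obtain ⟨v, hv, hvi, hd⟩ := near_vertex hw hi
    have hyS : y ∈ S.F (e.symm ⟨i, ⟨y, hi⟩⟩) := by rw [hF]; simpa using hi
    have hvS : v ∈ S.F (e.symm ⟨i, ⟨y, hi⟩⟩) := by rw [hF]; simpa using hvi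
    have hr3 : rho3 φ (s + 8) Z3 v ≤ ENNReal.ofReal (C1 s) := by
      refine (rho3_segment (hseg _ y v hyS hvS)).trans ?_
      calc rho3 φ (s + 8) Z3 y + ENNReal.ofReal (dist y v)
          ≤ ENNReal.ofReal T + ENNReal.ofReal 2 := by gcongr
        _ = ENNReal.ofReal (T + 2) := (ENNReal.ofReal_add hT0.le (by norm_num)).symm
        _ ≤ ENNReal.ofReal (C1 s) := by
            apply ENNReal.ofReal_le_ofReal
            rw [hT, C1]; linarith
    have hvZ : v ∈ Z := ⟨hv, hr3⟩
    have h1 : S.rho Z v ≤ 0 := by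
      have := Surf.rho_leE (S := S) (Z := Z) (x := v) (n := 0) (p := fun _ => v)
        (g := fun _ => e.symm ⟨i, ⟨y, hi⟩⟩) (fun k hk => by omega) hvZ rfl
      simpa [Surf.len] using this
    have h2 := Surf.rho_le_face (Z := Z) hyS hvS
    refine h2.trans ?_
    calc S.rho Z v + ENNReal.ofReal (dist v y) ≤ 0 + ENNReal.ofReal 2 := by
          gcongr; rw [dist_comm]; exact hd
      _ = ENNReal.ofReal 2 := zero_add _
  constructor
  · -- rho3 ≤ S.rho + C1
    have hC1 : 0 ≤ C1 s := by rw [C1]; linarith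
    have key : ∀ (n : ℕ) (p : ℕ → E3) (g : ℕ → S.ι), S.IsChain n p g → p 0 ∈ Z →
        ∀ k ≤ n, rho3 φ (s + 8) Z3 (p k) ≤ ENNReal.ofReal (Surf.len k p) +
          ENNReal.ofReal (C1 s) := by
      intro n p g hch hp0 k
      induction k with
      | zero => intro _; exact hp0.2.trans le_add_self
      | succ k ih =>
        intro hk
        have h1 := rho3_segment (φ := φ) (S := s + 8) (Z := Z3)
          (hseg _ (p k) (p (k + 1)) (hch k (by omega)).1 (hch k (by omega)).2)
        refine h1.trans ?_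
        have hln : 0 ≤ Surf.len k p := Finset.sum_nonneg fun _ _ => dist_nonneg
        rw [len_succ'', ENNReal.ofReal_add hln dist_nonneg]
        calc rho3 φ (s + 8) Z3 (p k) + ENNReal.ofReal (dist (p k) (p (k + 1)))
            ≤ (ENNReal.ofReal (Surf.len k p) + ENNReal.ofReal (C1 s)) +
              ENNReal.ofReal (dist (p k) (p (k + 1))) := by gcongr; exact ih (by omega)
          _ = _ := by ring
    rw [Surf.rho, ENNReal.iInf_add]
    refine le_iInf fun n => ?_
    rw [ENNReal.iInf_add]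
    refine le_iInf fun p => ?_
    rw [ENNReal.iInf_add]
    refine le_iInf fun g => ?_
    rw [ENNReal.iInf_add]
    refine le_iInf fun h => ?_
    have := key n p g h.1 h.2.1 n le_rfl
    rwa [h.2.2] at this
  · -- S.rho ≤ (1 + ε) rho3 + 4
    intro _
    have key : ∀ (n : ℕ) (p : ℕ → E3), Ch3 φ (s + 8) Z3 x n p →
        S.rho Z x ≤ ENNReal.ofReal (1 + ε) * ENNReal.ofReal (Surf.len n p) +
          ENNReal.ofReal 4 := by
      intro n p hp
      classical
      -- last point in the zone
      obtain ⟨j, hjn, hjZ, hjl⟩ : ∃ j ≤ n, p j ∈ Z3 ∧ ∀ k, j < k → k ≤ n → p k ∉ Z3 := by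
        have hne : ((Finset.range (n + 1)).filter (fun k => p k ∈ Z3)).Nonempty :=
          ⟨0, by simp [hp.1]⟩
        refine ⟨((Finset.range (n + 1)).filter (fun k => p k ∈ Z3)).max' hne, ?_, ?_, ?_⟩
        · have := Finset.max'_mem _ hne
          simp only [Finset.mem_filter, Finset.mem_range] at this
          omega
        · have := Finset.max'_mem _ hne
          simp only [Finset.mem_filter, Finset.mem_range] at this
          exact this.2
        · intro k hk hkn hkZ
          have := Finset.le_max' ((Finset.range (n + 1)).filter (fun k => p k ∈ Z3)) k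
            (by simp only [Finset.mem_filter, Finset.mem_range]; exact ⟨by omega, hkZ⟩)
          omega
      have hlenj : 0 ≤ Surf.len j p := Finset.sum_nonneg fun _ _ => dist_nonneg
      rcases hjn.lt_or_eq with hlt | rfl
      · -- all points from `j` on are far
        have hfar : ∀ k, j ≤ k → k ≤ n → ∀ b ∈ B, L0 ≤ dist (p k) b := by
          intro k hjk hkn b hb
          rcases hjk.lt_or_eq with h | rfl
          · have := hjl k h hkn
            simp only [hZ3, Zon, mem_ofPred_eq, not_exists, not_and, not_le] at this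
            have := this b hb
            linarith
          · have h1 := hjl (j + 1) (by omega) (by omega)
            simp only [hZ3, Zon, mem_ofPred_eq, not_exists, not_and, not_le] at h1
            have h2 := h1 b hb
            have h3 := hp.2.2.2 j hlt
            have h4 := dist_triangle (p (j + 1)) (p j) b
            rw [dist_comm (p (j + 1)) (p j)] at h4
            linarith
        set R := 50 * (s + 10) - 2 with hR
        have hR' : 4 * T + 100 ≤ R := by rw [hR, hT]; linarith
        set A : E3 → Prop := fun y => |φ y| ≤ s + 8 ∧ ∀ b ∈ B, L0 ≤ dist y b with hA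
        have hA' : ∀ y, A y → ∃ ϖ, Pr φ κ R T c y ϖ := fun y hy =>
          exists_Pr hG hδ0 hδ4 hs hc hy.1 hy.2
        have hpA : ∀ k ≤ n - j, A (p (j + k)) := fun k hk =>
          ⟨hp.2.2.1 (j + k) (by omega), hfar (j + k) (by omega) (by omega)⟩
        obtain ⟨ϖ0, h0⟩ := hA' (p j) (hpA 0 (by omega))
        have hPx : Pr φ κ R T c (p n) (p n) := by
          obtain ⟨nn, hD⟩ := exists_Dr hG hδ0 (hp.2.2.1 n le_rfl) (hfar n hlt.le le_rfl)
          refine ⟨nn, 0, hD, by rw [abs_zero]; exact hT0.le, by simp, ?_⟩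
          rw [hp.2.1]; exact hxW
        have hco := coarse (S := S) hl hκ0 hκ2 (by rw [hT]; linarith) (by rw [hκT]; linarith) hR'
          hface Z hε'0 (by nlinarith) (by nlinarith) A hA' (n - j) (fun k => p (j + k)) hpA
          (fun k hk => hp.2.2.2 (j + k) (by omega)) ϖ0 (p n) h0
          (by
            have : j + (n - j) = n := by omega
            simp only [this]; exact hPx)
        -- the start
        have hstart : rho3 φ (s + 8) Z3 ϖ0 ≤ ENNReal.ofReal T := by
          obtain ⟨nn, t, hD, ht, hϖ, hW⟩ := h0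
          have hb : ∀ r : ℝ, |r| ≤ T → p j + r • nn ∈ Metric.ball (p j) R := by
            intro r hr
            rw [Metric.mem_ball, dist_eq_norm, add_sub_cancel_left, norm_smul, hD.w.1, mul_one,
              Real.norm_eq_abs]
            linarith
          -- φ is monotone along the line
          have hmono : ∀ r r' : ℝ, |r| ≤ T → |r'| ≤ T → r ≤ r' →
              φ (p j + r • nn) ≤ φ (p j + r' • nn) := by
            intro r r' hr hr' hrr
            have h1 := hD.f.2 _ (hb r' hr') _ (hb r hr)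
            have e1 : p j + r' • nn - (p j + r • nn) = (r' - r) • nn := by
              rw [sub_smul]; abel
            rw [e1, inner_smul_right, real_inner_self_eq_norm_sq, norm_smul, hD.f.1,
              Real.norm_of_nonneg (by linarith), abs_le] at h1
            nlinarith [h1.1]
          have hsl : ∀ z ∈ segment ℝ (p j) ϖ0, |φ z| ≤ s + 8 := by
            intro z hz
            rw [hϖ, segment_eq_image] at hz
            obtain ⟨θ, ⟨hθ0, hθ1⟩, rfl⟩ := hz
            have e1 : (1 - θ) • p j + θ • (p j + t • nn) = p j + (θ * t) • nn := by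
              rw [smul_add, smul_smul, sub_smul, one_smul]; abel
            simp only [e1]
            have hθt : |θ * t| ≤ T := by
              rw [abs_mul, abs_of_nonneg hθ0]
              have := abs_nonneg t
              nlinarith
            have hend : |φ (p j + t • nn)| ≤ s + 8 := hslab _ (by rw [← hϖ]; exact hW)
            have hbeg : |φ (p j + (0 : ℝ) • nn)| ≤ s + 8 := by
              rw [zero_smul, add_zero]; exact hp.2.2.1 j hjn
            rw [abs_le] at hend hbeg ⊢
            rcases le_total 0 t with h0t | h0t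
            · have m1 := hmono 0 (θ * t) (by rw [abs_zero]; exact hT0.le) hθt (by positivity)
              have m2 := hmono (θ * t) t hθt ht (by nlinarith)
              constructor <;> linarith [hend.1, hend.2, hbeg.1, hbeg.2]
            · have m1 := hmono (θ * t) 0 hθt (by rw [abs_zero]; exact hT0.le)
                (mul_nonpos_of_nonneg_of_nonpos hθ0 h0t)
              have m2 := hmono t (θ * t) ht hθt (by nlinarith)
              constructor <;> linarith [hend.1, hend.2, hbeg.1, hbeg.2]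
          refine (rho3_segment hsl).trans ?_
          rw [rho3_eq_zero hjZ (hp.2.2.1 j hjn), zero_add]
          apply ENNReal.ofReal_le_ofReal
          rw [hϖ, dist_comm, dist_eq_norm, add_sub_cancel_left, norm_smul, hD.w.1, mul_one,
            Real.norm_eq_abs]
          exact ht
        have hϖ0W : WW φ ϖ0 = c := by
          obtain ⟨_, _, _, _, _, hW⟩ := h0
          exact hW
        have h2 := hnear ϖ0 hϖ0W hstart
        have hlen2 : Surf.len (n - j) (fun k => p (j + k)) ≤ Surf.len n p := by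
          have : ∀ m, Surf.len m (fun k => p (j + k)) + Surf.len j p = Surf.len (j + m) p := by
            intro m
            induction m with
            | zero => simp [Surf.len]
            | succ m ih =>
              rw [len_succ'', show j + (m + 1) = (j + m) + 1 by ring, len_succ'', ← ih]
              show Surf.len m (fun k => p (j + k)) + dist (p (j + m)) (p (j + (m + 1))) +
                Surf.len j p = _
              rw [← add_assoc j m 1]; ring
          have h3 := this (n - j)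
          rw [show j + (n - j) = n by omega] at h3
          linarith
        rw [← hp.2.1]
        have hln : 0 ≤ Surf.len n p := Finset.sum_nonneg fun _ _ => dist_nonneg
        have hln' : 0 ≤ Surf.len (n - j) (fun k => p (j + k)) :=
          Finset.sum_nonneg fun _ _ => dist_nonneg
        calc S.rho Z (p n) ≤ S.rho Z ϖ0 +
              ENNReal.ofReal ((1 + ε') * Surf.len (n - j) (fun k => p (j + k)) + 2) := hco
          _ ≤ ENNReal.ofReal 2 + ENNReal.ofReal ((1 + ε) * Surf.len n p + 2) := by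
              gcongr
              exact min_le_left _ _
          _ = ENNReal.ofReal (1 + ε) * ENNReal.ofReal (Surf.len n p) + ENNReal.ofReal 4 := by
              rw [← ENNReal.ofReal_mul (by linarith), ← ENNReal.ofReal_add (by norm_num)
                (by positivity), ← ENNReal.ofReal_add (by positivity) (by norm_num)]
              congr 1; ring
      · -- `x` is in the zone
        have hx0 : rho3 φ (s + 8) Z3 x = 0 := by
          apply rho3_eq_zero
          · rw [← hp.2.1]; exact hjZ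
          · exact hp.slab
        have h2 := hnear x hxW (by rw [hx0]; exact bot_le)
        refine h2.trans ?_
        refine (ENNReal.ofReal_le_ofReal (by norm_num : (2 : ℝ) ≤ 4)).trans ?_
        exact le_add_self
    -- pass to the infimum
    have h1ε : ENNReal.ofReal (1 + ε) ≠ ⊤ := ENNReal.ofReal_ne_top
    rw [rho3, ENNReal.mul_iInf_of_ne (by
      rw [ne_eq, ENNReal.ofReal_eq_zero]; linarith) h1ε, ENNReal.iInf_add]
    refine le_iInf fun n => ?_
    rw [ENNReal.mul_iInf_of_ne (by
      rw [ne_eq, ENNReal.ofReal_eq_zero]; linarith) h1ε, ENNReal.iInf_add]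
    refine le_iInf fun p => ?_
    rw [ENNReal.mul_iInf_of_ne (by
      rw [ne_eq, ENNReal.ofReal_eq_zero]; linarith) h1ε, ENNReal.iInf_add]
    refine le_iInf fun h => ?_
    exact key n p h

end Vale.Agent.P134.PX
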