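import Vale.Agent.P134.PX.Rho
import Vale.Agent.P134.H458.NNb
import Vale.Agent.P134.ASM.Defs

/-! # P134 / PX : bridge between `E3` and `Fin 3 → ℝ` -/

open MeasureTheory Set
open scoped ENNReal RealInnerProductSpace Real

namespace Vale.Agent.P134.PX

open PS hiding Lat
open H458

/-- the coordinates -/
noncomputable def T3 : E3 ≃L[ℝ] (Fin 3 → ℝ) := EuclideanSpace.equiv (Fin 3) ℝ

theorem T3_bs (i : Fin 3) : T3 (bs i) = Pi.single i 1 := by
  ext j
  simp [T3, bs, EuclideanSpace.equiv, Pi.single_apply]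

theorem T3_apply (x : E3) (i : Fin 3) : T3 x i = x i := rfl

variable {p : (Fin 3 → ℝ) → ℝ}

theorem fderiv_T3 (x : E3) (i : Fin 3) :
    fderiv ℝ (p ∘ T3) x (bs i) = pd i p (T3 x) := by
  rw [ContinuousLinearEquiv.comp_right_fderiv]
  simp only [ContinuousLinearMap.comp_apply, ContinuousLinearEquiv.coe_coe, T3_bs]
  rfl

theorem fderiv_apply_const {A : E3 → (E3 →L[ℝ] ℝ)} {x : E3} (hA : DifferentiableAt ℝ A x)
    (u v : E3) : fderiv ℝ A x u v = fderiv ℝ (fun y => A y v) x u := by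
  have := (hA.hasFDerivAt.clm_apply (hasFDerivAt_const v x)).fderiv
  rw [this]
  simp

theorem fderiv2_T3 (hp : ContDiff ℝ 2 p) (x : E3) (i j : Fin 3) :
    fderiv ℝ (fderiv ℝ (p ∘ T3)) x (bs i) (bs j) = pd i (pd j p) (T3 x) := by
  have hφ : ContDiff ℝ 2 (p ∘ T3) := hp.comp T3.contDiff
  have hd : DifferentiableAt ℝ (fderiv ℝ (p ∘ T3)) x :=
    ((hφ.fderiv_right (m := 1) (by norm_num)).differentiable (by norm_num)) x
  rw [fderiv_apply_const hd]
  have : (fun y => fderiv ℝ (p ∘ T3) y (bs j)) = (pd j p) ∘ T3 := by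
    ext y; exact fderiv_T3 y j
  rw [this, fderiv_T3]

theorem eq_sum_bs (x : E3) : x = ∑ i, x i • bs i := by
  ext j
  simp [bs, Fin.sum_univ_three]
  fin_cases j <;> simp

theorem norm_sq_E3 (x : E3) : ‖x‖ ^ 2 = ∑ i, x i ^ 2 := by
  rw [EuclideanSpace.norm_sq_eq]; simp

theorem eno_T3 (x : E3) : eno (T3 x) = ‖x‖ := by
  rw [eno, esq, EuclideanSpace.norm_eq]
  simp [T3_apply]

theorem dist_T3 (x y : E3) : dist x y = eno (T3 x - T3 y) := by
  rw [dist_eq_norm, ← eno_T3, map_sub]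

theorem gradient_apply (φ : E3 → ℝ) (x : E3) (i : Fin 3) :
    gradient φ x i = fderiv ℝ φ x (bs i) := by
  have h : inner ℝ (gradient φ x) (bs i) = fderiv ℝ φ x (bs i) := by
    unfold gradient
    exact InnerProductSpace.toDual_symm_apply
  have h2 : inner ℝ (gradient φ x) (bs i) = gradient φ x i := by
    rw [bs, EuclideanSpace.inner_single_right]
    simp only [starRingEnd_apply, star_trivial, one_mul]
  rw [← h, h2]

theorem norm_gradient_sq (x : E3) : ‖gradient (p ∘ T3) x‖ ^ 2 = SM.gs p (T3 x) := by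
  rw [norm_sq_E3, SM.gs]
  refine Finset.sum_congr rfl fun i _ => ?_
  rw [gradient_apply, fderiv_T3]

theorem norm_gradient (x : E3) : ‖gradient (p ∘ T3) x‖ = SM.wn p (T3 x) := by
  rw [SM.wn, ← norm_gradient_sq, Real.sqrt_sq (norm_nonneg _)]

theorem symm_T3 (hp : ContDiff ℝ 2 p) (x u v : E3) :
    fderiv ℝ (fderiv ℝ (p ∘ T3)) x u v = fderiv ℝ (fderiv ℝ (p ∘ T3)) x v u := by
  have hφ : ContDiff ℝ 2 (p ∘ T3) := hp.comp T3.contDiff
  exact (hφ.contDiffAt.isSymmSndFDerivAt (by simp)) u v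

/-- the bound for `NN` in coordinates -/
theorem NN_le_coord (hp : ContDiff ℝ 2 p) (x : E3) : NN (p ∘ T3) x ≤
    8 / 5 * SM.gs p (T3 x) * SM.hs p (T3 x) + 100 * (SM.gs p (T3 x) * SM.lap p (T3 x) ^ 2 +
      ∑ i, (∑ j, pd i (pd j p) (T3 x) * pd j p (T3 x)) ^ 2) := by
  rw [NN_eq_NK _ _ (symm_T3 hp x)]
  refine (NK_le _ _ _ _ _ _ _ _ _).trans (le_of_eq ?_)
  have s := fun i j => symm_T3 hp x (bs i) (bs j)
  simp only [fderiv2_T3 hp] at s
  simp only [fderiv_T3, fderiv2_T3 hp, SM.gs, SM.hs, SM.lap, Fin.sum_univ_three]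
  rw [s 1 0, s 2 0, s 2 1]
  ring

/-- operator norm of a bilinear form -/
theorem norm_bil_le (H : E3 →L[ℝ] E3 →L[ℝ] ℝ) :
    ‖H‖ ^ 2 ≤ ∑ i, ∑ j, H (bs i) (bs j) ^ 2 := by
  have h0 : 0 ≤ ∑ i, ∑ j, H (bs i) (bs j) ^ 2 :=
    Finset.sum_nonneg fun _ _ => Finset.sum_nonneg fun _ _ => sq_nonneg _
  have h1 : ‖H‖ ≤ Real.sqrt (∑ i, ∑ j, H (bs i) (bs j) ^ 2) := by
    refine ContinuousLinearMap.opNorm_le_bound _ (Real.sqrt_nonneg _) fun u => ?_
    refine ContinuousLinearMap.opNorm_le_bound _ (by positivity) fun v => ?_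
    have e : H u v = ∑ i, ∑ j, u i * v j * H (bs i) (bs j) := by
      conv_lhs => rw [eq_sum_bs u, eq_sum_bs v]
      simp [Fin.sum_univ_three]
      ring
    have hcs : (H u v) ^ 2 ≤ (∑ i, ∑ j, H (bs i) (bs j) ^ 2) * (‖u‖ ^ 2 * ‖v‖ ^ 2) := by
      rw [e, norm_sq_E3, norm_sq_E3]
      have := Finset.sum_mul_sq_le_sq_mul_sq (Finset.univ : Finset (Fin 3 × Fin 3))
        (fun q => H (bs q.1) (bs q.2)) (fun q => u q.1 * v q.2)
      simp only [Fintype.sum_prod_type] at this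
      refine le_trans (le_of_eq ?_) (this.trans (le_of_eq ?_))
      · congr 1
        refine Finset.sum_congr rfl fun i _ => Finset.sum_congr rfl fun j _ => by ring
      · congr 1
        simp only [Fin.sum_univ_three]
        ring
    rw [Real.norm_eq_abs]
    refine abs_le_of_sq_le_sq ?_ (by positivity)
    rw [mul_pow, mul_pow, Real.sq_sqrt h0]
    linarith
  calc ‖H‖ ^ 2 ≤ (Real.sqrt (∑ i, ∑ j, H (bs i) (bs j) ^ 2)) ^ 2 := by gcongr
    _ = _ := Real.sq_sqrt h0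

theorem norm_fderiv2_sq (hp : ContDiff ℝ 2 p) (x : E3) :
    ‖fderiv ℝ (fderiv ℝ (p ∘ T3)) x‖ ^ 2 ≤ SM.hs p (T3 x) := by
  refine (norm_bil_le _).trans (le_of_eq ?_)
  simp only [fderiv2_T3 hp, SM.hs]

theorem T3_mp : MeasurePreserving (T3 : E3 → (Fin 3 → ℝ)) volume volume :=
  PiLp.volume_preserving_ofLp (Fin 3)

theorem T3_me : MeasurableEmbedding (T3 : E3 → (Fin 3 → ℝ)) :=
  T3.toHomeomorph.measurableEmbedding

theorem lintegral_T3 (f : (Fin 3 → ℝ) → ℝ≥0∞) : ∫⁻ x : E3, f (T3 x) = ∫⁻ y, f y :=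
  T3_mp.lintegral_comp_emb T3_me f

theorem T3_symm_apply (y : Fin 3 → ℝ) : T3 (T3.symm y) = y := T3.apply_symm_apply y

/-- the zone in coordinates -/
theorem mem_Zon_iff (B : Set (Fin 3 → ℝ)) (L0 : ℝ) (x : E3) :
    x ∈ Zon (T3 ⁻¹' B) L0 ↔ ∃ b ∈ B, eno (T3 x - b) ≤ 2 * L0 := by
  constructor
  · rintro ⟨b, hb, h⟩
    exact ⟨T3 b, hb, by rwa [← dist_T3]⟩
  · rintro ⟨b, hb, h⟩
    refine ⟨T3.symm b, by simpa using hb, ?_⟩
    rw [dist_T3, T3_symm_apply]; exact h

theorem ch_of_Ch3 {B : Set (Fin 3 → ℝ)} {S L0 : ℝ} {x : E3} {m : ℕ} {c : ℕ → E3}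
    (h : Ch3 (p ∘ T3) S (Zon (T3 ⁻¹' B) L0) x m c) :
    ASM.IsCh p B S (2 * L0) 2 m (fun k => T3 (c k)) ∧ T3 (c m) = T3 x ∧
      ASM.clen m (fun k => T3 (c k)) = Surf.len m c := by
  refine ⟨⟨?_, ?_, ?_⟩, by rw [h.2.1], ?_⟩
  · exact (mem_Zon_iff B L0 _).1 h.1
  · intro i hi; exact h.2.2.1 i hi
  · intro i hi
    rw [← dist_T3, dist_comm]; exact h.2.2.2 i hi
  · unfold ASM.clen Surf.len
    refine Finset.sum_congr rfl fun i _ => ?_
    rw [← dist_T3, dist_comm]

theorem Ch3_of_ch {B : Set (Fin 3 → ℝ)} {S L0 : ℝ} {m : ℕ} {c : ℕ → Fin 3 → ℝ}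
    (h : ASM.IsCh p B S (2 * L0) 2 m c) :
    Ch3 (p ∘ T3) S (Zon (T3 ⁻¹' B) L0) (T3.symm (c m)) m (fun k => T3.symm (c k)) ∧
      Surf.len m (fun k => T3.symm (c k)) = ASM.clen m c := by
  refine ⟨⟨?_, rfl, ?_, ?_⟩, ?_⟩
  · rw [mem_Zon_iff, T3_symm_apply]; exact h.start
  · intro k hk
    simp only [Function.comp, T3_symm_apply]; exact h.slab k hk
  · intro k hk
    rw [dist_comm, dist_T3, T3_symm_apply, T3_symm_apply]; exact h.step k hk
  · unfold ASM.clen Surf.len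
    refine Finset.sum_congr rfl fun i _ => ?_
    rw [dist_comm, dist_T3, T3_symm_apply, T3_symm_apply]

theorem clen_nonneg (m : ℕ) (c : ℕ → Fin 3 → ℝ) : 0 ≤ ASM.clen m c :=
  Finset.sum_nonneg fun _ _ => eno_nonneg _

/-- the truncated chain distance -/
theorem chd_eq (B : Set (Fin 3 → ℝ)) (S L0 T : ℝ) (hT : 0 ≤ T) (x : E3) :
    ASM.chd p B S (2 * L0) 2 T (T3 x) =
      (min (ENNReal.ofReal T) (rho3 (p ∘ T3) S (Zon (T3 ⁻¹' B) L0) x)).toReal := by
  set ρ := rho3 (p ∘ T3) S (Zon (T3 ⁻¹' B) L0) x with hρ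
  set A : Set ℝ := insert T {l | ∃ (m : ℕ) (c : ℕ → LI.R3), ASM.IsCh p B S (2 * L0) 2 m c ∧
    c m = T3 x ∧ l = ASM.clen m c} with hA
  have hbdd : BddBelow A := by
    refine ⟨0, ?_⟩
    rintro l (rfl | ⟨m, c, -, -, rfl⟩)
    · exact hT
    · exact clen_nonneg m c
  have hfin : min (ENNReal.ofReal T) ρ ≠ ⊤ := ne_top_of_le_ne_top ENNReal.ofReal_ne_top (min_le_left _ _)
  change sInf A = _
  apply le_antisymm
  · by_cases h : ENNReal.ofReal T ≤ ρ
    · rw [min_eq_left h, ENNReal.toReal_ofReal hT]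
      exact csInf_le hbdd (mem_insert _ _)
    · push Not at h
      rw [min_eq_right h.le]
      have hρt : ρ ≠ ⊤ := (lt_of_lt_of_le h le_top).ne
      refine le_of_forall_pos_lt_add fun ε hε => ?_
      have h1 : ρ < ρ + ENNReal.ofReal ε := ENNReal.lt_add_right hρt (by simpa using hε)
      obtain ⟨m, c, hc, hl⟩ := exists_of_rho3_lt h1
      obtain ⟨h2, h3, h4⟩ := ch_of_Ch3 hc
      have h5 : sInf A ≤ Surf.len m c := by
        rw [← h4]
        exact csInf_le hbdd (mem_insert_of_mem _ ⟨m, _, h2, h3, rfl⟩)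
      refine lt_of_le_of_lt h5 ?_
      have h6 := (ENNReal.toReal_lt_toReal ENNReal.ofReal_ne_top
        (ENNReal.add_ne_top.2 ⟨hρt, ENNReal.ofReal_ne_top⟩)).2 hl
      rwa [ENNReal.toReal_ofReal (len_nonneg _ _), ENNReal.toReal_add hρt ENNReal.ofReal_ne_top,
        ENNReal.toReal_ofReal hε.le] at h6
  · refine le_csInf ⟨T, mem_insert _ _⟩ ?_
    rintro l (rfl | ⟨m, c, h1, h2, rfl⟩)
    · calc (min (ENNReal.ofReal l) ρ).toReal ≤ (ENNReal.ofReal l).toReal :=
            ENNReal.toReal_mono ENNReal.ofReal_ne_top (min_le_left _ _)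
        _ = l := ENNReal.toReal_ofReal hT
    · obtain ⟨h3, h4⟩ := Ch3_of_ch h1
      rw [h2, T3.symm_apply_apply] at h3
      have h5 := rho3_le h3
      rw [h4] at h5
      calc (min (ENNReal.ofReal T) ρ).toReal ≤ (ENNReal.ofReal (ASM.clen m c)).toReal :=
            ENNReal.toReal_mono ENNReal.ofReal_ne_top ((min_le_right _ _).trans h5)
        _ = ASM.clen m c := ENNReal.toReal_ofReal (clen_nonneg _ _)

/-! ## the profile -/

theorem Ph_anti {f : ℝ → ℝ} (hf : Antitone f) : Antitone (Ph f) := by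
  intro a b hab
  unfold Ph
  refine lintegral_mono fun r => ?_
  have : f (b + r) ≤ f (a + r) := hf (by linarith)
  gcongr

theorem Ph_zero {f : ℝ → ℝ} {R0 t : ℝ} (hz : ∀ t, R0 ≤ t → f t = 0) (ht : R0 ≤ t) :
    Ph f t = 0 := by
  unfold Ph
  rw [setLIntegral_congr_fun measurableSet_Ioi (g := fun _ => 0)]
  · simp
  · intro r hr
    have : f (t + r) = 0 := hz _ (by have := mem_Ioi.1 hr; linarith)
    simp [this]

/-- `Ph` as a real integral -/
theorem Ph_eq {h : ℝ → ℝ} {R1 t : ℝ} (h0 : ∀ t, 0 ≤ h t) (ha : AntitoneOn h (Set.Ici 0))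
    (hz : ∀ t, R1 ≤ t → h t = 0) (ht : 0 ≤ t) :
    Ph (fun s => h (max s 0)) t = ENNReal.ofReal (ASM.Ph h R1 t) := by
  have hanti : Antitone (fun s => h (max s 0)) := by
    intro a b hab
    exact ha (mem_Ici.2 (le_max_right _ _)) (mem_Ici.2 (le_max_right _ _))
      (max_le_max hab le_rfl)
  rcases le_or_gt R1 t with hRt | hRt
  · rw [Ph_zero (R0 := R1) (fun s hs => hz _ (le_trans hs (le_max_left _ _))) hRt]
    unfold ASM.Ph
    rw [intervalIntegral.integral_symm, intervalIntegral.integral_of_le hRt]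
    rw [setIntegral_congr_fun measurableSet_Ioc (g := fun _ => 0)]
    · simp
    · intro r hr
      simp only
      rw [hz r hr.1.le, mul_zero]
  · have hint : IntegrableOn (fun r => (r - t) * h (max r 0)) (Ioc t R1) := by
      have hb : ∀ r, ‖h (max r 0)‖ ≤ h 0 := by
        intro r
        rw [Real.norm_of_nonneg (h0 _)]
        exact ha (mem_Ici.2 le_rfl) (mem_Ici.2 (le_max_right _ _)) (le_max_right _ _)
      have h1 : IntegrableOn (fun r => r - t) (Ioc t R1) :=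
        (continuous_id.sub continuous_const).integrableOn_Ioc
      exact h1.mul_bdd hanti.measurable.aestronglyMeasurable (Filter.Eventually.of_forall hb)
    have e1 : ASM.Ph h R1 t = ∫ r in Ioc t R1, (r - t) * h (max r 0) := by
      unfold ASM.Ph
      rw [intervalIntegral.integral_of_le hRt.le]
      refine setIntegral_congr_fun measurableSet_Ioc fun r hr => ?_
      rw [max_eq_left (by linarith [hr.1])]
    rw [e1, ofReal_integral_eq_lintegral_ofReal hint]
    swap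
    · refine (ae_restrict_mem measurableSet_Ioc).mono fun r hr => ?_
      exact mul_nonneg (by linarith [hr.1]) (h0 _)
    unfold Ph
    have e2 : ∫⁻ r in Ioi (0:ℝ), ENNReal.ofReal (h (max (t + r) 0)) * ENNReal.ofReal r =
        ∫⁻ r in Ioi t, ENNReal.ofReal (h (max r 0)) * ENNReal.ofReal (r - t) := by
      have hmp : MeasurePreserving (fun r : ℝ => t + r) volume volume :=
        measurePreserving_add_left volume t
      have hme : MeasurableEmbedding (fun r : ℝ => t + r) := measurableEmbedding_addLeft t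
      have := hmp.setLIntegral_comp_preimage_emb hme
        (fun r => ENNReal.ofReal (h (max r 0)) * ENNReal.ofReal (r - t)) (Ioi t)
      rw [← this]
      have hpre : (fun r : ℝ => t + r) ⁻¹' Ioi t = Ioi 0 := by
        ext r; simp
      rw [hpre]
      refine setLIntegral_congr_fun measurableSet_Ioi fun r _ => ?_
      simp
    rw [e2]
    have e3 : Ioi t = Ioc t R1 ∪ Ioi R1 := (Ioc_union_Ioi_eq_Ioi hRt.le).symm
    rw [e3, lintegral_union measurableSet_Ioi (by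
      rw [Set.disjoint_left]; intro r hr hr2; exact absurd hr.2 (not_le.2 hr2))]
    have e4 : ∫⁻ r in Ioi R1, ENNReal.ofReal (h (max r 0)) * ENNReal.ofReal (r - t) = 0 := by
      rw [setLIntegral_congr_fun measurableSet_Ioi (g := fun _ => 0)]
      · simp
      · intro r hr
        have : h (max r 0) = 0 := hz _ (le_trans (le_of_lt hr) (le_max_left _ _))
        simp [this]
    rw [e4, add_zero]
    refine setLIntegral_congr_fun measurableSet_Ioc fun r hr => ?_
    rw [mul_comm, ← ENNReal.ofReal_mul (by linarith [hr.1])]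

end Vale.Agent.P134.PX
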