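import Vale.Agent.P134.PS.Kuhn

/-!
# P134 / PX : from the polyhedral area inequality to an integral inequality in `ℝ³`

`φ : E3 → ℝ`, `|∇φ| ≤ 1`, nearly affine on large balls away from a set `B` of bad centres.
`rho3` is the chain distance from the bad zone in the slab `|φ| ≤ s + 8` (steps `≤ 2`).
Everything is stated for the lattice `ℤ³`; other offsets are obtained by translating `φ, B, G`.
-/

open MeasureTheory Set
open scoped ENNReal RealInnerProductSpace Real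

namespace Vale.Agent.P134.PX

open PS hiding Lat

/-- `φ` is nearly affine on the ball of radius `L` around `x` -/
def Flat (φ : E3 → ℝ) (δ L : ℝ) (x : E3) : Prop :=
  ∃ n : E3, ‖n‖ = 1 ∧ ∀ y, dist y x ≤ L → ‖gradient φ y - n‖ ≤ δ

/-- the bad zone -/
def Zon (B : Set E3) (L0 : ℝ) : Set E3 := {x | ∃ b ∈ B, dist x b ≤ 2 * L0}

/-- hypothesis on `φ` : `C²`, `|∇φ| ≤ 1`, flat at distance `≥ L0` from `B` in the slab -/
structure Good (φ : E3 → ℝ) (B : Set E3) (s δ L0 : ℝ) : Prop where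
  c2 : ContDiff ℝ 2 φ
  le_one : ∀ x, ‖gradient φ x‖ ≤ 1
  flat : ∀ x, |φ x| ≤ s + 10 → (∀ b ∈ B, L0 ≤ dist x b) → Flat φ δ (50 * (s + 10)) x

/-- chains with steps `≤ 2` in the slab `|φ| ≤ S` from `Z` to `x` -/
def Ch3 (φ : E3 → ℝ) (S : ℝ) (Z : Set E3) (x : E3) (n : ℕ) (p : ℕ → E3) : Prop :=
  p 0 ∈ Z ∧ p n = x ∧ (∀ k ≤ n, |φ (p k)| ≤ S) ∧ ∀ k < n, dist (p k) (p (k + 1)) ≤ 2

/-- chain distance from `Z` in the slab `|φ| ≤ S` -/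
noncomputable def rho3 (φ : E3 → ℝ) (S : ℝ) (Z : Set E3) (x : E3) : ℝ≥0∞ :=
  ⨅ (n : ℕ) (p : ℕ → E3) (_ : Ch3 φ S Z x n p), ENNReal.ofReal (Surf.len n p)

/-- lattice values -/
noncomputable def wv (φ : E3 → ℝ) (q : PS.Lat) : ℝ := φ (pt q)

/-- `C1 s`: vertices with `rho3 ≤ C1 s` are the sources on the polyhedral surface -/
noncomputable def C1 (s : ℝ) : ℝ := 4 * s + 30

/-- sources on the polyhedral surface of level `c` -/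
def Src (φ : E3 → ℝ) (B : Set E3) (s L0 c : ℝ) : Set E3 :=
  {v | v ∈ kV (wv φ) c ∧ rho3 φ (s + 8) (Zon B L0) v ≤ ENNReal.ofReal (C1 s)}

/-- PX2: the chain distance in the slab and the distance on the polyhedral surface are
comparable. -/
def StPX2 : Prop := ∀ ε : ℝ, 0 < ε → ∀ s : ℝ, 1 ≤ s → ∃ δ > 0, ∀ L0 : ℝ, 200 * (s + 10) ≤ L0 →
  ∀ (φ : E3 → ℝ) (B : Set E3), Good φ B s δ L0 → ∀ c : ℝ, |c| < s + 2 → (∀ q, wv φ q ≠ c) →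
  ∀ (S : Surf) (e : S.ι ≃ {i : KI // (kF (wv φ) c i).Nonempty}),
    (∀ i, S.F i = kF (wv φ) c (e i).1) → S.V = kV (wv φ) c →
  ∀ (x : E3) (i : KI), x ∈ kF (wv φ) c i →
    rho3 φ (s + 8) (Zon B L0) x ≤ S.rho (Src φ B s L0 c) x + ENNReal.ofReal (C1 s) ∧
    (rho3 φ (s + 8) (Zon B L0) x < ⊤ → S.rho (Src φ B s L0 c) x ≤
      ENNReal.ofReal (1 + ε) * rho3 φ (s + 8) (Zon B L0) x + ENNReal.ofReal 4)

/-- second difference -/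
def sd (φ : E3 → ℝ) (p a b : E3) : ℝ := φ (p + a + b) - φ (p + a) - φ (p + b) + φ p

/-- base point (relative to `q`) of the second difference which belongs to the side `k` of the
polygon of gradients around the edge of type `τ`; its directions are `bb τ (k-1) - sb τ k` and
`bb τ (k+1) - sb τ k` (`k ≥ 1`). -/
def sb (τ : Fin 7) (k : ℕ) : PS.Lat :=
  if bb τ (k - 1) + bb τ (k + 1) = bb τ k + evec τ then bb τ k else 0

/-- the second difference of `φ` around the edge `(p, p + evec τ)`, `1 ≤ k` -/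
noncomputable def lam (φ : E3 → ℝ) (p : E3) (τ : Fin 7) (k : ℕ) : ℝ :=
  sd φ (p + pt (sb τ k)) (pt (bb τ (k - 1) - sb τ k)) (pt (bb τ (k + 1) - sb τ k))

/-- `∫_0^∞ f (t + r) r dr` -/
noncomputable def Ph (f : ℝ → ℝ) (t : ℝ) : ℝ≥0∞ :=
  ∫⁻ r in Ioi (0 : ℝ), ENNReal.ofReal (f (t + r)) * ENNReal.ofReal r

/-- admissible weights in the level: `W t` for `|c| < s + t` -/
structure Wt (s : ℝ) (W : ℝ → ℝ → ℝ) : Prop where
  meas : ∀ t, Measurable (W t)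
  nonneg : ∀ t c, 0 ≤ W t c
  bdd : ∀ t c, 0 ≤ t → W t c ≤ s + t
  supp : ∀ t c, W t c ≠ 0 → |c| < s + t
  mono : ∀ t t' a b, |a - b| ≤ t' - t → W t a ≤ W t' b

/-- admissible profile -/
structure Prf (f : ℝ → ℝ) (R0 : ℝ) : Prop where
  one_le : 1 ≤ R0
  anti : Antitone f
  zero : ∀ t, R0 ≤ t → f t = 0

/-- admissible extrinsic weight -/
structure Gwt (G : E3 → ℝ) (l : ℝ) : Prop where
  pos : ∀ x, 0 < G x
  lip : ∀ x y, G x ≤ Real.exp (l * dist x y) * G y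
  cont : Continuous G

/-- integrand on the left -/
noncomputable def Psi3 (φ : E3 → ℝ) (B : Set E3) (s L0 ε : ℝ) (f : ℝ → ℝ) (G : E3 → ℝ)
    (x : E3) : ℝ≥0∞ :=
  if rho3 φ (s + 8) (Zon B L0) x < ⊤ then
    ENNReal.ofReal (f ((1 + ε) * (rho3 φ (s + 8) (Zon B L0) x).toReal + 4)) *
      ENNReal.ofReal (G x ^ 2)
  else 0

open Classical in
/-- the cost of the lattice point `p` -/
noncomputable def Rr (φ : E3 → ℝ) (B : Set E3) (s L0 ε : ℝ) (W : ℝ → ℝ → ℝ) (f : ℝ → ℝ)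
    (G : E3 → ℝ) (p : E3) : ℝ≥0∞ :=
  if rho3 φ (s + 8) (Zon B L0) p < ⊤ then
    ENNReal.ofReal (W 5 (φ p)) *
      Ph f (max ((rho3 φ (s + 8) (Zon B L0) p).toReal - C1 s - 2) 0) *
      ENNReal.ofReal (Real.exp (8 * ε) * G p ^ 2) *
      (if rho3 φ (s + 8) (Zon B L0) p ≤ ENNReal.ofReal (C1 s + 2) then 300
      else ∑ τ : Fin 7, ∑ k ∈ Finset.range (mm τ),
        ENNReal.ofReal ((1 / 4 * (fderiv ℝ φ p (pt (evec τ))) ^ 2 + ε) *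
          lam φ p τ (k + 1) ^ 2))
  else 0

/-- PXP: the polyhedral inequality, integrated over the level, for the lattice `ℤ³`. -/
def StPXP : Prop := ∀ ε : ℝ, 0 < ε → ε ≤ 1 → ∀ s : ℝ, 1 ≤ s → ∃ δ > 0, ∀ L0 : ℝ,
  200 * (s + 10) ≤ L0 → ∀ (φ : E3 → ℝ) (B : Set E3), Good φ B s δ L0 →
  ∀ (W : ℝ → ℝ → ℝ) (f : ℝ → ℝ) (R0 : ℝ) (G : E3 → ℝ), Wt s W → Prf f R0 → Gwt G (ε / R0) →
  ∑' i : KI, ∫⁻ x in tet i, ENNReal.ofReal (W 2 (∑ k, bar i k x * wv φ (vert i k))) *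
      Psi3 φ B s L0 ε f G x * ENNReal.ofReal ‖grad (wv φ) i‖ ≤
    ∑' q : PS.Lat, Rr φ B s L0 ε W f G (pt q)

/-- PX4: the inequality averaged over the offsets of the lattice (`≤ ε` errors on the left). -/
def StPX4 : Prop := ∀ ε : ℝ, 0 < ε → ε ≤ 1 → ∀ s : ℝ, 1 ≤ s → ∃ δ > 0, ∀ L0 : ℝ,
  200 * (s + 10) ≤ L0 → ∀ (φ : E3 → ℝ) (B : Set E3), Good φ B s δ L0 →
  ∀ (W : ℝ → ℝ → ℝ) (f : ℝ → ℝ) (R0 : ℝ) (G : E3 → ℝ), Wt s W → Prf f R0 → Gwt G (ε / R0) →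
  ∫⁻ x in (Zon B L0)ᶜ, ENNReal.ofReal (W 0 (φ x) * ‖gradient φ x‖) * Psi3 φ B s L0 ε f G x ≤
    ENNReal.ofReal (1 + ε) * ∫⁻ p, Rr φ B s L0 ε W f G p

/-- the quadratic form `N(∇φ, D²φ)` -/
noncomputable def NN (φ : E3 → ℝ) (x : E3) : ℝ :=
  1 / 4 * ∑ τ : Fin 7, ∑ k ∈ Finset.range (mm τ), (fderiv ℝ φ x (pt (evec τ))) ^ 2 *
    (fderiv ℝ (fderiv ℝ φ) x (pt (bb τ k - sb τ (k + 1))) (pt (bb τ (k + 2) - sb τ (k + 1)))) ^ 2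

/-- FIALA3D -/
def StFIALA : Prop := ∀ ε : ℝ, 0 < ε → ε ≤ 1 → ∀ s : ℝ, 1 ≤ s → ∃ δ > 0, ∀ L0 : ℝ,
  200 * (s + 10) ≤ L0 → ∃ C : ℝ, ∀ (φ : E3 → ℝ) (B : Set E3), Good φ B s δ L0 →
  ∀ (W : ℝ → ℝ → ℝ) (f : ℝ → ℝ) (R0 : ℝ) (G : E3 → ℝ), Wt s W → Prf f R0 → Gwt G (δ / R0) →
  ∫⁻ x, ENNReal.ofReal (W 0 (φ x) * ‖gradient φ x‖) * Psi3 φ B s L0 ε f G x ≤
    ENNReal.ofReal C * Ph f 0 * ∑' b : B, ENNReal.ofReal (G b ^ 2) +
    ∫⁻ x in {x | 0 < rho3 φ (s + 8) (Zon B L0) x ∧ rho3 φ (s + 8) (Zon B L0) x < ⊤},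
      ENNReal.ofReal (W 8 (φ x) *
        ((1 + ε) * NN φ x + ε * ‖fderiv ℝ (fderiv ℝ φ) x‖ ^ 2) * G x ^ 2) *
        Ph f (max ((rho3 φ (s + 8) (Zon B L0) x).toReal - C1 s - 4) 0)

end Vale.Agent.P134.PX
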