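import Vale.Agent.P134.PX.Defs

/-!
# P134 / PX / PX4 : averaging over the offsets of the lattice
-/

open MeasureTheory Set
open scoped ENNReal RealInnerProductSpace Real

namespace Vale.Agent.P134.PX

open PS hiding Lat

namespace PX4

/-! ### the chain distance -/

section rho

variable {φ : E3 → ℝ} {S : ℝ} {Z : Set E3}

lemma rho3_le {x : E3} {n : ℕ} {p : ℕ → E3} (h : Ch3 φ S Z x n p) :
    rho3 φ S Z x ≤ ENNReal.ofReal (Surf.len n p) :=
  iInf_le_of_le n (iInf_le_of_le p (iInf_le_of_le h le_rfl))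

lemma exists_of_rho3_lt {x : E3} {a : ℝ≥0∞} (h : rho3 φ S Z x < a) :
    ∃ (n : ℕ) (p : ℕ → E3), Ch3 φ S Z x n p ∧ ENNReal.ofReal (Surf.len n p) < a := by
  unfold rho3 at h
  simp only [iInf_lt_iff] at h
  obtain ⟨n, p, hc, h⟩ := h
  exact ⟨n, p, hc, h⟩

lemma slab_of_lt {x : E3} {a : ℝ≥0∞} (h : rho3 φ S Z x < a) : |φ x| ≤ S := by
  obtain ⟨n, p, ⟨h1, h2, h3, h4⟩, -⟩ := exists_of_rho3_lt h
  rw [← h2]; exact h3 n le_rfl

lemma rho3_step {x y : E3} (hy : |φ y| ≤ S) (h : dist x y ≤ 2) :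
    rho3 φ S Z y ≤ rho3 φ S Z x + ENNReal.ofReal (dist x y) := by
  apply ENNReal.le_of_forall_pos_le_add
  intro ε hε hfin
  have hlt : rho3 φ S Z x < rho3 φ S Z x + ε := by
    apply ENNReal.lt_add_right
    · intro htop
      rw [htop] at hfin
      simp at hfin
    · exact_mod_cast hε.ne'
  obtain ⟨n, p, ⟨h1, h2, h3, h4⟩, h5⟩ := exists_of_rho3_lt hlt
  set P : ℕ → E3 := fun k => if k ≤ n then p k else y with hP
  have e1 : ∀ k, k ≤ n → P k = p k := fun k hk => by simp [hP, hk]
  have e2 : P (n + 1) = y := by simp [hP]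
  have hch : Ch3 φ S Z y (n + 1) P := by
    refine ⟨by rw [e1 0 (Nat.zero_le _)]; exact h1, e2, ?_, ?_⟩
    · intro k hk
      rcases Nat.lt_or_ge n k with h6 | h6
      · have : k = n + 1 := by omega
        rw [this, e2]; exact hy
      · rw [e1 k h6]; exact h3 k h6
    · intro k hk
      rcases Nat.lt_or_ge k n with h6 | h6
      · rw [e1 k h6.le, e1 (k + 1) h6]; exact h4 k h6
      · have : k = n := by omega
        subst this
        rw [e1 k le_rfl, e2, h2]; exact h
  have hlen : Surf.len (n + 1) P = Surf.len n p + dist x y := by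
    unfold Surf.len
    rw [Finset.sum_range_succ, e1 n le_rfl, e2, h2]
    congr 1
    apply Finset.sum_congr rfl
    intro k hk
    rw [Finset.mem_range] at hk
    rw [e1 k hk.le, e1 (k + 1) hk]
  have hn : 0 ≤ Surf.len n p := Finset.sum_nonneg fun _ _ => dist_nonneg
  calc rho3 φ S Z y ≤ ENNReal.ofReal (Surf.len (n + 1) P) := rho3_le hch
    _ = ENNReal.ofReal (Surf.len n p) + ENNReal.ofReal (dist x y) := by
        rw [hlen, ENNReal.ofReal_add hn dist_nonneg]
    _ ≤ (rho3 φ S Z x + ε) + ENNReal.ofReal (dist x y) := by gcongr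
    _ = rho3 φ S Z x + ENNReal.ofReal (dist x y) + ε := by ring

lemma measurable_rho3 (hφ : Continuous φ) : Measurable (rho3 φ S Z) := by
  apply measurable_of_Iio
  intro a
  -- the sublevel set is the slab intersected with an open set
  set U : Set E3 := ⋃ x ∈ {x | rho3 φ S Z x < a},
    {y | ENNReal.ofReal (dist x y) < a - rho3 φ S Z x} ∩ Metric.ball x 2 with hU
  have hUo : IsOpen U := by
    apply isOpen_biUnion
    intro x _
    apply IsOpen.inter _ Metric.isOpen_ball
    apply isOpen_lt _ continuous_const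
    exact ENNReal.continuous_ofReal.comp (continuous_const.dist continuous_id)
  have hK : IsClosed {x : E3 | |φ x| ≤ S} := isClosed_le hφ.abs continuous_const
  have e : rho3 φ S Z ⁻¹' Iio a = {x : E3 | |φ x| ≤ S} ∩ U := by
    ext y
    constructor
    · intro hy
      have hy' : rho3 φ S Z y < a := hy
      refine ⟨slab_of_lt hy', ?_⟩
      simp only [hU, mem_iUnion]
      refine ⟨y, hy', ?_, Metric.mem_ball_self (by norm_num)⟩
      simp only [Set.mem_ofPred_eq, dist_self, ENNReal.ofReal_zero]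
      exact tsub_pos_of_lt hy'
    · rintro ⟨h1, h2⟩
      simp only [hU, mem_iUnion] at h2
      obtain ⟨x, hx, h3, h4⟩ := h2
      have h5 := rho3_step (Z := Z) h1 (by
        rw [Metric.mem_ball, dist_comm] at h4; exact h4.le : dist x y ≤ 2)
      have hx' : rho3 φ S Z x < a := hx
      have h3' : ENNReal.ofReal (dist x y) < a - rho3 φ S Z x := h3
      change rho3 φ S Z y < a
      refine lt_of_le_of_lt h5 ?_
      have h6 := ENNReal.lt_add_right (a := rho3 φ S Z x) (b := 1) hx'.ne_top one_ne_zero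
      rw [add_comm]
      exact lt_tsub_iff_right.mp h3'
  rw [e]
  exact hK.measurableSet.inter hUo.measurableSet

/-- translation of the chain distance -/
lemma rho3_translate (o x : E3) :
    rho3 (fun y => φ (y + o)) S ((fun y => y + o) ⁻¹' Z) x = rho3 φ S Z (x + o) := by
  apply le_antisymm
  · unfold rho3
    refine le_iInf fun n => le_iInf fun p => le_iInf fun h => ?_
    refine iInf_le_of_le n (iInf_le_of_le (fun k => p k - o) (iInf_le_of_le ?_ ?_))
    · obtain ⟨h1, h2, h3, h4⟩ := h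
      refine ⟨by simpa using h1, by simp [h2], fun k hk => by simpa using h3 k hk,
        fun k hk => by simpa using h4 k hk⟩
    · unfold Surf.len
      simp
  · unfold rho3
    refine le_iInf fun n => le_iInf fun p => le_iInf fun h => ?_
    refine iInf_le_of_le n (iInf_le_of_le (fun k => p k + o) (iInf_le_of_le ?_ ?_))
    · obtain ⟨h1, h2, h3, h4⟩ := h
      refine ⟨h1, by simp [h2], fun k hk => h3 k hk, fun k hk => by simpa using h4 k hk⟩
    · unfold Surf.len
      simp

end rho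

/-! ### Kuhn tetrahedra -/

section tets

/-- every point lies in a tetrahedron -/
lemma exists_tet (x : E3) : ∃ i : KI, x ∈ tet i := by
  set z : PS.Lat := fun j => ⌊x j⌋ with hz
  have h0 : ∀ j, 0 ≤ x j - (z j : ℝ) := fun j => by
    have := Int.floor_le (x j); simp only [hz]; linarith
  have h1 : ∀ j, x j - (z j : ℝ) ≤ 1 := fun j => by
    have := Int.lt_floor_add_one (x j); simp only [hz]; linarith
  have key : ∀ s : Fin 6, x (ord s 1) - (z (ord s 1) : ℝ) ≤ x (ord s 0) - z (ord s 0) →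
      x (ord s 2) - (z (ord s 2) : ℝ) ≤ x (ord s 1) - z (ord s 1) → x ∈ tet (z, s) := by
    intro s g1 g2 k
    match k with
    | 0 => simp only [bar, Matrix.cons_val]; linarith [h1 (ord s 0)]
    | 1 => simp only [bar, Matrix.cons_val]; linarith
    | 2 => simp only [bar, Matrix.cons_val]; linarith
    | 3 => simp only [bar, Matrix.cons_val]; linarith [h0 (ord s 2)]
  rcases le_total (x 0 - (z 0 : ℝ)) (x 1 - z 1) with a | a <;>
    rcases le_total (x 1 - (z 1 : ℝ)) (x 2 - z 2) with b | b <;>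
    rcases le_total (x 0 - (z 0 : ℝ)) (x 2 - z 2) with c | c
  · exact ⟨(z, 5), key 5 b a⟩
  · exact ⟨(z, 5), key 5 b a⟩
  · exact ⟨(z, 3), key 3 b c⟩
  · exact ⟨(z, 2), key 2 a c⟩
  · exact ⟨(z, 4), key 4 c a⟩
  · exact ⟨(z, 1), key 1 c b⟩
  · exact ⟨(z, 0), key 0 a b⟩
  · exact ⟨(z, 0), key 0 a b⟩

lemma ord_surj (s : Fin 6) (j : Fin 3) : ∃ l, ord s l = j :=
  (Finite.injective_iff_surjective.mp (ord_inj s)) j

lemma coord_mem {i : KI} {x : E3} (h : x ∈ tet i) (j : Fin 3) :
    0 ≤ x j - (i.1 j : ℝ) ∧ x j - (i.1 j : ℝ) ≤ 1 := by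
  have h0 := h 0
  have h1 := h 1
  have h2 := h 2
  have h3 := h 3
  simp only [bar, Matrix.cons_val] at h0 h1 h2 h3
  obtain ⟨l, rfl⟩ := ord_surj i.2 j
  fin_cases l
  · constructor <;> simp only [Fin.zero_eta] <;> linarith
  · constructor <;> simp only [Fin.mk_one] <;> linarith
  · constructor <;> simp only [Fin.reduceFinMk] <;> linarith

lemma norm_le_of_coord {y : E3} (h : ∀ j, |y j| ≤ 1) : ‖y‖ ≤ 2 := by
  rw [EuclideanSpace.norm_eq]
  apply Real.sqrt_le_iff.mpr
  refine ⟨by norm_num, ?_⟩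
  rw [Fin.sum_univ_three]
  have h' : ∀ j, ‖y j‖ ^ 2 ≤ 1 := by
    intro j
    rw [Real.norm_eq_abs]
    have := h j
    nlinarith [abs_nonneg (y j)]
  linarith [h' 0, h' 1, h' 2]

lemma dist_vert_le {i : KI} {x : E3} (h : x ∈ tet i) (k : Fin 4) : ‖pt (vert i k) - x‖ ≤ 2 := by
  apply norm_le_of_coord
  intro j
  obtain ⟨h1, h2⟩ := coord_mem h j
  have e : (pt (vert i k) - x) j = (if rk i.2 j < k then 1 else 0) - (x j - (i.1 j : ℝ)) := by
    simp only [PiLp.sub_apply, PS.pt, vert]
    push_cast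
    split_ifs <;> ring
  rw [e, abs_le]
  split_ifs <;> constructor <;> linarith

end tets

/-! ### estimates on a tetrahedron -/

section est

variable {φ : E3 → ℝ} {B : Set E3} {s δ L0 : ℝ}

lemma norm_le_of_coord' {y : E3} {c : ℝ} (hc : 0 ≤ c) (h : ∀ j, |y j| ≤ c) : ‖y‖ ≤ 2 * c := by
  rw [EuclideanSpace.norm_eq]
  apply Real.sqrt_le_iff.mpr
  refine ⟨by positivity, ?_⟩
  rw [Fin.sum_univ_three]
  have h' : ∀ j, ‖y j‖ ^ 2 ≤ c ^ 2 := by
    intro j
    rw [Real.norm_eq_abs]
    have := h j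
    gcongr
  nlinarith [h' 0, h' 1, h' 2, sq_nonneg c]

lemma norm_fderiv_eq (x : E3) : ‖fderiv ℝ φ x‖ = ‖gradient φ x‖ := by
  unfold gradient
  rw [LinearIsometryEquiv.norm_map]

lemma lip (h : Good φ B s δ L0) (x y : E3) : |φ x - φ y| ≤ ‖x - y‖ := by
  have h1 := Convex.norm_image_sub_le_of_norm_fderiv_le (𝕜 := ℝ) (f := φ) (C := 1) (s := univ)
    (x := y) (y := x) (fun z _ => (h.c2.differentiable (by norm_num)) z)
    (fun z _ => by rw [norm_fderiv_eq]; exact h.le_one z) convex_univ (mem_univ _) (mem_univ _)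
  simpa using h1

/-- the interpolated value is close to the value -/
lemma itp_close (h : Good φ B s δ L0) {i : KI} {x : E3} (hx : x ∈ tet i) :
    |φ x - ∑ k, bar i k x * wv φ (vert i k)| ≤ 2 := by
  have h1 : φ x - ∑ k, bar i k x * wv φ (vert i k) =
      ∑ k, bar i k x * (φ x - wv φ (vert i k)) := by
    simp only [mul_sub, Finset.sum_sub_distrib]
    rw [← Finset.sum_mul, bar_sum, one_mul]
  rw [h1]
  calc |∑ k, bar i k x * (φ x - wv φ (vert i k))| ≤ ∑ k, |bar i k x * (φ x - wv φ (vert i k))| :=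
        Finset.abs_sum_le_sum_abs _ _
    _ ≤ ∑ k, bar i k x * 2 := by
        apply Finset.sum_le_sum
        intro k _
        rw [abs_mul, abs_of_nonneg (hx k)]
        apply mul_le_mul_of_nonneg_left _ (hx k)
        have h2 := lip h x (pt (vert i k))
        have h3 := dist_vert_le hx k
        rw [norm_sub_rev] at h3
        exact h2.trans h3
    _ = 2 := by rw [← Finset.sum_mul, bar_sum, one_mul]

lemma ptsub (i : KI) (j : Fin 3) :
    pt (vert i (Fin.ofNat 4 (rk i.2 j + 1))) - pt (vert i (Fin.ofNat 4 (rk i.2 j))) =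
      EuclideanSpace.single j (1 : ℝ) := by
  obtain ⟨z, s⟩ := i
  ext l
  simp only [PiLp.sub_apply, PS.pt, vert, EuclideanSpace.single, PiLp.single_apply]
  have key : ∀ s : Fin 6, ∀ j l : Fin 3,
      ((if (rk s l : ℕ) < ((Fin.ofNat 4 (rk s j + 1) : Fin 4) : ℕ) then (1 : ℤ) else 0) -
        (if (rk s l : ℕ) < ((Fin.ofNat 4 (rk s j) : Fin 4) : ℕ) then (1 : ℤ) else 0)) =
      if l = j then 1 else 0 := by decide
  have := key s j l
  rw [← Int.cast_sub]
  rw [show (z l + if rk s l < ((Fin.ofNat 4 (rk s j + 1) : Fin 4) : ℕ) then (1 : ℤ) else 0) -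
      (z l + if rk s l < ((Fin.ofNat 4 (rk s j) : Fin 4) : ℕ) then (1 : ℤ) else 0) =
      if l = j then 1 else 0 by rw [← this]; ring]
  split_ifs <;> simp

/-- near a flat point the gradient of the interpolation is close to `n` -/
lemma grad_close (h : Good φ B s δ L0) {i : KI} {x : E3} (hx : x ∈ tet i) {n : E3} (hδ : 0 ≤ δ)
    (hn : ∀ y, dist y x ≤ 2 → ‖gradient φ y - n‖ ≤ δ) : ‖grad (wv φ) i - n‖ ≤ 2 * δ := by
  apply norm_le_of_coord' hδ
  intro j
  have hv : ∀ k, pt (vert i k) ∈ Metric.closedBall x 2 := by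
    intro k
    rw [Metric.mem_closedBall, dist_eq_norm]
    exact dist_vert_le hx k
  have h1 := Convex.norm_image_sub_le_of_norm_fderiv_le' (𝕜 := ℝ) (f := φ) (C := δ)
    (s := Metric.closedBall x 2) (φ := innerSL ℝ n)
    (x := pt (vert i (Fin.ofNat 4 (rk i.2 j)))) (y := pt (vert i (Fin.ofNat 4 (rk i.2 j + 1))))
    (fun z _ => (h.c2.differentiable (by norm_num)) z)
    (fun z hz => by
      have h2 := hn z (by simpa [Metric.mem_closedBall] using hz)
      have h3 : fderiv ℝ φ z - innerSL ℝ n =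
          (InnerProductSpace.toDual ℝ E3) (gradient φ z - n) := by
        ext w
        simp [gradient]
      rw [h3, LinearIsometryEquiv.norm_map]
      exact h2)
    (convex_closedBall _ _) (hv _) (hv _)
  rw [ptsub] at h1
  have h4 : (innerSL ℝ n) (EuclideanSpace.single j (1 : ℝ)) = n j := by
    simp [EuclideanSpace.inner_single_right]
  rw [h4] at h1
  have h5 : ‖EuclideanSpace.single j (1 : ℝ)‖ = 1 := by simp
  rw [h5, mul_one] at h1
  exact h1

end est

/-! ### the inequality for one lattice -/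

section one

variable {φ : E3 → ℝ} {B : Set E3} {s δ L0 ε : ℝ} {W : ℝ → ℝ → ℝ} {f : ℝ → ℝ} {G : E3 → ℝ}

lemma continuous_bar (i : KI) (k : Fin 4) : Continuous (bar i k) := by
  have hc : ∀ j : Fin 3, Continuous fun x : E3 => x j := fun j => by fun_prop
  unfold bar
  match k with
  | 0 => simp only [Matrix.cons_val]; fun_prop
  | 1 => simp only [Matrix.cons_val]; fun_prop
  | 2 => simp only [Matrix.cons_val]; fun_prop
  | 3 => simp only [Matrix.cons_val]; fun_prop

lemma measurable_Psi3 (hφ : Continuous φ) (hf : Antitone f) (hG : Continuous G) :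
    Measurable (Psi3 φ B s L0 ε f G) := by
  have h1 : Measurable (rho3 φ (s + 8) (Zon B L0)) := measurable_rho3 hφ
  have h2 : Measurable fun x => ENNReal.ofReal
      (f ((1 + ε) * (rho3 φ (s + 8) (Zon B L0) x).toReal + 4)) :=
    ENNReal.measurable_ofReal.comp (hf.measurable.comp
      ((h1.ennreal_toReal.const_mul _).add_const _))
  have h3 : Measurable fun x => ENNReal.ofReal (G x ^ 2) := (hG.pow 2).measurable.ennreal_ofReal
  exact Measurable.ite (measurableSet_lt h1 measurable_const) (h2.mul h3) measurable_const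

lemma pointwise (h : Good φ B s δ L0) (hε : 0 < ε) (hε1 : ε ≤ 1) (hδ0 : 0 ≤ δ) (hδ : δ ≤ ε / 4)
    (hs : 1 ≤ s) (hL : 200 * (s + 10) ≤ L0) (hW : Wt s W) {i : KI} {x : E3} (hx : x ∈ tet i)
    (hz : x ∉ Zon B L0) :
    W 0 (φ x) * ‖gradient φ x‖ ≤
      (1 + ε) * (W 2 (∑ k, bar i k x * wv φ (vert i k)) * ‖grad (wv φ) i‖) := by
  have h1 : W 0 (φ x) ≤ W 2 (∑ k, bar i k x * wv φ (vert i k)) :=
    hW.mono 0 2 _ _ (by simpa using itp_close h hx)
  have h0 : 0 ≤ W 0 (φ x) := hW.nonneg 0 _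
  by_cases h2 : W 0 (φ x) = 0
  · rw [h2, zero_mul]
    have := norm_nonneg (grad (wv φ) i)
    have h3 : 0 ≤ W 2 (∑ k, bar i k x * wv φ (vert i k)) := hW.nonneg 2 _
    positivity
  · have h3 := hW.supp 0 _ h2
    obtain ⟨n, hn1, hn2⟩ := h.flat x (by linarith) (fun b hb => by
      by_contra hc
      exact hz ⟨b, hb, by linarith⟩)
    have h4 := grad_close h hx hδ0 (n := n) (fun y hy => hn2 y (by linarith))
    have h5 : 1 - 2 * δ ≤ ‖grad (wv φ) i‖ := by
      have := norm_sub_norm_le n (grad (wv φ) i)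
      rw [norm_sub_rev] at this
      linarith
    have h6 : 1 ≤ (1 + ε) * ‖grad (wv φ) i‖ := by nlinarith
    calc W 0 (φ x) * ‖gradient φ x‖ ≤ W 0 (φ x) * 1 := by
          gcongr
          exact h.le_one x
      _ ≤ W 0 (φ x) * ((1 + ε) * ‖grad (wv φ) i‖) := by gcongr
      _ ≤ W 2 (∑ k, bar i k x * wv φ (vert i k)) * ((1 + ε) * ‖grad (wv φ) i‖) := by gcongr
      _ = _ := by ring

lemma one_lattice (h : Good φ B s δ L0) (hε : 0 < ε) (hε1 : ε ≤ 1) (hδ0 : 0 ≤ δ)
    (hδ : δ ≤ ε / 4) (hs : 1 ≤ s) (hL : 200 * (s + 10) ≤ L0) (hW : Wt s W) (hf : Antitone f)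
    (hG : Continuous G) {R : ℝ≥0∞}
    (hX : ∑' i : KI, ∫⁻ x in tet i, ENNReal.ofReal (W 2 (∑ k, bar i k x * wv φ (vert i k))) *
      Psi3 φ B s L0 ε f G x * ENNReal.ofReal ‖grad (wv φ) i‖ ≤ R) :
    ∫⁻ x in (Zon B L0)ᶜ, ENNReal.ofReal (W 0 (φ x) * ‖gradient φ x‖) * Psi3 φ B s L0 ε f G x ≤
      ENNReal.ofReal (1 + ε) * R := by
  have hcov : (Zon B L0)ᶜ = ⋃ i : KI, (Zon B L0)ᶜ ∩ tet i := by
    ext x
    simp only [mem_iUnion, mem_inter_iff]
    constructor
    · intro hx
      obtain ⟨i, hi⟩ := exists_tet x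
      exact ⟨i, hx, hi⟩
    · rintro ⟨i, hx, -⟩
      exact hx
  have hm : ∀ i : KI, Measurable fun x : E3 => ENNReal.ofReal (1 + ε) *
      (ENNReal.ofReal (W 2 (∑ k, bar i k x * wv φ (vert i k))) *
      Psi3 φ B s L0 ε f G x * ENNReal.ofReal ‖grad (wv φ) i‖) := by
    intro i
    have h1 : Continuous fun x : E3 => ∑ k, bar i k x * wv φ (vert i k) :=
      continuous_finsetSum _ fun k _ => (continuous_bar i k).mul continuous_const
    have h2 : Measurable fun x : E3 =>
        ENNReal.ofReal (W 2 (∑ k, bar i k x * wv φ (vert i k))) :=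
      ENNReal.measurable_ofReal.comp ((hW.meas 2).comp h1.measurable)
    exact ((h2.mul (measurable_Psi3 h.c2.continuous hf hG)).mul_const _).const_mul _
  calc ∫⁻ x in (Zon B L0)ᶜ, ENNReal.ofReal (W 0 (φ x) * ‖gradient φ x‖) * Psi3 φ B s L0 ε f G x
      ≤ ∑' i : KI, ∫⁻ x in (Zon B L0)ᶜ ∩ tet i,
        ENNReal.ofReal (W 0 (φ x) * ‖gradient φ x‖) * Psi3 φ B s L0 ε f G x := by
        conv_lhs => rw [hcov]
        exact lintegral_iUnion_le _ _
    _ ≤ ∑' i : KI, ∫⁻ x in (Zon B L0)ᶜ ∩ tet i, ENNReal.ofReal (1 + ε) *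
          (ENNReal.ofReal (W 2 (∑ k, bar i k x * wv φ (vert i k))) *
          Psi3 φ B s L0 ε f G x * ENNReal.ofReal ‖grad (wv φ) i‖) := by
        refine ENNReal.tsum_le_tsum fun i => setLIntegral_mono (hm i) fun x hx => ?_
        have h1 := pointwise h hε hε1 hδ0 hδ hs hL hW hx.2 hx.1
        have h3 : 0 ≤ W 2 (∑ k, bar i k x * wv φ (vert i k)) := hW.nonneg 2 _
        calc ENNReal.ofReal (W 0 (φ x) * ‖gradient φ x‖) * Psi3 φ B s L0 ε f G x
            ≤ ENNReal.ofReal ((1 + ε) *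
              (W 2 (∑ k, bar i k x * wv φ (vert i k)) * ‖grad (wv φ) i‖)) *
              Psi3 φ B s L0 ε f G x := by gcongr
          _ = _ := by
            rw [ENNReal.ofReal_mul (by linarith), ENNReal.ofReal_mul h3]
            ring
    _ ≤ ∑' i : KI, ∫⁻ x in tet i, ENNReal.ofReal (1 + ε) *
          (ENNReal.ofReal (W 2 (∑ k, bar i k x * wv φ (vert i k))) *
          Psi3 φ B s L0 ε f G x * ENNReal.ofReal ‖grad (wv φ) i‖) :=
        ENNReal.tsum_le_tsum fun i => lintegral_mono_set inter_subset_right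
    _ = ENNReal.ofReal (1 + ε) * ∑' i : KI, ∫⁻ x in tet i,
          (ENNReal.ofReal (W 2 (∑ k, bar i k x * wv φ (vert i k))) *
          Psi3 φ B s L0 ε f G x * ENNReal.ofReal ‖grad (wv φ) i‖) := by
        rw [← ENNReal.tsum_mul_left]
        congr 1
        ext i
        rw [lintegral_const_mul' _ _ ENNReal.ofReal_ne_top]
    _ ≤ _ := by gcongr

end one

/-! ### translations -/

section trans

variable {φ : E3 → ℝ} {B : Set E3} {s δ L0 ε : ℝ} {W : ℝ → ℝ → ℝ} {f : ℝ → ℝ} {G : E3 → ℝ}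

/-- translated function -/
def tr {α : Type*} (φ : E3 → α) (o : E3) : E3 → α := fun y => φ (y + o)

lemma fderiv_tr (o x : E3) : fderiv ℝ (tr φ o) x = fderiv ℝ φ (x + o) :=
  fderiv_comp_add_right o

lemma gradient_tr (o x : E3) : gradient (tr φ o) x = gradient φ (x + o) := by
  unfold gradient
  rw [fderiv_tr]

lemma Zon_tr (o : E3) : Zon ((fun y => y + o) ⁻¹' B) L0 = (fun y => y + o) ⁻¹' Zon B L0 := by
  ext x
  constructor
  · rintro ⟨b, hb, h⟩
    exact ⟨b + o, hb, by simpa using h⟩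
  · rintro ⟨b, hb, h⟩
    refine ⟨b - o, by simpa using hb, ?_⟩
    have : dist x (b - o) = dist (x + o) b := by
      rw [dist_eq_norm, dist_eq_norm]; congr 1; abel
    rw [this]; exact h

lemma Good_tr (h : Good φ B s δ L0) (o : E3) : Good (tr φ o) ((fun y => y + o) ⁻¹' B) s δ L0 where
  c2 := h.c2.comp (contDiff_id.add contDiff_const)
  le_one x := by rw [gradient_tr]; exact h.le_one _
  flat x hx hb := by
    obtain ⟨n, h1, h2⟩ := h.flat (x + o) hx (fun b hb' => by
      have h3 := hb (b - o) (by simpa using hb')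
      have : dist x (b - o) = dist (x + o) b := by
        rw [dist_eq_norm, dist_eq_norm]; congr 1; abel
      rwa [this] at h3)
    refine ⟨n, h1, fun y hy => ?_⟩
    rw [gradient_tr]
    exact h2 _ (by simpa using hy)

lemma Gwt_tr {l : ℝ} (h : Gwt G l) (o : E3) : Gwt (tr G o) l where
  pos x := h.pos _
  lip x y := by
    have := h.lip (x + o) (y + o)
    rwa [dist_add_right] at this
  cont := h.cont.comp (continuous_id.add continuous_const)

lemma rho3_tr (o x : E3) (S : ℝ) :
    rho3 (tr φ o) S (Zon ((fun y => y + o) ⁻¹' B) L0) x = rho3 φ S (Zon B L0) (x + o) := by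
  rw [Zon_tr]
  exact rho3_translate o x

lemma Psi3_tr (o x : E3) : Psi3 (tr φ o) ((fun y => y + o) ⁻¹' B) s L0 ε f (tr G o) x =
    Psi3 φ B s L0 ε f G (x + o) := by
  unfold Psi3
  rw [rho3_tr]
  rfl

lemma lam_tr (o p : E3) (τ : Fin 7) (k : ℕ) : lam (tr φ o) p τ k = lam φ (p + o) τ k := by
  unfold lam sd tr
  have e : ∀ a b c : E3, a + b + c = a + c + b := fun a b c => by abel
  have e1 : p + pt (sb τ k) + pt (bb τ (k - 1) - sb τ k) + pt (bb τ (k + 1) - sb τ k) + o =
      p + o + pt (sb τ k) + pt (bb τ (k - 1) - sb τ k) + pt (bb τ (k + 1) - sb τ k) := by abel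
  have e2 : p + pt (sb τ k) + pt (bb τ (k - 1) - sb τ k) + o =
      p + o + pt (sb τ k) + pt (bb τ (k - 1) - sb τ k) := by abel
  have e3 : p + pt (sb τ k) + pt (bb τ (k + 1) - sb τ k) + o =
      p + o + pt (sb τ k) + pt (bb τ (k + 1) - sb τ k) := by abel
  have e4 : p + pt (sb τ k) + o = p + o + pt (sb τ k) := by abel
  rw [e1, e2, e3, e4]

lemma Rr_tr (o p : E3) : Rr (tr φ o) ((fun y => y + o) ⁻¹' B) s L0 ε W f (tr G o) p =
    Rr φ B s L0 ε W f G (p + o) := by
  unfold Rr
  simp only [rho3_tr, lam_tr, fderiv_tr]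
  rfl

lemma measurable_Ph (hf : Antitone f) : Measurable (Ph f) := by
  apply Antitone.measurable
  intro a b hab
  unfold Ph
  refine lintegral_mono fun r => ?_
  gcongr
  exact hf (by linarith)

lemma continuous_lam (hφ : Continuous φ) (τ : Fin 7) (k : ℕ) :
    Continuous fun p => lam φ p τ k := by
  unfold lam sd
  fun_prop

lemma measurable_Rr (hφ : ContDiff ℝ 2 φ) (hW : Wt s W) (hf : Antitone f) (hG : Continuous G) :
    Measurable (Rr φ B s L0 ε W f G) := by
  have h1 : Measurable (rho3 φ (s + 8) (Zon B L0)) := measurable_rho3 hφ.continuous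
  unfold Rr
  refine Measurable.ite (measurableSet_lt h1 measurable_const) ?_ measurable_const
  refine Measurable.mul (M := ℝ≥0∞) (Measurable.mul (M := ℝ≥0∞)
    (Measurable.mul (M := ℝ≥0∞) ?_ ?_) ?_) ?_
  · exact ENNReal.measurable_ofReal.comp ((hW.meas 5).comp hφ.continuous.measurable)
  · exact (measurable_Ph hf).comp (((h1.ennreal_toReal.sub_const _).sub_const _).max
      measurable_const)
  · exact (continuous_const.mul (hG.pow 2)).measurable.ennreal_ofReal
  · refine Measurable.ite (measurableSet_le h1 measurable_const) measurable_const ?_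
    refine Finset.measurable_fun_sum _ fun τ _ => Finset.measurable_fun_sum _ fun k _ => ?_
    apply Measurable.ennreal_ofReal
    apply Continuous.measurable
    have h2 : Continuous fun p => fderiv ℝ φ p (pt (evec τ)) :=
      (hφ.continuous_fderiv (by norm_num)).clm_apply continuous_const
    exact ((continuous_const.mul (h2.pow 2)).add continuous_const).mul
      ((continuous_lam hφ.continuous τ (k + 1)).pow 2)

end trans

/-! ### averaging -/

section avg

/-- lattice cells -/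
def cell (q : PS.Lat) : Set E3 := {x | ∀ j, ⌊x j⌋ = q j}

lemma measurableSet_cell (q : PS.Lat) : MeasurableSet (cell q) := by
  have : cell q = ⋂ j, {x : E3 | ⌊x j⌋ = q j} := by
    ext x; simp [cell]
  rw [this]
  refine MeasurableSet.iInter fun j => ?_
  have h1 : Measurable fun x : E3 => ⌊x j⌋ := by
    have : Measurable fun x : E3 => x j := by fun_prop
    exact this.floor
  exact h1 (measurableSet_singleton (q j))

lemma volume_cell_zero : volume (cell 0) = 1 := by
  have h1 : cell 0 = (WithLp.ofLp : E3 → (Fin 3 → ℝ)) ⁻¹' (Set.pi univ fun _ => Ico (0 : ℝ) 1) := by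
    ext x
    simp only [cell, Set.mem_preimage, Set.mem_pi, mem_univ, true_implies, Set.mem_Ico]
    constructor
    · intro h j
      have := Int.floor_eq_iff.mp (h j)
      simpa using this
    · intro h j
      apply Int.floor_eq_iff.mpr
      simpa using h j
  rw [h1, (PiLp.volume_preserving_ofLp (Fin 3)).measure_preimage]
  · rw [Real.volume_pi_Ico]
    simp
  · exact (MeasurableSet.univ_pi fun _ => measurableSet_Ico).nullMeasurableSet

lemma lintegral_cells (F : E3 → ℝ≥0∞) :
    ∫⁻ x, F x = ∑' q : PS.Lat, ∫⁻ o in cell 0, F (pt q + o) := by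
  have h1 : (⋃ q : PS.Lat, cell q) = univ := by
    ext x
    simp only [mem_iUnion, mem_univ, iff_true]
    exact ⟨fun j => ⌊x j⌋, fun j => rfl⟩
  have h2 : Pairwise (Function.onFun Disjoint cell) := by
    intro p q hpq
    rw [Function.onFun, Set.disjoint_left]
    intro x hx hx'
    exact hpq (funext fun j => (hx j).symm.trans (hx' j))
  rw [← setLIntegral_univ, ← h1, lintegral_iUnion measurableSet_cell h2]
  congr 1
  ext q
  have h3 : (fun o : E3 => pt q + o) ⁻¹' cell q = cell 0 := by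
    ext o
    simp only [cell, Set.mem_preimage, Pi.zero_apply]
    refine forall_congr' fun j => ?_
    have : (pt q + o) j = (q j : ℝ) + o j := rfl
    rw [this, Int.floor_intCast_add]
    omega
  rw [← h3]
  exact ((measurePreserving_add_left volume (pt q)).setLIntegral_comp_preimage_emb
    (measurableEmbedding_addLeft (pt q)) F (cell q)).symm

end avg

end PX4

/-- **PX4** -/
theorem PX4 : StPXP → StPX4 := by
  intro hP ε hε hε1 s hs
  obtain ⟨δ, hδ, H⟩ := hP ε hε hε1 s hs
  refine ⟨min δ (ε / 4), by positivity, ?_⟩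
  intro L0 hL φ B hgood W f R0 G hW hf hG
  have hgood' : Good φ B s δ L0 := by
    refine ⟨hgood.c2, hgood.le_one, fun x h1 h2 => ?_⟩
    obtain ⟨n, h3, h4⟩ := hgood.flat x h1 h2
    exact ⟨n, h3, fun y hy => (h4 y hy).trans (min_le_left _ _)⟩
  -- one lattice
  have key : ∀ o : E3,
      ∫⁻ x in (Zon B L0)ᶜ, ENNReal.ofReal (W 0 (φ x) * ‖gradient φ x‖) *
        Psi3 φ B s L0 ε f G x ≤
      ENNReal.ofReal (1 + ε) * ∑' q : PS.Lat, Rr φ B s L0 ε W f G (pt q + o) := by
    intro o
    have h1 := H L0 hL _ _ (PX4.Good_tr hgood' o) W f R0 _ hW hf (PX4.Gwt_tr hG o)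
    have h2 := PX4.one_lattice (PX4.Good_tr hgood o) hε hε1 (by positivity)
      (min_le_right _ _) hs hL hW hf.anti (PX4.Gwt_tr hG o).cont h1
    simp only [PX4.Rr_tr, PX4.Psi3_tr, PX4.gradient_tr] at h2
    refine le_trans (le_of_eq ?_) h2
    have h3 := (measurePreserving_add_right volume o).setLIntegral_comp_preimage_emb
      (measurableEmbedding_addRight o)
      (fun x => ENNReal.ofReal (W 0 (φ x) * ‖gradient φ x‖) * Psi3 φ B s L0 ε f G x)
      (Zon B L0)ᶜ
    rw [← h3, PX4.Zon_tr]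
    rfl
  set I := ∫⁻ x in (Zon B L0)ᶜ, ENNReal.ofReal (W 0 (φ x) * ‖gradient φ x‖) *
        Psi3 φ B s L0 ε f G x with hI
  have hm : Measurable (Rr φ B s L0 ε W f G) := PX4.measurable_Rr hgood.c2 hW hf.anti hG.cont
  calc I = ∫⁻ _ in PX4.cell 0, I := by
        rw [setLIntegral_const, PX4.volume_cell_zero, mul_one]
    _ ≤ ∫⁻ o in PX4.cell 0,
        ENNReal.ofReal (1 + ε) * ∑' q : PS.Lat, Rr φ B s L0 ε W f G (pt q + o) :=
        lintegral_mono fun o => key o
    _ = ENNReal.ofReal (1 + ε) *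
        ∫⁻ o in PX4.cell 0, ∑' q : PS.Lat, Rr φ B s L0 ε W f G (pt q + o) :=
        lintegral_const_mul' _ _ ENNReal.ofReal_ne_top
    _ = ENNReal.ofReal (1 + ε) *
        ∑' q : PS.Lat, ∫⁻ o in PX4.cell 0, Rr φ B s L0 ε W f G (pt q + o) := by
        congr 1
        apply lintegral_tsum
        intro q
        exact (hm.comp (measurable_const_add (pt q))).aemeasurable
    _ = ENNReal.ofReal (1 + ε) * ∫⁻ p, Rr φ B s L0 ε W f G p := by
        rw [PX4.lintegral_cells (Rr φ B s L0 ε W f G)]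

end Vale.Agent.P134.PX
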