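import Vale.Agent.P134.PX.PXPDefs

/-! # P134 / PX : block PXPA (helper988) -/

open MeasureTheory Set
open scoped ENNReal RealInnerProductSpace Real

namespace Vale.Agent.P134.PX

open PS hiding Lat

private lemma prf_nonneg_a {f : ℝ → ℝ} {R0 : ℝ} (h : Prf f R0) (t : ℝ) : 0 ≤ f t := by
  have h1 := h.anti (le_max_left t R0)
  rw [h.zero _ (le_max_right t R0)] at h1
  exact h1

theorem PXPA : StPXPA := by
  intro hP2 hPX2 ε hε hε1 s hs
  obtain ⟨δ, hδ, H⟩ := hPX2 ε hε s hs
  refine ⟨δ, hδ, fun L0 hL0 φ B hG f R0 G hf hGw c hc hne S e hF hV => ?_⟩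
  have HX := H L0 hL0 φ B hG c hc hne S e hF hV
  set Z := Src φ B s L0 c with hZ
  have hZV : Z ⊆ S.V := by rw [hV]; exact fun v hv => hv.1
  have hR0 : 0 < R0 := lt_of_lt_of_le one_pos hf.one_le
  classical
  let Ψ : E3 → ℝ≥0∞ := fun x => if S.rho Z x = ⊤ then 0 else
    if ∃ i, x ∈ S.F i then Psi3 φ B s L0 ε f G x else 0
  let Φ : E3 → ℝ → ℝ≥0∞ := fun v r =>
    ENNReal.ofReal (f ((S.rho Z v).toReal + r)) * ENNReal.ofReal (Real.exp (2 * ε) * G v ^ 2)
  have hΦm : ∀ v, Measurable (Φ v) := by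
    intro v
    have h1 : Antitone fun r => f ((S.rho Z v).toReal + r) := fun a b hab =>
      hf.anti (by linarith)
    exact (h1.measurable.ennreal_ofReal).mul_const _
  have hΨ0 : ∀ x, S.rho Z x = ⊤ → Ψ x = 0 := fun x hx => by simp [Ψ, hx]
  have hΨΦ : ∀ v ∈ S.V, S.rho Z v < ⊤ → ∀ (x : E3) (r : ℝ), 0 < r →
      S.rho Z x = S.rho Z v + ENNReal.ofReal r → dist v x ≤ r → Ψ x ≤ Φ v r := by
    intro v hv hvt x r hr hx hd
    have hxt : S.rho Z x ≠ ⊤ := by
      rw [hx]; exact ENNReal.add_ne_top.2 ⟨hvt.ne, ENNReal.ofReal_ne_top⟩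
    simp only [Ψ, hxt, if_false]
    split_ifs with hi
    · obtain ⟨i, hi⟩ := hi
      rw [hF i] at hi
      obtain ⟨-, h2⟩ := HX x _ hi
      unfold Psi3
      split_ifs with h3
      · have h4 := h2 h3
        have h5 : (S.rho Z v).toReal + r ≤ (1 + ε) * (rho3 φ (s + 8) (Zon B L0) x).toReal + 4 := by
          rw [hx] at h4
          have h6 := ENNReal.toReal_mono (ENNReal.add_ne_top.2
            ⟨ENNReal.mul_ne_top ENNReal.ofReal_ne_top h3.ne, ENNReal.ofReal_ne_top⟩) h4
          rw [ENNReal.toReal_add hvt.ne ENNReal.ofReal_ne_top, ENNReal.toReal_ofReal hr.le,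
            ENNReal.toReal_add (ENNReal.mul_ne_top ENNReal.ofReal_ne_top h3.ne)
              ENNReal.ofReal_ne_top, ENNReal.toReal_mul, ENNReal.toReal_ofReal (by linarith),
            ENNReal.toReal_ofReal (by norm_num)] at h6
          exact h6
        have h7 := hf.anti h5
        rcases le_or_gt R0 ((S.rho Z v).toReal + r) with h8 | h8
        · rw [hf.zero _ (h8.trans h5)]; simp
        · have h9 : r ≤ R0 := by
            have := ENNReal.toReal_nonneg (a := S.rho Z v)
            linarith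
          refine mul_le_mul' (ENNReal.ofReal_le_ofReal h7) (ENNReal.ofReal_le_ofReal ?_)
          have h10 : G x ≤ Real.exp ε * G v := by
            refine (hGw.lip x v).trans ?_
            refine mul_le_mul_of_nonneg_right (Real.exp_le_exp.2 ?_) (hGw.pos v).le
            rw [dist_comm]
            calc ε / R0 * dist v x ≤ ε / R0 * R0 := by
                  refine mul_le_mul_of_nonneg_left (hd.trans h9) (by positivity)
              _ = ε := by field_simp
          calc G x ^ 2 ≤ (Real.exp ε * G v) ^ 2 := pow_le_pow_left₀ (hGw.pos x).le h10 2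
            _ = Real.exp (2 * ε) * G v ^ 2 := by
                rw [mul_pow, ← Real.exp_nat_mul]; norm_num
      · exact bot_le
    · exact bot_le
  have hmain := hP2 S Z hZV Ψ Φ hΦm hΨ0 hΨΦ
  have hL : ∑' i : S.ι, ∫⁻ z in S.C i, Psi3 φ B s L0 ε f G (S.inv i z) ≤
      ∑' i : S.ι, ∫⁻ z in S.C i, Ψ (S.inv i z) := by
    refine ENNReal.tsum_le_tsum fun i => ?_
    have hm : MeasurableSet (S.C i) :=
      ((S.compact i).image (S.ch i).continuous_of_finiteDimensional).isClosed.measurableSet
    refine setLIntegral_mono' hm fun z hz => ?_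
    have hzi : S.inv i z ∈ S.F i := by
      obtain ⟨y, hy, hyz⟩ := hz
      exact Function.invFunOn_mem ⟨y, hy, hyz⟩
    have hzi' : ∃ j, S.inv i z ∈ S.F j := ⟨i, hzi⟩
    rw [hF i] at hzi
    obtain ⟨-, h2⟩ := HX _ _ hzi
    simp only [Ψ]
    split_ifs with h3
    · unfold Psi3
      split_ifs with h4
      · have h5 := h2 h4
        rw [h3, top_le_iff, ENNReal.add_eq_top] at h5
        rcases h5 with h5 | h5
        · exact absurd h5 (ENNReal.mul_ne_top ENNReal.ofReal_ne_top h4.ne)
        · exact absurd h5 ENNReal.ofReal_ne_top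
      · exact le_rfl
    · exact le_rfl
  refine hL.trans (hmain.trans (le_of_eq ?_))
  refine tsum_congr fun v => ?_
  congr 1
  unfold Ph
  rw [← lintegral_const_mul]
  · refine lintegral_congr fun r => ?_
    simp only [Φ]
    ring
  · have h1 : Antitone fun r => f ((S.rho Z v).toReal + r) := fun a b hab =>
      hf.anti (by linarith)
    exact (h1.measurable.ennreal_ofReal).mul ENNReal.measurable_ofReal

end Vale.Agent.P134.PX
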