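import Vale.Agent.P134.PX.PXPDefs

/-!
# P134 / PX, block PXP-B : the cost of a vertex is at most the cost of its edge
-/

open MeasureTheory Set
open scoped ENNReal RealInnerProductSpace Real

namespace Vale.Agent.P134.PX

open PS hiding Lat

namespace PXB

theorem pt_add (a b : PS.Lat) : pt (a + b) = pt a + pt b := by
  ext j; simp [pt]

theorem norm_pt_le {a : PS.Lat} (h : ∀ j, |a j| ≤ 1) : ‖pt a‖ ≤ 2 := by
  rw [EuclideanSpace.norm_eq, Real.sqrt_le_left (by norm_num), Fin.sum_univ_three]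
  have : ∀ j, ‖pt a j‖ ^ 2 ≤ 1 := by
    intro j
    have hj : |((a j : ℤ) : ℝ)| ≤ 1 := by exact_mod_cast h j
    have h0 : ‖pt a j‖ ≤ 1 := by simpa [pt, Real.norm_eq_abs] using hj
    have h1 := norm_nonneg (pt a j)
    nlinarith
  have h0 := this 0
  have h1 := this 1
  have h2 := this 2
  linarith

theorem sq_norm_pt_evec (τ : Fin 7) : ‖pt (evec τ)‖ ^ 2 ≤ 3 := by
  rw [EuclideanSpace.norm_sq_eq, Fin.sum_univ_three]
  fin_cases τ <;> simp [pt, evec] <;> norm_num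

theorem norm_evec_le (τ : Fin 7) : ‖pt (evec τ)‖ ≤ 7 / 4 := by
  have h := sq_norm_pt_evec τ
  have h0 := norm_nonneg (pt (evec τ))
  nlinarith

theorem mm_le (τ : Fin 7) : mm τ ≤ 6 := by
  revert τ; decide

theorem ft_le (τ : Fin 7) (k : Fin 6) (j : Fin 3) :
    |(ft τ k).1 j| ≤ 1 ∧ |(ft τ k).1 j + 1| ≤ 1 := by
  revert τ k j; decide

theorem ff_le (τ : Fin 7) (k : ℕ) (j : Fin 3) :
    |(ff τ k).1 j| ≤ 1 ∧ |(ff τ k).1 j + 1| ≤ 1 := ft_le _ _ _

theorem dist_vert (q : PS.Lat) (τ : Fin 7) (k : ℕ) (l : Fin 4) :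
    dist (pt (vert (q + (ff τ k).1, (ff τ k).2) l)) (pt q) ≤ 9 := by
  have h : vert (q + (ff τ k).1, (ff τ k).2) l =
      q + fun j => (ff τ k).1 j + if rk (ff τ k).2 j < l then 1 else 0 := by
    funext j; simp [vert]; ring
  rw [h, pt_add, dist_eq_norm, add_sub_cancel_left]
  refine (norm_pt_le fun j => ?_).trans (by norm_num)
  have := ff_le τ k j
  split_ifs
  · exact this.2
  · simpa using this.1

theorem lamW_eq (φ : E3 → ℝ) (q : PS.Lat) (τ : Fin 7) (k : ℕ) :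
    lamW (wv φ) q τ k = lam φ (pt q) τ k := by
  simp only [lamW, lam, sd, wv, pt_add]

theorem fderiv_eq (φ : E3 → ℝ) (x a : E3) : fderiv ℝ φ x a = inner ℝ (gradient φ x) a := by
  rw [gradient, InnerProductSpace.toDual_symm_apply]

theorem norm_fderiv_eq (φ : E3 → ℝ) (x : E3) : ‖fderiv ℝ φ x‖ = ‖gradient φ x‖ := by
  rw [gradient, LinearIsometryEquiv.norm_map]

theorem lip {φ : E3 → ℝ} (h2 : ContDiff ℝ 2 φ) (h : ∀ x, ‖gradient φ x‖ ≤ 1) (x y : E3) :
    |φ x - φ y| ≤ dist x y := by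
  have := convex_univ.norm_image_sub_le_of_norm_fderiv_le (f := φ) (C := 1) (x := y) (y := x)
    (fun z _ => (h2.differentiable (by norm_num)) z)
    (fun z _ => by rw [norm_fderiv_eq]; exact h z) (mem_univ _) (mem_univ _)
  rw [one_mul, ← dist_eq_norm] at this
  exact this

/-- mean value: `φ` is almost affine -/
theorem mv {φ : E3 → ℝ} (h2 : ContDiff ℝ 2 φ) {n p : E3} {δ R : ℝ}
    (h : ∀ y, dist y p ≤ R → ‖gradient φ y - n‖ ≤ δ) (a : E3) (ha : ‖a‖ ≤ R) :
    |φ (p + a) - φ p - inner ℝ n a| ≤ δ * ‖a‖ := by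
  have hd : Differentiable ℝ φ := h2.differentiable (by norm_num)
  set g : E3 → ℝ := fun y => φ y - inner ℝ n y with hg
  have hgd : ∀ y, HasFDerivAt g (fderiv ℝ φ y - innerSL ℝ n) y := by
    intro y
    exact (hd y).hasFDerivAt.sub (innerSL ℝ n).hasFDerivAt
  have hR : 0 ≤ R := (norm_nonneg a).trans ha
  have := (convex_closedBall p R).norm_image_sub_le_of_norm_hasFDerivWithin_le (f := g)
    (f' := fun y => fderiv ℝ φ y - innerSL ℝ n) (C := δ) (x := p) (y := p + a)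
    (fun z _ => (hgd z).hasFDerivWithinAt)
    (fun z hz => by
      have h1 : fderiv ℝ φ z - innerSL ℝ n = innerSL ℝ (gradient φ z - n) := by
        ext b
        simp only [sub_apply, innerSL_apply_apply, inner_sub_left]
        rw [fderiv_eq]
      rw [h1, innerSL_apply_norm]
      exact h z (Metric.mem_closedBall.1 hz))
    (Metric.mem_closedBall_self hR)
    (by rw [Metric.mem_closedBall, dist_eq_norm, add_sub_cancel_left]; exact ha)
  rw [add_sub_cancel_left] at this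
  have he : g (p + a) - g p = φ (p + a) - φ p - inner ℝ n a := by
    simp only [hg, inner_add_right]; ring
  rw [he] at this
  exact this

theorem Ph_anti {f : ℝ → ℝ} (hf : Antitone f) {a b : ℝ} (h : a ≤ b) : Ph f b ≤ Ph f a := by
  unfold Ph
  refine lintegral_mono fun r => ?_
  gcongr
  exact hf (by linarith)

theorem good_mono {φ : E3 → ℝ} {B : Set E3} {s δ δ' L0 : ℝ} (h : Good φ B s δ L0)
    (hd : δ ≤ δ') : Good φ B s δ' L0 where
  c2 := h.c2
  le_one := h.le_one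
  flat := fun x hx hb => by
    obtain ⟨n, hn, hy⟩ := h.flat x hx hb
    exact ⟨n, hn, fun y hyd => (hy y hyd).trans hd⟩

/-- the product of the angle excess and the length of the interval of levels -/
theorem prod_le {D i0 w δ C ε : ℝ} (hδ : 0 < δ) (hδ1 : δ ≤ 1 / 16) (hC : 0 < C)
    (hε : δ * (4 + 5 * C) ≤ ε) (hD : |D| ≤ 2) (hi : |i0| ≤ |D| + 2 * δ) (hw : |w| ≤ |D| + 4 * δ) :
    (1 / 4 * |i0| + C * (2 * δ)) * |w| ≤ 1 / 4 * D ^ 2 + ε := by
  have h0 := abs_nonneg D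
  have h1 : (1 / 4 * |i0| + C * (2 * δ)) * |w| ≤
      (1 / 4 * (|D| + 2 * δ) + C * (2 * δ)) * (|D| + 4 * δ) := by
    gcongr
  have h2 : D ^ 2 = |D| ^ 2 := (sq_abs D).symm
  have h3 : δ * |D| ≤ δ * 2 := by gcongr
  have h4 : C * δ * |D| ≤ C * δ * 2 := by gcongr
  have h5 : δ * δ ≤ δ * (1 / 16) := by gcongr
  have h6 : C * δ * δ ≤ C * δ * (1 / 16) := by gcongr
  nlinarith

/-- the estimate away from the bad zone -/
theorem far_bound {φ : E3 → ℝ} (h2 : ContDiff ℝ 2 φ) (h1 : ∀ x, ‖gradient φ x‖ ≤ 1)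
    {n p a : E3} {δ C ε : ℝ} (hδ : 0 < δ) (hδ16 : δ ≤ 1 / 16) (hC : 0 < C)
    (hδε : δ * (4 + 5 * C) ≤ ε) (hn10 : ∀ y, dist y p ≤ 10 → ‖gradient φ y - n‖ ≤ δ)
    (ha3 : ‖a‖ ≤ 2) {θ : ℝ} {m : ℕ} {L : ℕ → ℝ}
    (hexc : max (θ - 2 * π) 0 ≤ (1 / 4 * |inner ℝ n a| + C * (2 * δ)) *
      ∑ k ∈ Finset.range m, L k ^ 2) :
    ENNReal.ofReal (max (θ - 2 * π) 0) * ENNReal.ofReal |φ (p + a) - φ p| ≤
      ∑ k ∈ Finset.range m, ENNReal.ofReal ((1 / 4 * (fderiv ℝ φ p a) ^ 2 + ε) * L k ^ 2) := by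
  have hε : 0 < ε := lt_of_lt_of_le (by positivity) hδε
  rw [← ENNReal.ofReal_mul (le_max_right _ _), ← ENNReal.ofReal_sum_of_nonneg
    (fun k _ => by positivity)]
  apply ENNReal.ofReal_le_ofReal
  have ha0 := norm_nonneg a
  set D := fderiv ℝ φ p a with hD
  have hgp : ‖gradient φ p - n‖ ≤ δ := hn10 p (by simp)
  have hD2 : |D| ≤ 2 := by
    rw [hD, fderiv_eq]
    refine (abs_real_inner_le_norm _ _).trans ?_
    have := h1 p
    have := norm_nonneg (gradient φ p)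
    nlinarith
  have hi : |inner ℝ n a| ≤ |D| + 2 * δ := by
    have h1 : inner ℝ n a = D - inner ℝ (gradient φ p - n) a := by
      rw [inner_sub_left, hD, fderiv_eq]; ring
    have h2 : |inner ℝ (gradient φ p - n) a| ≤ δ * 2 :=
      (abs_real_inner_le_norm _ _).trans (by gcongr)
    rw [h1]
    have := abs_sub D (inner ℝ (gradient φ p - n) a)
    linarith
  have hw : |φ (p + a) - φ p| ≤ |D| + 4 * δ := by
    have h1 := mv h2 (R := 10) hn10 a (by linarith)
    have h2 : δ * ‖a‖ ≤ δ * 2 := by gcongr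
    have h3 := abs_sub_abs_le_abs_sub (φ (p + a) - φ p) (inner ℝ n a)
    linarith
  have hprod := prod_le hδ hδ16 hC hδε hD2 hi hw
  have hS : 0 ≤ ∑ k ∈ Finset.range m, L k ^ 2 := Finset.sum_nonneg fun k _ => sq_nonneg _
  calc max (θ - 2 * π) 0 * |φ (p + a) - φ p|
      ≤ ((1 / 4 * |inner ℝ n a| + C * (2 * δ)) *
        ∑ k ∈ Finset.range m, L k ^ 2) * |φ (p + a) - φ p| := by
        gcongr
    _ = ((1 / 4 * |inner ℝ n a| + C * (2 * δ)) * |φ (p + a) - φ p|) *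
        ∑ k ∈ Finset.range m, L k ^ 2 := by ring
    _ ≤ (1 / 4 * D ^ 2 + ε) * ∑ k ∈ Finset.range m, L k ^ 2 := by
        gcongr
    _ = ∑ k ∈ Finset.range m, (1 / 4 * D ^ 2 + ε) * L k ^ 2 := by
        rw [Finset.mul_sum]

/-- the weights -/
theorem weight_bound {G : E3 → ℝ} {ε R0 : ℝ} (hε : 0 < ε) (hR : 1 ≤ R0)
    (hGw : Gwt G (ε / R0)) {v p : E3} (hvp : dist v p ≤ 7 / 4) :
    ENNReal.ofReal (Real.exp (2 * ε) * G v ^ 2) ≤
      ENNReal.ofReal (Real.exp (8 * ε) * G p ^ 2) := by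
  apply ENNReal.ofReal_le_ofReal
  have hR0 : 0 < R0 := by linarith
  have h1 := hGw.lip v p
  have h2 := hGw.pos v
  have h3 := hGw.pos p
  have h4 : ε / R0 * dist v p ≤ 3 * ε := by
    have h5 : ε / R0 ≤ ε := div_le_self hε.le hR
    have h6 : 0 ≤ ε / R0 := by positivity
    have h7 : ε / R0 * dist v p ≤ ε * (7 / 4) := by gcongr
    linarith
  have h5 : G v ≤ Real.exp (3 * ε) * G p := h1.trans (by gcongr)
  have h6 : G v ^ 2 ≤ (Real.exp (3 * ε) * G p) ^ 2 := by gcongr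
  calc Real.exp (2 * ε) * G v ^ 2 ≤ Real.exp (2 * ε) * (Real.exp (3 * ε) * G p) ^ 2 := by
        gcongr
    _ = Real.exp (8 * ε) * G p ^ 2 := by
      rw [mul_pow, ← Real.exp_nat_mul, ← mul_assoc, ← Real.exp_add]
      congr 2; push_cast; ring

/-- the angle is at most `6 π` -/
theorem beta_bound {S : Surf} {Z : Set E3} {v : E3} {m : ℕ} (hm : m ≤ 6) {x : ℕ → ℝ}
    (hx : ∀ k, x k ≤ π) (hθ : S.θ v = ∑ k ∈ Finset.range m, x k) {w : ℝ} (hw : w ≤ 7 / 4) :
    ENNReal.ofReal (S.β Z v) * ENNReal.ofReal w ≤ 40 := by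
  have hpi := Real.pi_pos
  have hθ6 : S.θ v ≤ 6 * π := by
    rw [hθ]
    calc _ ≤ ∑ k ∈ Finset.range m, π := Finset.sum_le_sum fun k _ => hx k
      _ = (m : ℝ) * π := by rw [Finset.sum_const, Finset.card_range, nsmul_eq_mul]
      _ ≤ 6 * π := by
        have : (m : ℝ) ≤ 6 := by exact_mod_cast hm
        gcongr
  have hβ6 : S.β Z v ≤ 6 * π := by
    unfold Surf.β
    split_ifs
    · exact hθ6
    · exact max_le (by linarith) (by linarith)
  have hβ0 : 0 ≤ 6 * π := by positivity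
  calc _ ≤ ENNReal.ofReal (6 * π) * ENNReal.ofReal (7 / 4) := by gcongr
    _ = ENNReal.ofReal (6 * π * (7 / 4)) := (ENNReal.ofReal_mul hβ0).symm
    _ ≤ ENNReal.ofReal 40 := by
      apply ENNReal.ofReal_le_ofReal
      nlinarith [Real.pi_lt_d2]
    _ = 40 := by norm_num

end PXB

open PXB

theorem PXPB : StPXPB := by
  rintro hPX2 ⟨C, hC, hEXC⟩ hGRD ε hε hε1 s hs
  obtain ⟨δ2, hδ2, H2⟩ := hPX2 ε hε s hs
  set δ : ℝ := min δ2 (min (1 / 16) (ε / (4 + 5 * C))) with hδdef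
  have hCpos : 0 < 4 + 5 * C := by linarith
  have hδ : 0 < δ := by
    refine lt_min hδ2 (lt_min (by norm_num) (by positivity))
  have hδ16 : δ ≤ 1 / 16 := (min_le_right _ _).trans (min_le_left _ _)
  have hδε : δ * (4 + 5 * C) ≤ ε := by
    have : δ ≤ ε / (4 + 5 * C) := (min_le_right _ _).trans (min_le_right _ _)
    rwa [le_div_iff₀ hCpos] at this
  refine ⟨δ, hδ, ?_⟩
  intro L0 hL0 φ B hG W f R0 G hW hf hGw c hc hgen S e hSF hSV hθ q τ t ht0 ht1 htc v hv hfin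
  have hX := H2 L0 hL0 φ B (good_mono hG (min_le_left _ _)) c hc hgen S e hSF hSV
  set Z := Zon B L0 with hZ
  set p := pt q with hp
  set a := pt (evec τ) with ha
  have hwq : wv φ q = φ p := rfl
  have hwe : wv φ (q + evec τ) = φ (p + a) := by rw [wv, pt_add]
  have hlip := lip hG.c2 hG.le_one
  have ha2 : ‖a‖ ≤ 7 / 4 := norm_evec_le τ
  have ha3 : ‖a‖ ≤ 2 := ha2.trans (by norm_num)
  have ha0 := norm_nonneg a
  have hvp : dist v p ≤ 7 / 4 := by
    rw [hv, dist_eq_norm, add_sub_cancel_left, norm_smul, Real.norm_of_nonneg ht0.le]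
    nlinarith
  have hdw : |φ (p + a) - φ p| ≤ 7 / 4 := by
    refine (hlip _ _).trans ?_
    rw [dist_eq_norm, add_sub_cancel_left]; exact ha2
  rw [hwq, hwe] at htc
  have hpc : |c - φ p| ≤ 7 / 4 := by
    have h1 : c - φ p = t * (φ (p + a) - φ p) := by rw [← htc]; ring
    rw [h1, abs_mul, abs_of_pos ht0]
    have := abs_nonneg (φ (p + a) - φ p)
    nlinarith
  have hps : |φ p| ≤ s + 8 := by
    have h1 := abs_sub_abs_le_abs_sub (φ p) c
    rw [abs_sub_comm (φ p) c] at h1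
    linarith
  -- the vertex
  have hvV : v ∈ S.V := by
    rw [hSV]
    exact ⟨q, τ, t, ht0, ht1, hv, by rw [hwq, hwe]; exact htc⟩
  obtain ⟨i0, hi0⟩ := S.V_face v hvV
  have hvF : v ∈ kF (wv φ) c (e i0).1 := by rw [← hSF]; exact hi0
  have hv1 := (hX v (e i0).1 hvF).1
  have hvfin : rho3 φ (s + 8) Z v < ⊤ :=
    lt_of_le_of_lt hv1 (ENNReal.add_lt_top.2 ⟨hfin, ENNReal.ofReal_lt_top⟩)
  have hstep : rho3 φ (s + 8) Z p ≤ rho3 φ (s + 8) Z v + ENNReal.ofReal (dist v p) :=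
    rho3_step hps (hvp.trans (by norm_num))
  have hstep2 : rho3 φ (s + 8) Z p ≤ rho3 φ (s + 8) Z v + ENNReal.ofReal 2 :=
    hstep.trans (by gcongr; linarith)
  have hpfin : rho3 φ (s + 8) Z p < ⊤ :=
    lt_of_le_of_lt hstep2 (ENNReal.add_lt_top.2 ⟨hvfin, ENNReal.ofReal_lt_top⟩)
  have hC1 : 0 ≤ C1 s := by unfold C1; linarith
  set r := (S.rho (Src φ B s L0 c) v).toReal with hr
  have hr0 : 0 ≤ r := ENNReal.toReal_nonneg
  have hrr : S.rho (Src φ B s L0 c) v = ENNReal.ofReal r := (ENNReal.ofReal_toReal hfin.ne).symm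
  have hpr : (rho3 φ (s + 8) Z p).toReal ≤ r + C1 s + 2 := by
    apply ENNReal.toReal_le_of_le_ofReal (by linarith)
    calc rho3 φ (s + 8) Z p ≤ rho3 φ (s + 8) Z v + ENNReal.ofReal 2 := hstep2
      _ ≤ S.rho (Src φ B s L0 c) v + ENNReal.ofReal (C1 s) + ENNReal.ofReal 2 := by gcongr
      _ = ENNReal.ofReal (r + C1 s + 2) := by
        rw [hrr, ENNReal.ofReal_add (by linarith) (by norm_num), ENNReal.ofReal_add hr0 hC1]
  have hPh : Ph f r ≤ Ph f (max ((rho3 φ (s + 8) Z p).toReal - C1 s - 2) 0) :=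
    Ph_anti hf.anti (max_le (by linarith) hr0)
  -- the weights
  have hW2 : ENNReal.ofReal (W 2 c) ≤ ENNReal.ofReal (W 5 (φ p)) :=
    ENNReal.ofReal_le_ofReal (hW.mono 2 5 c (φ p) (by linarith))
  have hGv' := weight_bound hε hf.one_le hGw hvp
  -- the angle
  have hθv := hθ q τ t ht0 ht1 (by rw [hwq, hwe]; exact htc)
  rw [← ha, ← hp, ← hv] at hθv
  have h40 : ENNReal.ofReal (S.β (Src φ B s L0 c) v) * ENNReal.ofReal |φ (p + a) - φ p| ≤ 40 :=
    beta_bound (mm_le τ) (fun k => InnerProductGeometry.angle_le_pi _ _) hθv hdw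
  -- the main bound for the angle
  have hmain : ENNReal.ofReal (S.β (Src φ B s L0 c) v) * ENNReal.ofReal |φ (p + a) - φ p| ≤
      (if rho3 φ (s + 8) Z p ≤ ENNReal.ofReal (C1 s + 2) then 40
      else ∑ k ∈ Finset.range (mm τ),
        ENNReal.ofReal ((1 / 4 * (fderiv ℝ φ p a) ^ 2 + ε) * lam φ p τ (k + 1) ^ 2)) := by
    split_ifs with hnear
    · exact h40
    have hvS : v ∉ Src φ B s L0 c := by
      intro hvS
      apply hnear
      calc rho3 φ (s + 8) Z p ≤ rho3 φ (s + 8) Z v + ENNReal.ofReal 2 := hstep2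
        _ ≤ ENNReal.ofReal (C1 s) + ENNReal.ofReal 2 := by gcongr; exact hvS.2
        _ = ENNReal.ofReal (C1 s + 2) := (ENNReal.ofReal_add hC1 (by norm_num)).symm
    have hpZ : p ∉ Z := by
      intro hpZ
      apply hnear
      rw [rho3_eq_zero hpZ hps]
      exact zero_le
    have hflat : Flat φ δ (50 * (s + 10)) p := by
      apply hG.flat p (by linarith)
      intro b hb
      by_contra hcon
      apply hpZ
      refine ⟨b, hb, ?_⟩
      have : 0 < L0 := by linarith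
      linarith
    obtain ⟨n, hn, hnear2⟩ := hflat
    have hn10 : ∀ y, dist y p ≤ 10 → ‖gradient φ y - n‖ ≤ δ :=
      fun y hy => hnear2 y (hy.trans (by linarith))
    have hgrad := hGRD φ n p δ hG.c2 hδ.le hn10
    have hne : wv φ (q + evec τ) ≠ wv φ q := by
      intro h
      apply hgen q
      rw [hwq, hwe] at h
      rw [hwq, ← htc, h]; ring
    have hexc := hEXC (wv φ) q τ n (2 * δ) hne hn (by linarith) (by linarith)
      (fun k => hgrad _ (fun l => dist_vert q τ k l))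
    rw [← hθv] at hexc
    have hβ : S.β (Src φ B s L0 c) v = max (S.θ v - 2 * π) 0 := by
      unfold Surf.β
      rw [if_neg hvS]
    rw [hβ]
    have hfar := far_bound hG.c2 hG.le_one hδ hδ16 hC hδε hn10 ha3
      (m := mm τ) (L := fun k => lamW (wv φ) q τ (k + 1)) hexc
    simpa only [lamW_eq] using hfar
  -- assembly
  rw [hwq, hwe]
  unfold RrT
  rw [if_pos hpfin]
  calc ENNReal.ofReal (W 2 c) * (ENNReal.ofReal (S.β (Src φ B s L0 c) v) *
        (ENNReal.ofReal (Real.exp (2 * ε) * G v ^ 2) * Ph f r)) *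
          ENNReal.ofReal |φ (p + a) - φ p|
      = ENNReal.ofReal (W 2 c) * Ph f r * ENNReal.ofReal (Real.exp (2 * ε) * G v ^ 2) *
        (ENNReal.ofReal (S.β (Src φ B s L0 c) v) * ENNReal.ofReal |φ (p + a) - φ p|) := by
        ring
    _ ≤ _ := by
        gcongr

end Vale.Agent.P134.PX
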