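import Vale.Agent.P134.PX.PXPDefs

/-! # P134 / PX : the gradient of the interpolation is close to the gradient of `φ` -/

open MeasureTheory Set
open scoped ENNReal RealInnerProductSpace Real

namespace Vale.Agent.P134.PX

open PS hiding Lat

theorem vert_step (i : KI) (j : Fin 3) :
    vert i (Fin.ofNat 4 (rk i.2 j + 1)) =
      vert i (Fin.ofNat 4 (rk i.2 j)) + Pi.single j 1 := by
  obtain ⟨z, s⟩ := i
  have h : ∀ (s : Fin 6) (j l : Fin 3),
      (if rk s l < ((Fin.ofNat 4 (rk s j + 1) : Fin 4) : ℕ) then (1 : ℤ) else 0) =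
        (if rk s l < ((Fin.ofNat 4 (rk s j) : Fin 4) : ℕ) then (1 : ℤ) else 0) +
          (Pi.single j (1 : ℤ) : Fin 3 → ℤ) l := by
    decide
  funext l
  have := h s j l
  simp only [vert, Pi.add_apply]
  rw [this]; ring

theorem pt_add_single (q : PS.Lat) (j : Fin 3) :
    pt (q + Pi.single j 1) - pt q = EuclideanSpace.single j (1 : ℝ) := by
  ext l
  simp only [pt, PiLp.sub_apply, Pi.add_apply, Int.cast_add, add_sub_cancel_left,
    PiLp.single_apply, Pi.single_apply]
  split_ifs <;> simp

theorem norm_fderiv_sub (φ : E3 → ℝ) (n y : E3) :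
    ‖fderiv ℝ φ y - innerSL ℝ n‖ = ‖gradient φ y - n‖ := by
  have h : fderiv ℝ φ y - innerSL ℝ n = (InnerProductSpace.toDual ℝ E3) (gradient φ y - n) := by
    rw [map_sub]
    simp [gradient]
    rfl
  rw [h, LinearIsometryEquiv.norm_map]

theorem GRD : StGRD := by
  intro φ n p e hφ he hg i hk
  have key : ∀ j, |(grad (wv φ) i - n) j| ≤ e := by
    intro j
    set a := vert i (Fin.ofNat 4 (rk i.2 j)) with ha
    have hb : vert i (Fin.ofNat 4 (rk i.2 j + 1)) = a + Pi.single j 1 := vert_step i j
    have h1 := Convex.norm_image_sub_le_of_norm_fderiv_le' (𝕜 := ℝ) (f := φ)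
      (s := Metric.closedBall p 10) (φ := innerSL ℝ n) (C := e) (x := pt a)
      (y := pt (a + Pi.single j 1))
      (fun x _ => (hφ.differentiable (by norm_num)).differentiableAt)
      (fun x hx => by rw [norm_fderiv_sub]; exact hg x (Metric.mem_closedBall.1 hx))
      (convex_closedBall p 10)
      (Metric.mem_closedBall.2 ((hk _).trans (by norm_num)))
      (Metric.mem_closedBall.2 (by rw [← hb]; exact (hk _).trans (by norm_num)))
    rw [pt_add_single] at h1
    have h2 : (grad (wv φ) i - n) j = φ (pt (a + Pi.single j 1)) - φ (pt a) -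
        (innerSL ℝ n) (EuclideanSpace.single j (1 : ℝ)) := by
      simp only [grad, wv, PiLp.sub_apply]
      rw [hb]
      simp [EuclideanSpace.inner_single_right]
      rfl
    rw [h2]
    simpa using h1
  have hs : ‖grad (wv φ) i - n‖ ^ 2 ≤ (2 * e) ^ 2 := by
    rw [EuclideanSpace.real_norm_sq_eq, Fin.sum_univ_three]
    have h0 := sq_le_sq' (neg_le_of_abs_le (key 0)) (le_of_abs_le (key 0))
    have h1 := sq_le_sq' (neg_le_of_abs_le (key 1)) (le_of_abs_le (key 1))
    have h2 := sq_le_sq' (neg_le_of_abs_le (key 2)) (le_of_abs_le (key 2))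
    nlinarith [sq_nonneg e]
  exact le_of_sq_le_sq hs (by positivity)

end Vale.Agent.P134.PX
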