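import Vale.Agent.P134.PX.PXPDefs

/-! # P134 / PX : measurability of the integrand on the left -/

open MeasureTheory Set
open scoped ENNReal RealInnerProductSpace Real

namespace Vale.Agent.P134.PX

open PS hiding Lat

theorem MEAS : StMEAS := by
  intro φ B s L0 ε f R0 G l hφ hf hG
  have hr : Measurable (rho3 φ (s + 8) (Zon B L0)) := measurable_rho3 hφ
  have hfm : Measurable f := hf.anti.measurable
  have h1 : Measurable fun x : E3 => ENNReal.ofReal
      (f ((1 + ε) * (rho3 φ (s + 8) (Zon B L0) x).toReal + 4)) :=
    ENNReal.measurable_ofReal.comp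
      (hfm.comp (((hr.ennreal_toReal).const_mul (1 + ε)).add_const 4))
  have h2 : Measurable fun x : E3 => ENNReal.ofReal (G x ^ 2) :=
    ENNReal.measurable_ofReal.comp (hG.cont.measurable.pow_const 2)
  have h3 : Measurable fun x : E3 =>
      if rho3 φ (s + 8) (Zon B L0) x < ⊤ then ENNReal.ofReal
      (f ((1 + ε) * (rho3 φ (s + 8) (Zon B L0) x).toReal + 4)) * ENNReal.ofReal (G x ^ 2)
      else 0 :=
    Measurable.ite (measurableSet_lt hr measurable_const) (h1.mul h2) measurable_const
  exact h3

end Vale.Agent.P134.PX
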