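import Vale.Agent.P134.PX.PXPC
import Vale.Agent.P134.PX.PXPA
import Vale.Agent.P134.PX.PXPB
import Vale.Agent.P134.PX.PXPGRD
import Vale.Agent.P134.PX.PXPMEAS
import Vale.Agent.P134.PX.BlockEXC
import Vale.Agent.P134.PX.BlockF7
import Vale.Agent.P134.PX.BlockX2
import Vale.Agent.P134.PX.PX4
import Vale.Agent.P134.H970.Fiala

/-! # P134 / PX : the polyhedral part, all blocks put together: `StFIALA` is unconditional -/

namespace Vale.Agent.P134.PX

theorem PXP : StPXP := PXP_of PX2 PF.F7 MEAS PXPA PXPB EXCW GRD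

/-- **FIALA3D**, unconditional -/
theorem FIALA : StFIALA := H970.fiala_of (PX4 PXP)

end Vale.Agent.P134.PX
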