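import Vale.Agent.P134.PX.Rho

/-! # P134 / PX : the parts near the bad centres (`StPX4 → StFIALA`) -/

open MeasureTheory Set
open scoped ENNReal RealInnerProductSpace Real

namespace Vale.Agent.P134.PX

open PS hiding Lat

namespace Near

/-- volume of a closed ball of radius `L` -/
noncomputable def vb (L : ℝ) : ℝ := (volume (Metric.closedBall (0 : E3) L)).toReal

theorem vb_nonneg (L : ℝ) : 0 ≤ vb L := ENNReal.toReal_nonneg

theorem vol_closedBall (b : E3) (L : ℝ) :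
    volume (Metric.closedBall b L) = ENNReal.ofReal (vb L) := by
  rw [vb, ENNReal.ofReal_toReal (measure_closedBall_lt_top).ne]
  exact Measure.addHaar_closedBall_center volume b L

/-- points at distance `≤ L` from `B` -/
def Nb (B : Set E3) (L : ℝ) : Set E3 := {x | ∃ b ∈ B, dist x b ≤ L}

theorem sq_le {G : E3 → ℝ} {l : ℝ} (hG : Gwt G l) (hl : l ≤ 1) {L : ℝ} {x y : E3}
    (h : dist x y ≤ L) : G x ^ 2 ≤ Real.exp (2 * L) * G y ^ 2 := by
  have h1 : G x ≤ Real.exp L * G y := by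
    refine (hG.lip x y).trans ?_
    have := (hG.pos y).le
    gcongr
    calc l * dist x y ≤ 1 * dist x y := by gcongr
      _ ≤ L := by linarith
  have h2 : G x ^ 2 ≤ (Real.exp L * G y) ^ 2 := by
    have := (hG.pos x).le
    gcongr
  calc G x ^ 2 ≤ (Real.exp L * G y) ^ 2 := h2
    _ = Real.exp (2 * L) * G y ^ 2 := by
      rw [mul_pow, two_mul, Real.exp_add]; ring

/-- the weight near the bad centres -/
theorem lint_near {G : E3 → ℝ} {l : ℝ} (hG : Gwt G l) (hl : l ≤ 1) {L : ℝ} {B : Set E3}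
    (hB : B.Countable) : ∫⁻ x in Nb B L, ENNReal.ofReal (G x ^ 2) ≤
      ENNReal.ofReal (Real.exp (2 * L) * vb L) * ∑' b : B, ENNReal.ofReal (G b ^ 2) := by
  have : Countable B := hB.to_subtype
  have hN : Nb B L = ⋃ b : B, Metric.closedBall (b : E3) L := by
    ext x
    simp [Nb]
  rw [hN]
  refine (lintegral_iUnion_le _ _).trans ?_
  rw [← ENNReal.tsum_mul_left]
  refine ENNReal.tsum_le_tsum fun b => ?_
  calc ∫⁻ x in Metric.closedBall (b : E3) L, ENNReal.ofReal (G x ^ 2)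
      ≤ ∫⁻ _ in Metric.closedBall (b : E3) L,
          ENNReal.ofReal (Real.exp (2 * L)) * ENNReal.ofReal (G b ^ 2) := by
        refine setLIntegral_mono measurable_const fun x hx => ?_
        rw [← ENNReal.ofReal_mul (Real.exp_pos _).le]
        exact ENNReal.ofReal_le_ofReal (sq_le hG hl (by simpa using hx))
    _ = ENNReal.ofReal (Real.exp (2 * L) * vb L) * ENNReal.ofReal (G b ^ 2) := by
        rw [setLIntegral_const, vol_closedBall, ENNReal.ofReal_mul (Real.exp_pos _).le]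
        ring

theorem tsum_eq_top {G : E3 → ℝ} {l : ℝ} (hG : Gwt G l) {B : Set E3} (hB : ¬ B.Countable) :
    ∑' b : B, ENNReal.ofReal (G b ^ 2) = ⊤ := by
  by_contra h
  have h1 := Summable.countable_support_ennreal h
  apply hB
  have h2 : Function.support (fun b : B => ENNReal.ofReal (G b ^ 2)) = univ := by
    ext b
    simp only [Function.mem_support, mem_univ, iff_true, ne_eq, ENNReal.ofReal_eq_zero, not_le]
    exact pow_pos (hG.pos _) 2
  rw [h2, countable_univ_iff] at h1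
  exact h1.to_set

theorem prf_nonneg {f : ℝ → ℝ} {R0 : ℝ} (hf : Prf f R0) (t : ℝ) : 0 ≤ f t := by
  rw [← hf.zero (max t R0) (le_max_right _ _)]
  exact hf.anti (le_max_left _ _)

theorem Ph_anti {f : ℝ → ℝ} {R0 : ℝ} (hf : Prf f R0) {t t' : ℝ} (h : t ≤ t') :
    Ph f t' ≤ Ph f t := by
  refine lintegral_mono fun r => ?_
  have h1 : f (t' + r) ≤ f (t + r) := hf.anti (by linarith)
  exact mul_le_mul_left (ENNReal.ofReal_le_ofReal h1) _

theorem half : ∫⁻ r in Ioc (0 : ℝ) 1, ENNReal.ofReal r = ENNReal.ofReal (1 / 2) := by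
  rw [← ofReal_integral_eq_lintegral_ofReal]
  · congr 1
    rw [← intervalIntegral.integral_of_le zero_le_one, integral_id]
    norm_num
  · exact (continuous_id.integrableOn_Icc).mono_set Ioc_subset_Icc_self
  · rw [Filter.EventuallyLE, ae_restrict_iff' measurableSet_Ioc]
    exact Filter.Eventually.of_forall fun r hr => hr.1.le

theorem le_Ph {f : ℝ → ℝ} {R0 : ℝ} (hf : Prf f R0) : ENNReal.ofReal (f 1) ≤ 2 * Ph f 0 := by
  have h1 : ENNReal.ofReal (f 1) * ENNReal.ofReal (1 / 2) ≤ Ph f 0 := by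
    calc ENNReal.ofReal (f 1) * ENNReal.ofReal (1 / 2)
        = ∫⁻ r in Ioc (0 : ℝ) 1, ENNReal.ofReal (f 1) * ENNReal.ofReal r := by
          rw [← half, lintegral_const_mul _ ENNReal.measurable_ofReal]
      _ ≤ ∫⁻ r in Ioc (0 : ℝ) 1, ENNReal.ofReal (f (0 + r)) * ENNReal.ofReal r := by
          refine setLIntegral_mono' measurableSet_Ioc fun r hr => ?_
          have h1 : f 1 ≤ f (0 + r) := hf.anti (by linarith [hr.2])
          exact mul_le_mul_left (ENNReal.ofReal_le_ofReal h1) _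
      _ ≤ Ph f 0 := lintegral_mono_set Ioc_subset_Ioi_self
  calc ENNReal.ofReal (f 1) = 2 * (ENNReal.ofReal (f 1) * ENNReal.ofReal (1 / 2)) := by
        rw [mul_left_comm, ← ENNReal.ofReal_ofNat, ← ENNReal.ofReal_mul (by norm_num)]
        norm_num
    _ ≤ 2 * Ph f 0 := by gcongr

/-- chain distance bounds the euclidean distance -/
theorem dist_le_of_rho3 {φ : E3 → ℝ} {S : ℝ} {Z : Set E3} {x : E3} {a : ℝ}
    (h : rho3 φ S Z x < ENNReal.ofReal a) : ∃ z ∈ Z, dist x z ≤ a := by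
  obtain ⟨n, p, hp, hl⟩ := exists_of_rho3_lt h
  refine ⟨p 0, hp.1, ?_⟩
  have h1 : dist (p 0) (p n) ≤ Surf.len n p := dist_le_range_sum_dist p n
  rw [hp.2.1] at h1
  have h2 := (ENNReal.ofReal_lt_ofReal_iff_of_nonneg (len_nonneg n p)).1 hl
  rw [dist_comm]
  linarith

theorem Psi3_le {φ : E3 → ℝ} {B : Set E3} {s L0 ε : ℝ} {f : ℝ → ℝ} {R0 : ℝ} {G : E3 → ℝ}
    (hf : Prf f R0) (hε : 0 ≤ ε) (x : E3) :
    Psi3 φ B s L0 ε f G x ≤ ENNReal.ofReal (f 1) * ENNReal.ofReal (G x ^ 2) := by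
  rw [Psi3]
  split_ifs
  · have h1 : f ((1 + ε) * (rho3 φ (s + 8) (Zon B L0) x).toReal + 4) ≤ f 1 := by
      apply hf.anti
      have : 0 ≤ (rho3 φ (s + 8) (Zon B L0) x).toReal := ENNReal.toReal_nonneg
      nlinarith
    exact mul_le_mul_left (ENNReal.ofReal_le_ofReal h1) _
  · exact bot_le

end Near

open Near in
/-- the part of the left side in the bad zone -/
theorem near1 (s L0 : ℝ) (hs : 0 ≤ s) : ∃ C : ℝ, 0 < C ∧ ∀ (φ : E3 → ℝ) (B : Set E3),
    (∀ x, ‖gradient φ x‖ ≤ 1) → ∀ ε : ℝ, 0 ≤ ε →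
    ∀ (W : ℝ → ℝ → ℝ) (f : ℝ → ℝ) (R0 : ℝ) (G : E3 → ℝ) (l : ℝ), Wt s W → Prf f R0 → Gwt G l →
    l ≤ 1 →
    ∫⁻ x in Zon B L0, ENNReal.ofReal (W 0 (φ x) * ‖gradient φ x‖) * Psi3 φ B s L0 ε f G x ≤
      ENNReal.ofReal C * Ph f 0 * ∑' b : B, ENNReal.ofReal (G b ^ 2) := by
  have hv := vb_nonneg (2 * L0)
  refine ⟨2 * s * (Real.exp (2 * (2 * L0)) * vb (2 * L0)) + 1, by positivity, ?_⟩
  intro φ B hφ ε hε W f R0 G l hW hf hG hl
  have hGm : Measurable fun x => ENNReal.ofReal (G x ^ 2) :=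
    ENNReal.measurable_ofReal.comp (hG.cont.pow 2).measurable
  have h1 : ∫⁻ x in Zon B L0, ENNReal.ofReal (W 0 (φ x) * ‖gradient φ x‖) *
      Psi3 φ B s L0 ε f G x ≤
      (ENNReal.ofReal s * ENNReal.ofReal (f 1)) * ∫⁻ x in Zon B L0, ENNReal.ofReal (G x ^ 2) := by
    rw [← lintegral_const_mul _ hGm]
    refine lintegral_mono fun x => ?_
    have h2 : W 0 (φ x) * ‖gradient φ x‖ ≤ s := by
      have a1 := hW.bdd 0 (φ x) le_rfl
      have a2 := hW.nonneg 0 (φ x)
      have a3 := hφ x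
      have a4 := norm_nonneg (gradient φ x)
      nlinarith
    calc ENNReal.ofReal (W 0 (φ x) * ‖gradient φ x‖) * Psi3 φ B s L0 ε f G x
        ≤ ENNReal.ofReal s * (ENNReal.ofReal (f 1) * ENNReal.ofReal (G x ^ 2)) :=
          mul_le_mul' (ENNReal.ofReal_le_ofReal h2) (Psi3_le hf hε x)
      _ = ENNReal.ofReal s * ENNReal.ofReal (f 1) * ENNReal.ofReal (G x ^ 2) := by ring
  refine h1.trans ?_
  by_cases h0 : Ph f 0 = 0
  · have : ENNReal.ofReal (f 1) = 0 := by
      have := le_Ph hf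
      rw [h0, mul_zero] at this
      exact le_antisymm this bot_le
    rw [this]
    simp
  by_cases hB : B.Countable
  · have h3 := lint_near hG hl (L := 2 * L0) hB
    calc ENNReal.ofReal s * ENNReal.ofReal (f 1) * ∫⁻ x in Zon B L0, ENNReal.ofReal (G x ^ 2)
        ≤ ENNReal.ofReal s * (2 * Ph f 0) *
          (ENNReal.ofReal (Real.exp (2 * (2 * L0)) * vb (2 * L0)) *
            ∑' b : B, ENNReal.ofReal (G b ^ 2)) := by
          have h4 := le_Ph hf
          gcongr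
          exact h3
      _ = ENNReal.ofReal (2 * s * (Real.exp (2 * (2 * L0)) * vb (2 * L0))) * Ph f 0 *
            ∑' b : B, ENNReal.ofReal (G b ^ 2) := by
          rw [mul_assoc 2 s, ENNReal.ofReal_mul (by norm_num : (0:ℝ) ≤ 2), ENNReal.ofReal_mul hs]
          simp only [ENNReal.ofReal_ofNat]
          ring
      _ ≤ _ := by
          gcongr
          linarith
  · rw [tsum_eq_top hG hB, ENNReal.mul_top]
    · exact le_top
    · refine mul_ne_zero ?_ h0
      rw [Ne, ENNReal.ofReal_eq_zero, not_le]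
      positivity

open Near in
/-- the source part of the right side -/
theorem near2 (s L0 : ℝ) (hs : 0 ≤ s) : ∃ C : ℝ, 0 < C ∧ ∀ (φ : E3 → ℝ) (B : Set E3),
    ∀ ε : ℝ, ε ≤ 1 →
    ∀ (W : ℝ → ℝ → ℝ) (f : ℝ → ℝ) (R0 : ℝ) (G : E3 → ℝ) (l : ℝ), Wt s W → Prf f R0 → Gwt G l →
    l ≤ 1 →
    ∫⁻ p in {p | rho3 φ (s + 8) (Zon B L0) p ≤ ENNReal.ofReal (C1 s + 2)},
        Rr φ B s L0 ε W f G p ≤
      ENNReal.ofReal C * Ph f 0 * ∑' b : B, ENNReal.ofReal (G b ^ 2) := by
  set L : ℝ := 2 * L0 + (C1 s + 3) with hL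
  have hv := vb_nonneg L
  refine ⟨300 * Real.exp 8 * (s + 5) * (Real.exp (2 * L) * vb L) + 1, by positivity, ?_⟩
  intro φ B ε hε W f R0 G l hW hf hG hl
  have hGm : Measurable fun x => ENNReal.ofReal (G x ^ 2) :=
    ENNReal.measurable_ofReal.comp (hG.cont.pow 2).measurable
  have hsub : {p | rho3 φ (s + 8) (Zon B L0) p ≤ ENNReal.ofReal (C1 s + 2)} ⊆ Nb B L := by
    intro p hp
    have h1 : rho3 φ (s + 8) (Zon B L0) p < ENNReal.ofReal (C1 s + 3) := by
      refine lt_of_le_of_lt hp ?_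
      rw [ENNReal.ofReal_lt_ofReal_iff (by unfold C1; linarith)]
      linarith
    obtain ⟨z, ⟨b, hb, hz⟩, h2⟩ := dist_le_of_rho3 h1
    refine ⟨b, hb, ?_⟩
    have := dist_triangle p z b
    rw [hL]
    linarith
  have hle : ∀ p ∈ {p | rho3 φ (s + 8) (Zon B L0) p ≤ ENNReal.ofReal (C1 s + 2)},
      Rr φ B s L0 ε W f G p ≤ (ENNReal.ofReal (s + 5) * Ph f 0 * ENNReal.ofReal (Real.exp 8) *
        300) * ENNReal.ofReal (G p ^ 2) := by
    intro p hp
    have hp' : rho3 φ (s + 8) (Zon B L0) p ≤ ENNReal.ofReal (C1 s + 2) := hp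
    have hlt : rho3 φ (s + 8) (Zon B L0) p < ⊤ := lt_of_le_of_lt hp' ENNReal.ofReal_lt_top
    rw [Rr, if_pos hlt, if_pos hp']
    have e1 : ENNReal.ofReal (W 5 (φ p)) ≤ ENNReal.ofReal (s + 5) :=
      ENNReal.ofReal_le_ofReal (hW.bdd 5 (φ p) (by norm_num))
    have e2 : Ph f (max ((rho3 φ (s + 8) (Zon B L0) p).toReal - C1 s - 2) 0) ≤ Ph f 0 :=
      Ph_anti hf (le_max_right _ _)
    have e3 : ENNReal.ofReal (Real.exp (8 * ε) * G p ^ 2) ≤
        ENNReal.ofReal (Real.exp 8) * ENNReal.ofReal (G p ^ 2) := by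
      rw [← ENNReal.ofReal_mul (Real.exp_pos _).le]
      apply ENNReal.ofReal_le_ofReal
      gcongr
      linarith
    calc ENNReal.ofReal (W 5 (φ p)) *
          Ph f (max ((rho3 φ (s + 8) (Zon B L0) p).toReal - C1 s - 2) 0) *
          ENNReal.ofReal (Real.exp (8 * ε) * G p ^ 2) * 300
        ≤ ENNReal.ofReal (s + 5) * Ph f 0 *
          (ENNReal.ofReal (Real.exp 8) * ENNReal.ofReal (G p ^ 2)) * 300 := by
          gcongr
      _ = _ := by ring
  have h1 : ∫⁻ p in {p | rho3 φ (s + 8) (Zon B L0) p ≤ ENNReal.ofReal (C1 s + 2)},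
      Rr φ B s L0 ε W f G p ≤
      (ENNReal.ofReal (s + 5) * Ph f 0 * ENNReal.ofReal (Real.exp 8) * 300) *
        ∫⁻ x in Nb B L, ENNReal.ofReal (G x ^ 2) := by
    rw [← lintegral_const_mul _ hGm]
    exact (setLIntegral_mono (hGm.const_mul _) hle).trans (lintegral_mono_set hsub)
  refine h1.trans ?_
  by_cases h0 : Ph f 0 = 0
  · rw [h0]
    simp
  by_cases hB : B.Countable
  · have h3 := lint_near hG hl (L := L) hB
    calc ENNReal.ofReal (s + 5) * Ph f 0 * ENNReal.ofReal (Real.exp 8) * 300 *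
          ∫⁻ x in Nb B L, ENNReal.ofReal (G x ^ 2)
        ≤ ENNReal.ofReal (s + 5) * Ph f 0 * ENNReal.ofReal (Real.exp 8) * 300 *
          (ENNReal.ofReal (Real.exp (2 * L) * vb L) *
            ∑' b : B, ENNReal.ofReal (G b ^ 2)) := by
          gcongr
      _ = ENNReal.ofReal (300 * Real.exp 8 * (s + 5) * (Real.exp (2 * L) * vb L)) * Ph f 0 *
            ∑' b : B, ENNReal.ofReal (G b ^ 2) := by
          rw [ENNReal.ofReal_mul (by positivity : (0:ℝ) ≤ 300 * Real.exp 8 * (s + 5)),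
            ENNReal.ofReal_mul (by positivity : (0:ℝ) ≤ 300 * Real.exp 8),
            ENNReal.ofReal_mul (by norm_num : (0:ℝ) ≤ 300)]
          simp only [ENNReal.ofReal_ofNat]
          ring
      _ ≤ _ := by
          gcongr
          linarith
  · rw [tsum_eq_top hG hB, ENNReal.mul_top]
    · exact le_top
    · refine mul_ne_zero ?_ h0
      rw [Ne, ENNReal.ofReal_eq_zero, not_le]
      positivity

end Vale.Agent.P134.PX
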