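import Vale.Agent.P134.PX.PXPDefs
import Vale.Agent.P134.PS.P2

/-! # P134 / PX : assembly of `StPXP` -/

open MeasureTheory Set
open scoped ENNReal RealInnerProductSpace Real

namespace Vale.Agent.P134.PX

open PS hiding Lat

theorem Flat.mono {φ : E3 → ℝ} {δ δ' L : ℝ} {x : E3} (h : Flat φ δ L x) (hd : δ ≤ δ') :
    Flat φ δ' L x := by
  obtain ⟨n, hn, h⟩ := h
  exact ⟨n, hn, fun y hy => (h y hy).trans hd⟩

theorem Good.mono {φ : E3 → ℝ} {B : Set E3} {s δ δ' L0 : ℝ} (h : Good φ B s δ L0)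
    (hd : δ ≤ δ') : Good φ B s δ' L0 :=
  ⟨h.c2, h.le_one, fun x hx hb => (h.flat x hx hb).mono hd⟩

/-- superadditivity of the lower integral -/
theorem tsum_lintegral_le {α ι : Type*} [MeasurableSpace α] {μ : Measure α}
    (g : ι → α → ℝ≥0∞) : ∑' i, ∫⁻ a, g i a ∂μ ≤ ∫⁻ a, ∑' i, g i a ∂μ := by
  rw [ENNReal.tsum_eq_iSup_sum]
  refine iSup_le fun s => ?_
  have h : ∑ i ∈ s, ∫⁻ a, g i a ∂μ ≤ ∫⁻ a, ∑ i ∈ s, g i a ∂μ := by
    classical
    induction s using Finset.induction_on with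
    | empty => simp
    | insert i s hi ih =>
      simp only [Finset.sum_insert hi]
      exact (add_le_add le_rfl ih).trans (le_lintegral_add _ _)
  exact h.trans (lintegral_mono fun a => ENNReal.sum_le_tsum s)

theorem sum_RrT_le (φ : E3 → ℝ) (B : Set E3) (s L0 ε : ℝ) (W : ℝ → ℝ → ℝ) (f : ℝ → ℝ)
    (G : E3 → ℝ) (p : E3) :
    ∑ τ : Fin 7, RrT φ B s L0 ε W f G p τ ≤ Rr φ B s L0 ε W f G p := by
  unfold RrT Rr
  by_cases h : rho3 φ (s + 8) (Zon B L0) p < ⊤
  · simp only [h, if_true]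
    rw [← Finset.mul_sum]
    gcongr
    by_cases h2 : rho3 φ (s + 8) (Zon B L0) p ≤ ENNReal.ofReal (C1 s + 2)
    · simp only [h2, if_true, Finset.sum_const, Finset.card_univ, Fintype.card_fin, nsmul_eq_mul]
      norm_num
    · simp only [h2, if_false]; exact le_rfl
  · simp [h]

/-- assembly -/
theorem PXP_of (hX2 : StPX2) (hF7 : PF.StF7) (hM : StMEAS) (hA : StPXPA) (hB : StPXPB)
    (hE : StEXCW) (hG : StGRD) : StPXP := by
  classical
  intro ε hε hε1 s hs
  obtain ⟨δA, hδA, HA⟩ := hA P2 hX2 ε hε hε1 s hs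
  obtain ⟨δB, hδB, HB⟩ := hB hX2 hE hG ε hε hε1 s hs
  refine ⟨min δA δB, lt_min hδA hδB, ?_⟩
  intro L0 hL0 φ B hGood W f R0 G hW hf hGw
  have gA := hGood.mono (min_le_left δA δB)
  have gB := hGood.mono (min_le_right δA δB)
  set w : PS.Lat → ℝ := wv φ with hw
  choose S e hF hV hθ using fun (c : ℝ) (hc : ∀ q, w q ≠ c) => levelSurf w c hc
  -- the charts
  let ch : KI → ℝ → (E3 →ᵃ[ℝ] ℂ) := fun i c =>
    if h : (∀ q, w q ≠ c) ∧ (kF w c i).Nonempty then
      (S c h.1).ch ((e c h.1).symm ⟨i, h.2⟩) else AffineMap.const ℝ E3 0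
  have hch : ∀ (i : KI) (c : ℝ) (h : (∀ q, w q ≠ c) ∧ (kF w c i).Nonempty),
      ch i c = (S c h.1).ch ((e c h.1).symm ⟨i, h.2⟩) := by
    intro i c h
    simp only [ch, dif_pos h]
  have hFi : ∀ (i : KI) (c : ℝ) (h : (∀ q, w q ≠ c) ∧ (kF w c i).Nonempty),
      (S c h.1).F ((e c h.1).symm ⟨i, h.2⟩) = kF w c i := by
    intro i c h
    rw [hF]; simp
  -- the integrand
  let Q : KI → E3 → ℝ≥0∞ := fun i x =>
    ENNReal.ofReal (W 2 (∑ k, bar i k x * w (vert i k))) * Psi3 φ B s L0 ε f G x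
  have hQm : ∀ i, Measurable (Q i) := by
    intro i
    refine Measurable.mul ?_ (hM φ B s L0 ε f R0 G _ hGood.c2.continuous hf hGw)
    refine ENNReal.measurable_ofReal.comp ((hW.meas 2).comp ?_)
    refine Continuous.measurable ?_
    exact continuous_finsetSum _ fun k _ => (BK1.bar_cont i k).mul continuous_const
  let g : KI → ℝ → ℝ≥0∞ := fun i c =>
    if (∀ q, w q ≠ c) ∧ (kF w c i).Nonempty then
      ∫⁻ z in ch i c '' kF w c i, Q i (Function.invFunOn (ch i c) (kF w c i) z) else 0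
  have h7 : ∀ i, ∫⁻ x in tet i, Q i x * ENNReal.ofReal ‖grad w i‖ = ∫⁻ c, g i c := by
    intro i
    symm
    refine K7 w i (ch i) ?_ (Q i) (hQm i)
    intro c hc hne
    have h : (∀ q, w q ≠ c) ∧ (kF w c i).Nonempty := ⟨hc, hne⟩
    have hiso := (S c h.1).ch_iso ((e c h.1).symm ⟨i, h.2⟩)
    have hint := (S c h.1).ch_int ((e c h.1).symm ⟨i, h.2⟩)
    rw [hFi i c h] at hiso hint
    rw [hch i c h]
    exact ⟨hiso, hint⟩
  -- the vertex function
  let hh : ℝ → E3 → ℝ≥0∞ := fun c v =>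
    if h : (∀ q, w q ≠ c) ∧ |c| < s + 2 then
      (if v ∈ (S c h.1).V ∧ (S c h.1).rho (Src φ B s L0 c) v < ⊤ then
        ENNReal.ofReal (W 2 c) * (ENNReal.ofReal ((S c h.1).β (Src φ B s L0 c) v) *
        (ENNReal.ofReal (Real.exp (2 * ε) * G v ^ 2) *
          Ph f ((S c h.1).rho (Src φ B s L0 c) v).toReal)) else 0)
    else 0
  let Θ : PS.Lat → Fin 7 → ℝ≥0∞ := fun q τ =>
    RrT φ B s L0 ε W f G (pt q) τ / ENNReal.ofReal |w (q + evec τ) - w q|
  have hΘ : ∀ c ∈ (univ : Set ℝ), (∀ q, w q ≠ c) → ∀ (q : PS.Lat) (τ : Fin 7) (t : ℝ),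
      0 < t → t < 1 → (1 - t) * w q + t * w (q + evec τ) = c →
      hh c (pt q + t • pt (evec τ)) ≤ Θ q τ := by
    intro c _ hc q τ t ht0 ht1 hct
    by_cases hcs : |c| < s + 2
    swap
    · simp only [hh, dif_neg (fun h : (∀ q, w q ≠ c) ∧ |c| < s + 2 => hcs h.2)]
      exact zero_le
    have h : (∀ q, w q ≠ c) ∧ |c| < s + 2 := ⟨hc, hcs⟩
    simp only [hh, dif_pos h]
    split_ifs with hv
    swap
    · exact zero_le
    have hne : w (q + evec τ) ≠ w q := by
      intro h0
      apply hc q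
      rw [← hct, h0]; ring
    have hD : (0 : ℝ) < |w (q + evec τ) - w q| := abs_pos.2 (sub_ne_zero.2 hne)
    rw [ENNReal.le_div_iff_mul_le (Or.inl (by simpa using hD)) (Or.inl ENNReal.ofReal_ne_top)]
    exact HB L0 hL0 φ B gB W f R0 G hW hf hGw c hcs hc (S c hc) (e c hc) (hF c hc) (hV c hc)
      (hθ c hc) q τ t ht0 ht1 hct _ rfl hv.2
  have h77 := hF7 w univ hh Θ MeasurableSet.univ hΘ
  -- pointwise in c
  have hpt : ∀ c, ∑' i, g i c ≤ (if (∀ q, w q ≠ c) then ∑' v : kV w c, hh c v else 0) := by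
    intro c
    by_cases hc : ∀ q, w q ≠ c
    swap
    · have : ∀ i, g i c = 0 := fun i => if_neg (fun h => hc h.1)
      simp [this]
    rw [if_pos hc]
    by_cases hcs : |c| < s + 2
    swap
    · have hW0 : W 2 c = 0 := by
        by_contra h0
        exact hcs (hW.supp 2 c h0)
      have : ∀ i, g i c = 0 := by
        intro i
        simp only [g]
        split_ifs with h
        · have hmeas : MeasurableSet (ch i c '' kF w c i) := by
            have hcc : Continuous (ch i c) := (ch i c).continuous_of_finiteDimensional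
            exact ((K1 w c hc).1 i).2.image hcc |>.measurableSet
          rw [setLIntegral_congr_fun (g := fun _ => 0) hmeas]
          · simp
          · intro z hz
            simp only [Q]
            have hz' := Function.invFunOn_mem hz
            rw [hz'.2, hW0]; simp
        · rfl
      simp [this]
    have h : (∀ q, w q ≠ c) ∧ |c| < s + 2 := ⟨hc, hcs⟩
    let X : (S c hc).ι → ℝ≥0∞ := fun j =>
      ∫⁻ z in (S c hc).C j, Psi3 φ B s L0 ε f G ((S c hc).inv j z)
    have hgX : ∀ (i : KI) (hne : (kF w c i).Nonempty),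
        g i c = ENNReal.ofReal (W 2 c) * X ((e c hc).symm ⟨i, hne⟩) := by
      intro i hne
      have h' : (∀ q, w q ≠ c) ∧ (kF w c i).Nonempty := ⟨hc, hne⟩
      have hmeas : MeasurableSet (ch i c '' kF w c i) := by
        have hcc : Continuous (ch i c) := (ch i c).continuous_of_finiteDimensional
        exact ((K1 w c hc).1 i).2.image hcc |>.measurableSet
      have e1 : X ((e c hc).symm ⟨i, hne⟩) = ∫⁻ z in ch i c '' kF w c i,
          Psi3 φ B s L0 ε f G (Function.invFunOn (ch i c) (kF w c i) z) := by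
        simp only [X, Surf.C, Surf.inv]
        rw [hFi i c h', hch i c h']
      rw [e1, ← lintegral_const_mul' _ _ ENNReal.ofReal_ne_top]
      simp only [g, if_pos h']
      refine setLIntegral_congr_fun hmeas fun z hz => ?_
      have hz' := Function.invFunOn_mem hz
      simp only [Q]
      rw [hz'.2]
    have hsum : ∑' i, g i c = ∑' j : (S c hc).ι, ENNReal.ofReal (W 2 c) * X j := by
      have e0 : ∑' i, g i c = ∑' i : {i : KI // (kF w c i).Nonempty}, g i.1 c := by
        have := tsum_subtype {i : KI | (kF w c i).Nonempty} (fun i => g i c)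
        refine Eq.trans ?_ this.symm
        refine tsum_congr fun i => ?_
        by_cases hne : (kF w c i).Nonempty
        · rw [indicator_of_mem (show i ∈ {i : KI | (kF w c i).Nonempty} from hne)]
        · rw [indicator_of_notMem (show i ∉ {i : KI | (kF w c i).Nonempty} from hne)]
          exact if_neg (fun h => hne h.2)
      rw [e0, ← (e c hc).tsum_eq]
      refine tsum_congr fun j => ?_
      rw [hgX _ (e c hc j).2]
      congr 2
      exact (e c hc).symm_apply_apply j
    rw [hsum, ENNReal.tsum_mul_left]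
    have hAc := HA L0 hL0 φ B gA f R0 G hf hGw c hcs hc (S c hc) (e c hc) (hF c hc) (hV c hc)
    calc ENNReal.ofReal (W 2 c) * ∑' j, X j
        ≤ ENNReal.ofReal (W 2 c) * ∑' v : {v // v ∈ (S c hc).V ∧
            (S c hc).rho (Src φ B s L0 c) v < ⊤},
          ENNReal.ofReal ((S c hc).β (Src φ B s L0 c) v) *
            (ENNReal.ofReal (Real.exp (2 * ε) * G v ^ 2) *
              Ph f ((S c hc).rho (Src φ B s L0 c) v).toReal) := by
          gcongr
      _ = ∑' v : {v // v ∈ (S c hc).V ∧ (S c hc).rho (Src φ B s L0 c) v < ⊤}, hh c v := by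
          rw [← ENNReal.tsum_mul_left]
          refine tsum_congr fun v => ?_
          simp only [hh, dif_pos h, if_pos v.2]
      _ ≤ ∑' v : kV w c, hh c v := by
          let F : {v // v ∈ (S c hc).V ∧ (S c hc).rho (Src φ B s L0 c) v < ⊤} → kV w c :=
            fun v => ⟨v.1, by rw [← hV c hc]; exact v.2.1⟩
          have hFinj : Function.Injective F := by
            intro a b hab
            exact Subtype.ext (congrArg (fun x : kV w c => x.1) hab)
          exact ENNReal.tsum_comp_le_tsum_of_injective hFinj (fun v : kV w c => hh c v)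
  calc ∑' i : KI, ∫⁻ x in tet i, ENNReal.ofReal (W 2 (∑ k, bar i k x * w (vert i k))) *
      Psi3 φ B s L0 ε f G x * ENNReal.ofReal ‖grad w i‖
      = ∑' i : KI, ∫⁻ c, g i c := tsum_congr fun i => h7 i
    _ ≤ ∫⁻ c, ∑' i, g i c := tsum_lintegral_le _
    _ ≤ ∫⁻ c, (if (∀ q, w q ≠ c) then ∑' v : kV w c, hh c v else 0) := lintegral_mono hpt
    _ ≤ ∑' q : PS.Lat, ∑ τ : Fin 7, ENNReal.ofReal |w (q + evec τ) - w q| * Θ q τ := by
        simpa using h77
    _ ≤ ∑' q : PS.Lat, Rr φ B s L0 ε W f G (pt q) := by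
        refine ENNReal.tsum_le_tsum fun q => ?_
        refine le_trans (Finset.sum_le_sum fun τ _ => ?_) (sum_RrT_le φ B s L0 ε W f G (pt q))
        exact ENNReal.mul_div_le

end Vale.Agent.P134.PX
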