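import Vale.Agent.P134.PX.Defs

/-! # P134 / PX : basic facts on the chain distance `rho3` -/

open MeasureTheory Set
open scoped ENNReal RealInnerProductSpace Real

namespace Vale.Agent.P134.PX

open PS hiding Lat

variable {φ : E3 → ℝ} {S : ℝ} {Z : Set E3}

theorem rho3_le {x : E3} {n : ℕ} {p : ℕ → E3} (h : Ch3 φ S Z x n p) :
    rho3 φ S Z x ≤ ENNReal.ofReal (Surf.len n p) :=
  iInf_le_of_le n (iInf_le_of_le p (iInf_le_of_le h le_rfl))

theorem exists_of_rho3_lt {x : E3} {a : ℝ≥0∞} (h : rho3 φ S Z x < a) :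
    ∃ (n : ℕ) (p : ℕ → E3), Ch3 φ S Z x n p ∧ ENNReal.ofReal (Surf.len n p) < a := by
  simp only [rho3, iInf_lt_iff] at h
  obtain ⟨n, p, h, hl⟩ := h
  exact ⟨n, p, h, hl⟩

theorem Ch3.slab {x : E3} {n : ℕ} {p : ℕ → E3} (h : Ch3 φ S Z x n p) : |φ x| ≤ S := by
  have := h.2.2.1 n le_rfl
  rwa [h.2.1] at this

theorem slab_of_rho3 {x : E3} (h : rho3 φ S Z x < ⊤) : |φ x| ≤ S := by
  obtain ⟨n, p, h, -⟩ := exists_of_rho3_lt h
  exact h.slab

theorem len_nonneg (n : ℕ) (p : ℕ → E3) : 0 ≤ Surf.len n p :=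
  Finset.sum_nonneg fun _ _ => dist_nonneg

theorem len_congr {n : ℕ} {p p' : ℕ → E3} (h : ∀ k ≤ n, p k = p' k) :
    Surf.len n p = Surf.len n p' := by
  unfold Surf.len
  refine Finset.sum_congr rfl fun k hk => ?_
  have := Finset.mem_range.1 hk
  rw [h k (by omega), h (k + 1) (by omega)]

theorem len_succ' (n : ℕ) (p : ℕ → E3) :
    Surf.len (n + 1) p = Surf.len n p + dist (p n) (p (n + 1)) := by
  simp [Surf.len, Finset.sum_range_succ]

/-- one more step -/
theorem rho3_step {x y : E3} (hy : |φ y| ≤ S) (hd : dist x y ≤ 2) :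
    rho3 φ S Z y ≤ rho3 φ S Z x + ENNReal.ofReal (dist x y) := by
  by_cases hx : rho3 φ S Z x < ⊤
  swap
  · rw [not_lt, top_le_iff] at hx
    rw [hx]; simp
  refine ENNReal.le_of_forall_pos_le_add fun ε hε _ => ?_
  have h1 : rho3 φ S Z x < rho3 φ S Z x + ε := ENNReal.lt_add_right hx.ne (by positivity)
  obtain ⟨n, p, h, hl⟩ := exists_of_rho3_lt h1
  let q : ℕ → E3 := fun k => if k ≤ n then p k else y
  have hq : Ch3 φ S Z y (n + 1) q := by
    refine ⟨?_, ?_, ?_, ?_⟩
    · simp only [q, Nat.zero_le, if_true]; exact h.1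
    · simp [q]
    · intro k hk
      by_cases hkn : k ≤ n
      · simp only [q, hkn, if_true]; exact h.2.2.1 k hkn
      · simp only [q, hkn, if_false]; exact hy
    · intro k hk
      by_cases hkn : k + 1 ≤ n
      · have : k ≤ n := by omega
        simp only [q, hkn, this, if_true]
        exact h.2.2.2 k (by omega)
      · have : k = n := by omega
        subst this
        simp only [q, le_refl, if_true, hkn, if_false]
        rw [h.2.1]; exact hd
  have hlen : Surf.len (n + 1) q = Surf.len n p + dist x y := by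
    rw [len_succ', len_congr (p := q) (p' := p) (n := n) (fun k hk => by simp [q, hk])]
    simp [q, h.2.1]
  calc rho3 φ S Z y ≤ ENNReal.ofReal (Surf.len (n + 1) q) := rho3_le hq
    _ = ENNReal.ofReal (Surf.len n p) + ENNReal.ofReal (dist x y) := by
        rw [hlen, ENNReal.ofReal_add (len_nonneg _ _) dist_nonneg]
    _ ≤ (rho3 φ S Z x + ε) + ENNReal.ofReal (dist x y) := by gcongr
    _ = rho3 φ S Z x + ENNReal.ofReal (dist x y) + ε := by ring

theorem rho3_eq_zero {x : E3} (hx : x ∈ Z) (hs : |φ x| ≤ S) : rho3 φ S Z x = 0 := by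
  have h : Ch3 φ S Z x 0 (fun _ => x) := ⟨hx, rfl, fun _ _ => hs, fun k hk => by omega⟩
  have := rho3_le h
  simpa [Surf.len] using this

/-- along a segment in the slab -/
theorem rho3_segment {x y : E3} (hs : ∀ z ∈ segment ℝ x y, |φ z| ≤ S) :
    rho3 φ S Z y ≤ rho3 φ S Z x + ENNReal.ofReal (dist x y) := by
  obtain ⟨N, hN⟩ := exists_nat_gt (dist x y)
  have hN0 : (0 : ℝ) < N := lt_of_le_of_lt dist_nonneg hN
  set c : ℕ → E3 := fun k => AffineMap.lineMap x y ((k : ℝ) / N) with hc
  have hd : ∀ k, dist (c k) (c (k + 1)) = dist x y / N := by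
    intro k
    rw [hc]
    simp only
    rw [dist_lineMap_lineMap, Real.dist_eq]
    have : (k : ℝ) / N - ((k + 1 : ℕ) : ℝ) / N = -(1 / N) := by push_cast; ring
    rw [this, abs_neg, abs_of_pos (by positivity)]
    ring
  have key : ∀ k ≤ N, rho3 φ S Z (c k) ≤
      rho3 φ S Z x + ENNReal.ofReal (k * (dist x y / N)) := by
    intro k
    induction k with
    | zero =>
      intro _
      have : c 0 = x := by simp [hc]
      rw [this]; simp
    | succ k ih =>
      intro hk
      have hseg : |φ (c (k + 1))| ≤ S := by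
        apply hs
        rw [segment_eq_image_lineMap]
        refine ⟨((k + 1 : ℕ) : ℝ) / N, ⟨by positivity, ?_⟩, rfl⟩
        rw [div_le_one hN0]; exact_mod_cast hk
      have h2 : dist (c k) (c (k + 1)) ≤ 2 := by
        rw [hd, div_le_iff₀ hN0]
        nlinarith
      calc rho3 φ S Z (c (k + 1)) ≤ rho3 φ S Z (c k) + ENNReal.ofReal (dist (c k) (c (k + 1))) :=
            rho3_step hseg h2
        _ ≤ (rho3 φ S Z x + ENNReal.ofReal (k * (dist x y / N))) +
            ENNReal.ofReal (dist x y / N) := by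
            rw [hd]; gcongr; exact ih (by omega)
        _ = rho3 φ S Z x + ENNReal.ofReal (((k + 1 : ℕ) : ℝ) * (dist x y / N)) := by
            rw [add_assoc, ← ENNReal.ofReal_add (by positivity) (by positivity)]
            congr 2; push_cast; ring
  have h := key N le_rfl
  have hcN : c N = y := by simp [hc, div_self hN0.ne']
  rw [hcN] at h
  have : (N : ℝ) * (dist x y / N) = dist x y := by field_simp
  rwa [this] at h

theorem measurable_rho3 (hφ : Continuous φ) : Measurable (rho3 φ S Z) := by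
  refine measurable_of_Iio fun a => ?_
  set K : Set E3 := {x | |φ x| ≤ S}
  have hK : IsClosed K := isClosed_le (by fun_prop) continuous_const
  have hU : rho3 φ S Z ⁻¹' Iio a =
      K ∩ ⋃ x ∈ {x | rho3 φ S Z x < a}, {y | dist x y < 2 ∧
        rho3 φ S Z x + ENNReal.ofReal (dist x y) < a} := by
    ext y
    simp only [mem_preimage, mem_Iio, mem_inter_iff, mem_iUnion, mem_ofPred_eq, exists_prop]
    constructor
    · intro h
      refine ⟨slab_of_rho3 (lt_of_lt_of_le h le_top), y, h, by simp, by simpa using h⟩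
    · rintro ⟨hy, x, -, h2, h3⟩
      exact lt_of_le_of_lt (rho3_step hy h2.le) h3
  rw [hU]
  refine hK.measurableSet.inter (IsOpen.measurableSet ?_)
  refine isOpen_biUnion fun x _ => ?_
  have hc : Continuous fun y : E3 => dist x y := continuous_const.dist continuous_id
  have hc2 : Continuous fun y : E3 => rho3 φ S Z x + ENNReal.ofReal (dist x y) :=
    Continuous.add continuous_const (ENNReal.continuous_ofReal.comp hc)
  exact IsOpen.inter (isOpen_lt hc continuous_const) (isOpen_lt hc2 continuous_const)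

/-- translation -/
theorem rho3_translate (o x : E3) :
    rho3 (fun y => φ (y + o)) S ((fun y => y + o) ⁻¹' Z) x = rho3 φ S Z (x + o) := by
  apply le_antisymm
  · refine le_iInf fun n => le_iInf fun p => le_iInf fun h => ?_
    have h' : Ch3 (fun y => φ (y + o)) S ((fun y => y + o) ⁻¹' Z) x n (fun k => p k - o) := by
      refine ⟨?_, ?_, ?_, ?_⟩
      · simpa using h.1
      · simp [h.2.1]
      · intro k hk; simpa using h.2.2.1 k hk
      · intro k hk; simpa using h.2.2.2 k hk
    refine (rho3_le h').trans (le_of_eq ?_)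
    simp [Surf.len]
  · refine le_iInf fun n => le_iInf fun p => le_iInf fun h => ?_
    have h' : Ch3 φ S Z (x + o) n (fun k => p k + o) := by
      refine ⟨?_, ?_, ?_, ?_⟩
      · simpa using h.1
      · simp [h.2.1]
      · intro k hk; simpa using h.2.2.1 k hk
      · intro k hk; simpa using h.2.2.2 k hk
    refine (rho3_le h').trans (le_of_eq ?_)
    simp [Surf.len]

/-- a point at finite distance is at distance at most `rho3 + 2 L0` from some bad centre -/
theorem exists_source {x : E3} {a : ℝ} (h : rho3 φ S Z x < ENNReal.ofReal a) :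
    ∃ z ∈ Z, dist x z < a := by
  obtain ⟨n, p, h, hl⟩ := exists_of_rho3_lt h
  refine ⟨p 0, h.1, ?_⟩
  have h1 : dist (p 0) (p n) ≤ Surf.len n p := by
    unfold Surf.len
    exact dist_le_range_sum_dist p n
  rw [h.2.1] at h1
  rw [dist_comm]
  refine lt_of_le_of_lt h1 ?_
  exact (ENNReal.ofReal_lt_ofReal_iff_of_nonneg (len_nonneg _ _)).1 hl

end Vale.Agent.P134.PX
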